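import Vale.Agent.P366Y.Sk
import Vale.Agent.P366Z.Int

/-!
# P366Y, tools: the local maximum estimate, the square on balls
-/

open MeasureTheory Metric Filter Topology Set
open scoped ContDiff ENNReal
open Vale.Agent.P366.Stmt Vale.Agent.P366Z

noncomputable section

namespace Vale.Agent.P366Y

namespace LocH

variable {n : ℕ}

theorem e2_nn (p : Vc n) : 0 ≤ e2 p := Finset.sum_nonneg fun _ _ => sq_nonneg _

theorem nsq_le (p : Vc n) : ‖p‖ ^ 2 ≤ e2 p := by
  rw [← Real.le_sqrt (norm_nonneg _) (e2_nn p), pi_norm_le_iff_of_nonneg (Real.sqrt_nonneg _)]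
  exact fun i => Real.abs_le_sqrt (Finset.single_le_sum (f := fun i => p i ^ 2)
    (fun _ _ => sq_nonneg _) (Finset.mem_univ i))

theorem cont_e2 {v : E n → ℝ} (hv : ContDiff ℝ 1 v) : Continuous fun y => e2 (D1 v y) :=
  continuous_finsetSum _ fun i _ => (contDiff_pd (k := 0) hv (by norm_num) i).continuous.pow 2

/-- the divergence theorem -/
theorem core {η : E n → ℝ} {Z : Fin n → E n → ℝ} {R : ℝ} (hη : Lip η) (e : ∀ y, R ≤ ‖y‖ → η y = 0)
    (hZ : ∀ i, ContDiff ℝ 1 (Z i)) {f g : E n → ℝ} (hf : Integrable f) (hg : Integrable g) (c : ℝ)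
    (h : ∀ᵐ y, f y ≤ c * ∑ i, (η y * pd i (Z i) y + pd i η y * Z i y) + g y) :
    ∫ y, f y ≤ ∫ y, g y := by
  have i1 : ∀ i, Integrable fun y => η y * pd i (Z i) y := fun i => integrable_of_out
    (hη.cont.mul (contDiff_pd (k := 0) (hZ i) (by norm_num) i).continuous) (R := R)
      fun y hy => by rw [e y hy, zero_mul]
  have i2 : ∀ i, Integrable fun y => pd i η y * Z i y := fun i => by
    simpa only [mul_comm] using hη.integrable_pd e (hZ i).continuous i
  have i0 : ∀ i ∈ Finset.univ, Integrable fun y => η y * pd i (Z i) y + pd i η y * Z i y :=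
    fun i _ => (i1 i).add (i2 i)
  have i3 := (integrable_finsetSum _ i0).const_mul c
  refine (integral_mono_ae hf (i3.add hg) h).trans_eq ?_
  rw [integral_add' i3 hg, integral_const_mul, integral_finsetSum _ i0,
    Finset.sum_eq_zero fun i _ => ?_, mul_zero, zero_add]
  rw [integral_add (i1 i) (i2 i), ibp hη (supp_of_out e) (hZ i), neg_add_cancel]

theorem lip_cut {v : E n → ℝ} (hv : ContDiff ℝ 1 v) {R : ℝ} (hR : 0 < R) (k : ℝ) :
    (Lip fun y => max (cut R y * v y - k) 0) ∧ ∃ A, ∀ y, |max (cut R y * v y - k) 0| ≤ A := by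
  have h : ContDiff ℝ 1 fun y => cut R y * v y :=
    ContDiff.mul (ContDiff.of_le (sm_cut _) (by norm_cast)) hv
  have hc : HasCompactSupport fun y => cut R y * v y := (supp_cut hR).mul_right
  obtain ⟨A, hA⟩ := h.continuous.bounded_above_of_compact_support hc
  refine ⟨((lip_of_supp h hc).sub (lip_const k)).max (lip_const 0), A + |k|, fun y => ?_⟩
  rw [abs_of_nonneg (le_max_right _ _)]
  have := abs_le.1 (hA y)
  exact max_le (by linarith [neg_abs_le k]) (by linarith [abs_nonneg k])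

/-- testing with `ζ² (v - k)₊` -/
theorem test {v : E n → ℝ} (hv : ContDiff ℝ 1 v) {Z : Fin n → E n → ℝ}
    (hZ : ∀ i, ContDiff ℝ 1 (Z i)) {x : E n} {ρ γ χ c k₀ : ℝ} (hρ : 0 < ρ) (hγ : 0 ≤ γ)
    (h : ∀ y ∈ ball x ρ, ∀ k ≥ k₀, k < v y → ∀ ζ ∈ Icc (0 : ℝ) 1, ∀ q : Vc n,
      ζ ^ 2 * e2 (D1 v y) ≤ c * ∑ i, (ζ ^ 2 * (v y - k) * pd i (Z i) y +
        (2 * ζ * q i * (v y - k) + ζ ^ 2 * pd i v y) * Z i y) + γ * (e2 q * (v y - k) ^ 2) + χ ^ 2) :
    DG γ χ k₀ v x ρ := by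
  intro k hk ζ zl zb z0
  have R0 : 0 < ‖x‖ + ρ := by positivity
  have hA : IsOpen {y | k < v y} := isOpen_lt continuous_const hv.continuous
  have hA' : IsOpen {y | k < v y ∧ ζ y ≠ 0} := hA.inter (isOpen_ne_fun zl.cont continuous_const)
  have z1 : ∀ y, ζ y ≠ 0 → y ∈ ball x ρ := fun y hy => mem_ball_iff_norm.2 (not_le.1 (mt (z0 y) hy))
  have z2 : ∀ y, ‖x‖ + ρ ≤ ‖y‖ → ζ y = 0 := fun y hy =>
    z0 y (by linarith [norm_le_norm_add_norm_sub' y x])
  have z4 : ∀ y, |ζ y| ≤ 1 := fun y => by rw [abs_of_nonneg (zb y).1]; exact (zb y).2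
  have c1 : ∀ y, ζ y ≠ 0 → cut (‖x‖ + ρ) y * v y = v y := fun y hy => by
    rw [cut_one (not_le.1 (mt (z2 y) hy)).le, one_mul]
  obtain ⟨l1, A, l2⟩ := lip_cut hv R0 k
  set η := fun y => ζ y * ζ y * max (cut (‖x‖ + ρ) y * v y - k) 0 with hη
  have ηl : Lip η := (zl.mul zl z4 z4).mul l1 (A := 1)
    (fun y => by rw [abs_mul]; exact mul_le_one₀ (z4 y) (abs_nonneg _) (z4 y)) l2
  have η0 : ∀ y ∉ {y | k < v y ∧ ζ y ≠ 0}, η y = 0 := fun y hy => by
    by_cases k1 : ζ y = 0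
    · simp only [hη, k1, zero_mul]
    · have : v y - k ≤ 0 := sub_nonpos.2 (not_lt.1 fun k2 => hy ⟨k2, k1⟩)
      simp only [hη, c1 y k1, max_eq_right this, mul_zero]
  have η1 : ∀ y ∈ {y | k < v y ∧ ζ y ≠ 0}, η y = ζ y ^ 2 * (v y - k) := fun y hy => by
    simp only [hη, c1 y hy.2, max_eq_left (sub_pos.2 hy.1).le, pow_two]
  obtain ⟨K, -, hK⟩ := zl.pd_bd
  have i5 : Integrable fun y => e2 (D1 ζ y) * max (v y - k) 0 ^ 2 := by
    simpa only [mul_comm] using integrable_of_bd (f := fun y => max (v y - k) 0 ^ 2)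
      (by have := hv.continuous; fun_prop) (h := fun y => e2 (D1 ζ y))
      (Finset.measurable_sum _ fun i _ => (measurable_pd zl.cont i).pow_const 2)
      (K := ∑ _ : Fin n, K ^ 2) (R := ‖x‖ + ρ) (fun y => by
        rw [abs_of_nonneg (e2_nn _)]
        exact Finset.sum_le_sum fun i _ => sq_le_sq' (abs_le.1 (hK y i)).1 (abs_le.1 (hK y i)).2)
      fun y hy => Finset.sum_eq_zero fun i _ => by rw [D1, pd_zero_of_out z2 hy, zero_pow two_ne_zero]
  have i6 : Integrable ({y | k < v y ∧ ζ y ≠ 0}.indicator (1 : E n → ℝ)) :=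
    (integrableOn_const ((measure_mono fun y hy => z1 y hy.2).trans_lt measure_ball_lt_top).ne
      ).integrable_indicator hA'.measurableSet
  have i7 : Integrable fun y => ζ y ^ 2 * e2 (D1 v y) := integrable_of_out
    ((zl.cont.pow 2).mul (cont_e2 hv)) fun y hy => by rw [z2 y hy, zero_pow two_ne_zero, zero_mul]
  rw [← integral_indicator hA.measurableSet, ← integral_indicator_one hA'.measurableSet,
    ← integral_const_mul, ← integral_const_mul, ← integral_add (i5.const_mul γ) (i6.const_mul _)]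
  refine core ηl (fun y hy => η0 y fun k1 => k1.2 (z2 y hy)) hZ (i7.indicator hA.measurableSet)
    ((i5.const_mul γ).add (i6.const_mul _)) c ?_
  filter_upwards [zl.ae_diff, ηl.ae_pd_zero 0] with y h1 h2
  by_cases hy : y ∈ {y | k < v y ∧ ζ y ≠ 0}
  · have d1 := hv.differentiable (by norm_num) y
    have h4 : ∀ i, pd i η y = 2 * ζ y * pd i ζ y * (v y - k) + ζ y ^ 2 * pd i v y := fun i => by
      rw [pd_congr (eventually_of_mem (hA'.mem_nhds hy) η1), pd_mul (h1.fun_pow 2) (d1.sub_const k),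
        pd_pow h1, pd_sub_const]
      simp only [Nat.cast_ofNat, Nat.add_one_sub_one, pow_one]
    rw [indicator_of_mem (show y ∈ {y | k < v y} from hy.1), indicator_of_mem hy]
    simp only [h4, η1 y hy, max_eq_left (sub_pos.2 hy.1).le, Pi.one_apply, mul_one, ← add_assoc]
    exact h y (z1 y hy.2) k hk hy.1 _ (zb y) (D1 ζ y)
  · have h3 : {y | k < v y}.indicator (fun y => ζ y ^ 2 * e2 (D1 v y)) y = 0 := by
      rw [indicator_apply_eq_zero]
      intro k1
      rw [not_not.1 fun k2 => hy ⟨k1, k2⟩, zero_pow two_ne_zero, zero_mul]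
    simp only [h3, indicator_of_notMem hy, h2 (η0 y hy), η0 y hy, zero_mul, add_zero,
      Finset.sum_const_zero, mul_zero, zero_add]
    exact mul_nonneg hγ (mul_nonneg (e2_nn _) (sq_nonneg _))

theorem bil {a : Mx n} {Λ : ℝ} (h : ∀ i j, |a i j| ≤ Λ) {q p : Vc n} {M N : ℝ}
    (hq : ∀ i, |q i| ≤ M) (hp : ∀ i, |p i| ≤ N) :
    -(n ^ 2 * (Λ * M * N)) ≤ ∑ i, ∑ j, a i j * q i * p j := by
  refine le_trans (le_of_eq ?_) (Finset.sum_le_sum fun i _ => Finset.sum_le_sum fun j _ =>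
    neg_le_of_abs_le (b := Λ * M * N) ?_)
  · simp only [Finset.sum_const, Finset.card_fin, nsmul_eq_mul]
    ring
  · have := (abs_nonneg _).trans (h i j)
    have := (abs_nonneg _).trans (hq i)
    rw [abs_mul, abs_mul]
    gcongr
    exacts [h i j, hq i, hp j]

theorem alg {Λ L ζ w S ρ N M G Q A₁ A₂ A₃ d m : ℝ} (hΛ : 0 ≤ Λ) (hm : 0 ≤ m)
    (hL : L = Λ ^ 2 * (m + 1)) (z0 : 0 ≤ ζ) (z1 : ζ ≤ 1) (w0 : 0 ≤ w) (w1 : w ≤ S) (r0 : 0 ≤ ρ)
    (N0 : 0 ≤ N) (M0 : 0 ≤ M) (hN : N ^ 2 ≤ G) (hM : M ^ 2 ≤ Q) (h1 : G ≤ Λ * A₁)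
    (h2 : -(m * (Λ * M * N)) ≤ A₂) (h3 : -(m * (Λ * ρ * 1 * N)) ≤ A₃)
    (h4 : -(Λ * (N * ρ + S * ρ ^ 2)) ≤ d) :
    ζ ^ 2 * G ≤ 2 * Λ * (ζ ^ 2 * w * (d + A₃) + 2 * ζ * w * A₂ + ζ ^ 2 * A₁) +
      8 * L ^ 2 * (Q * w ^ 2) + ((2 * L + 1) * (S * ρ)) ^ 2 := by
  have S0 := w0.trans w1
  have L0 : 0 ≤ L := by rw [hL]; positivity
  have L1 : Λ ^ 2 ≤ L := by rw [hL]; nlinarith [sq_nonneg Λ]
  have L2 : Λ ^ 2 * m ≤ L := by rw [hL]; nlinarith [sq_nonneg Λ]
  have k1 := mul_le_mul_of_nonneg_left h1 (sq_nonneg ζ)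
  have k2 := mul_le_mul_of_nonneg_left h2 (show 0 ≤ 4 * Λ * ζ * w by positivity)
  have k3 := mul_le_mul_of_nonneg_left (add_le_add h3 h4) (show 0 ≤ 2 * Λ * ζ ^ 2 * w by positivity)
  have k4 := mul_le_mul_of_nonneg_left hN (sq_nonneg ζ)
  have k5 : Λ ^ 2 * m * (ζ * N * (w * M)) ≤ L * (ζ * N * (w * M)) := by gcongr
  have k6 : L ^ 2 * (M ^ 2 * w ^ 2) ≤ L ^ 2 * (Q * w ^ 2) := by gcongr
  have k7 : L * (ζ * N * (ζ * w * ρ)) ≤ L * (ζ * N * (1 * S * ρ)) := by gcongr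
  have k8 : Λ ^ 2 * (ζ ^ 2 * w * (S * ρ ^ 2)) ≤ L * (1 ^ 2 * S * (S * ρ ^ 2)) := by gcongr
  have k9 := sq_nonneg (ζ * N - 4 * L * (w * M))
  have k10 := sq_nonneg (ζ * N - 2 * L * (S * ρ))
  have k11 : 0 ≤ (2 * L ^ 2 + 2 * L + 1) * (S * ρ) ^ 2 := by positivity
  have k12 : Λ ^ 2 * (m + 1) * (ζ * N * (ζ * w * ρ)) = L * (ζ * N * (ζ * w * ρ)) := by rw [hL]
  linarith

/-- the inequality of Caccioppoli on a small ball -/
theorem dg {Λ : ℝ} {a : E n → Mx n} {v : E n → ℝ} {x : E n} {r ρ k₀ S : ℝ} (hΛ : 0 ≤ Λ)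
    (hr : 0 < r) (hρ : 0 < ρ) (hk : 0 ≤ k₀) (ha : ContDiff ℝ 1 a) (hv : ContDiff ℝ 2 v)
    (h : ∀ y ∈ ball x ρ, v y ≤ S ∧ El Λ (a y) ∧ (∀ i j k, |pd k (fun z => a z i j) y| ≤ Λ / r) ∧
      (k₀ < v y → -(Λ * (‖D1 v y‖ / r + v y / r ^ 2)) ≤ pr2 (a y) (D2 v y))) :
    DG (8 * (Λ ^ 2 * (n ^ 2 + 1)) ^ 2) ((2 * (Λ ^ 2 * (n ^ 2 + 1)) + 1) * (S * r⁻¹)) k₀ v x ρ := by
  have a1 : ∀ i j, ContDiff ℝ 1 fun z => a z i j := fun i j =>
    contDiff_pi.1 (contDiff_pi.1 ha i) j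
  have v1 : ∀ j, ContDiff ℝ 1 (pd j v) := contDiff_pd hv (by norm_num)
  refine test (hv.of_le (by norm_num)) (Z := fun i y => ∑ j, a y i j * pd j v y)
    (fun i => ContDiff.sum fun j _ => (a1 i j).mul (v1 j)) (c := 2 * Λ) hρ (by positivity)
    fun y hy k hk' hy' ζ hζ q => ?_
  obtain ⟨h0, ⟨-, h1, h2⟩, h3, h4⟩ := h y hy
  have da := fun i j => (a1 i j).differentiable (by norm_num) y
  have dv := fun j => (v1 j).differentiable (by norm_num) y
  have hp : ∀ i, |D1 v y i| ≤ ‖D1 v y‖ := norm_le_pi_norm (D1 v y)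
  have e : ∑ i, (ζ ^ 2 * (v y - k) * pd i (fun y => ∑ j, a y i j * pd j v y) y +
      (2 * ζ * q i * (v y - k) + ζ ^ 2 * pd i v y) * ∑ j, a y i j * pd j v y) =
      ζ ^ 2 * (v y - k) * (pr2 (a y) (D2 v y) +
        ∑ i, ∑ j, pd i (fun z => a z i j) y * 1 * D1 v y j) +
      2 * ζ * (v y - k) * ∑ i, ∑ j, a y i j * q i * D1 v y j +
      ζ ^ 2 * ∑ i, ∑ j, a y i j * D1 v y i * D1 v y j := by
    simp only [pr2, D1, D2, Finset.mul_sum, ← Finset.sum_add_distrib]
    refine Finset.sum_congr rfl fun i _ => ?_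
    rw [pd_sum _ fun j _ => (da i j).fun_mul (dv j), Finset.mul_sum, ← Finset.sum_add_distrib]
    refine Finset.sum_congr rfl fun j _ => ?_
    rw [pd_mul (da i j) (dv j)]
    ring
  rw [e]
  refine alg hΛ (sq_nonneg (n : ℝ)) rfl hζ.1 hζ.2 (sub_pos.2 hy').le (by linarith)
    (inv_pos.2 hr).le (norm_nonneg _) (norm_nonneg _) (nsq_le _) (nsq_le q) (h2 _)
    (bil h1 (norm_le_pi_norm q) hp) (bil (q := fun _ => 1) (fun i j => h3 i j i) (by simp) hp)
    (le_trans ?_ (h4 (hk'.trans_lt hy')))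
  rw [div_eq_mul_inv, div_eq_mul_inv, inv_pow]
  gcongr

end LocH

open LocH in
theorem loc_of (hD : DGS) : LOC := by
  intro n Λ hn
  obtain ⟨C, hC, H⟩ := hD n (8 * (Λ ^ 2 * (n ^ 2 + 1)) ^ 2) hn
  have hL : 0 < 2 * (Λ ^ 2 * ((n : ℝ) ^ 2 + 1)) + 1 := by positivity
  obtain ⟨ε, e0, e1, e2⟩ : ∃ ε : ℝ, 0 < ε ∧ ε ≤ 1 / 2 ∧
      C * (2 * (Λ ^ 2 * (n ^ 2 + 1)) + 1) * 2 ^ n * ε ≤ 1 / 2 :=
    ⟨min (1 / 2) (1 / 2 / (C * (2 * (Λ ^ 2 * (n ^ 2 + 1)) + 1) * 2 ^ n)), by positivity,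
      min_le_left _ _, (le_div_iff₀' (by positivity)).1 (min_le_right _ _)⟩
  refine ⟨2 ^ n * (2 * C / ε ^ n + 1) + 1, by positivity, fun a v x r k₀ hr hk ha hv h y hy => ?_⟩
  have hΛ : 0 ≤ Λ := (abs_nonneg _).trans ((h x (mem_ball_self hr)).1.2.1 ⟨0, by omega⟩ ⟨0, by omega⟩)
  have vc := hv.continuous
  have t1 : (1 : ℝ) ≤ 2 ^ n := one_le_pow₀ one_le_two
  obtain ⟨z, hz, hm⟩ := (isCompact_closedBall x r).exists_isMaxOn ⟨x, mem_closedBall_self hr.le⟩
    (f := fun y => (r - dist y x) ^ n * max (v y - k₀) 0) (by fun_prop)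
  have hm' : ∀ w, ∀ t : ℝ, 0 < t → t ≤ r - dist w x →
      t ^ n * (v w - k₀) ≤ (r - dist z x) ^ n * max (v z - k₀) 0 := fun w t h1 h2 =>
    le_trans (mul_le_mul_of_nonneg_left (le_max_left _ 0) (by positivity)) (le_trans
      (mul_le_mul_of_nonneg_right (pow_le_pow_left₀ h1.le h2 n) (le_max_right _ _))
      (hm (mem_closedBall.2 (by linarith))))
  set J := √((∫ z in ball x r, max (v z - k₀) 0 ^ 2) / r ^ n) with hJ
  have J0 : 0 ≤ J := Real.sqrt_nonneg _
  have key : (r - dist z x) ^ n * max (v z - k₀) 0 ≤ r ^ n * (2 * C / ε ^ n * J + k₀) := by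
    rcases (sub_nonneg.2 (mem_closedBall.1 hz)).eq_or_lt with d0 | d0
    · rw [← d0, zero_pow (by omega), zero_mul]
      positivity
    have d1 : r - dist z x ≤ r := sub_le_self _ dist_nonneg
    have sb : ∀ w ∈ ball z (ε * (r - dist z x)), (r - dist z x) / 2 ≤ r - dist w x := fun w hw => by
      nlinarith [mem_ball.1 hw, dist_triangle w z x]
    generalize r - dist z x = d at *
    have f0 : 0 ≤ max (v z - k₀) 0 := le_max_right _ _
    have ρ0 : 0 < ε * d := by positivity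
    have sb' : ball z (ε * d) ⊆ ball x r := fun w hw => mem_ball.2 (by linarith [sb w hw])
    have h1 := H _ k₀ _ v z ρ0 (by positivity) (hv.of_le (by norm_num))
      (dg (S := k₀ + 2 ^ n * max (v z - k₀) 0) hΛ hr ρ0 hk ha hv fun w hw => ⟨by
        have := hm' w _ (half_pos d0) (sb w hw)
        rw [div_pow, div_mul_eq_mul_div, div_le_iff₀ (by positivity), mul_assoc,
          mul_le_mul_iff_right₀ (by positivity)] at this
        linarith, h w (sb' hw)⟩) z (mem_ball_self (half_pos ρ0))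
    have q1 : 1 ≤ (r / (ε * d)) ^ n := one_le_pow₀ ((one_le_div ρ0).2 (by nlinarith))
    have h2 : √((∫ w in ball z (ε * d), max (v w - k₀) 0 ^ 2) / (ε * d) ^ n) ≤
        J * (r / (ε * d)) ^ n := by
      have i1 : IntegrableOn (fun w => max (v w - k₀) 0 ^ 2) (ball x r) :=
        (ContinuousOn.integrableOn_compact (isCompact_closedBall x r) (by fun_prop)).mono_set
          ball_subset_closedBall
      have i2 := setIntegral_mono_set i1 (.of_forall fun w => sq_nonneg _) sb'.eventuallyLE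
      have i3 : 0 ≤ (∫ z in ball x r, max (v z - k₀) 0 ^ 2) / r ^ n :=
        div_nonneg (integral_nonneg fun w => sq_nonneg _) (by positivity)
      rw [Real.sqrt_le_left (by positivity), mul_pow J, hJ, Real.sq_sqrt i3]
      refine (div_le_div_of_nonneg_right i2 (by positivity)).trans (le_trans (le_of_eq ?_)
        (mul_le_mul_of_nonneg_left (le_self_pow₀ q1 two_ne_zero) i3))
      rw [div_pow]
      field_simp
    have h3 : r⁻¹ * (ε * d) ≤ ε := by
      rw [inv_mul_le_iff₀ hr]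
      nlinarith
    generalize 2 * (Λ ^ 2 * ((n : ℝ) ^ 2 + 1)) + 1 = L at *
    have h4 : max (v z - k₀) 0 ≤ C * (J * (r / (ε * d)) ^ n) +
        C * L * (k₀ + 2 ^ n * max (v z - k₀) 0) * ε := by
      refine max_le ?_ (by positivity)
      have k1 := mul_le_mul_of_nonneg_left h2 hC.le
      have k2 := mul_le_mul_of_nonneg_left h3
        (show 0 ≤ C * L * (k₀ + 2 ^ n * max (v z - k₀) 0) by positivity)
      linarith
    generalize max (v z - k₀) 0 = f at *
    have h5 : C * L * 1 * ε ≤ C * L * 2 ^ n * ε := by gcongr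
    have h6 : f ≤ 2 * C * (J * (r / (ε * d)) ^ n) + k₀ := by
      linarith [mul_le_mul_of_nonneg_right e2 f0, mul_le_mul_of_nonneg_right (h5.trans e2) hk]
    have h7 : d ^ n * (2 * C * (J * (r / (ε * d)) ^ n)) = r ^ n * (2 * C / ε ^ n * J) := by
      rw [div_pow, mul_pow]
      field_simp
    have h8 : d ^ n * k₀ ≤ r ^ n * k₀ := by gcongr
    linarith [mul_le_mul_of_nonneg_left h6 (pow_pos d0 n).le]
  have h9 := (hm' y _ (half_pos hr) (by linarith [mem_ball.1 hy])).trans key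
  rw [div_pow, div_mul_eq_mul_div, div_le_iff₀ (by positivity), mul_assoc,
    mul_le_mul_iff_right₀ (by positivity)] at h9
  have k1 : 0 ≤ 2 ^ n * (2 * C / ε ^ n) * k₀ := by positivity
  have k2 : 0 ≤ 2 ^ n * J := by positivity
  linarith

open LocH in
theorem l2b : L2B := by
  intro n r hn
  refine ⟨(1 + r ^ 2) * 4, by positivity, fun u e hu hl he => ?_⟩
  obtain ⟨K, hK, hK'⟩ := mem_cocompact.1 (hl.eventually (gt_mem_nhds one_lt_two))
  obtain ⟨R, R0, hR⟩ := hK.isBounded.subset_ball_lt 0 0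
  have u1 : ContDiff ℝ 1 u := hu.two.of_le (by norm_num)
  have out : ∀ y, R ≤ ‖y‖ → u y < 2 := fun y hy =>
    hK' fun k => (mem_ball_zero_iff.1 (hR k)).not_ge hy
  obtain ⟨l1, A, l2⟩ := lip_cut u1 R0 2
  have c1 : ∀ y, max (cut R y * u y - 2) 0 = max (u y - 2) 0 := fun y => by
    rcases le_total ‖y‖ R with k | k
    · rw [cut_one k, one_mul]
    · rw [max_eq_right (by nlinarith [out y k, cut_nonneg R y, cut_le_one R y]),
        max_eq_right (by linarith [out y k])]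
  simp only [c1] at l1 l2
  have ηl := l1.mul l1 l2 l2
  have η0 : ∀ y, u y ≤ 2 → max (u y - 2) 0 = 0 := fun y hy => max_eq_right (by linarith)
  have p0 : ∀ y : E n, 0 < 1 + ‖y‖ ^ 2 := fun y => by positivity
  have s1 : ContDiff ℝ 1 fun y : E n => 1 + ‖y‖ ^ 2 := contDiff_const.add contDiff_normSq
  have i5 : ∀ {f : E n → ℝ} (t : ℝ), Continuous f → Integrable ((ball 0 t).indicator f) :=
    fun t hf => ((hf.continuousOn.integrableOn_compact (isCompact_closedBall 0 t)).mono_set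
      ball_subset_closedBall).integrable_indicator measurableSet_ball
  have i6 := i5 R (cont_e2 u1)
  refine le_trans ?_ (mul_le_mul_of_nonneg_left (he R) (by positivity))
  rw [En, ← integral_indicator measurableSet_ball, ← integral_indicator measurableSet_ball,
    ← integral_const_mul]
  refine core (Z := fun i y => y i / (1 + ‖y‖ ^ 2)) ηl
    (fun y hy => by rw [η0 y (out y hy).le, zero_mul])
    (fun i => (contDiff_coord i).div s1 fun y => (p0 y).ne')
    (i5 r (by have := hu.cont; fun_prop)) (i6.const_mul _) ((1 + r ^ 2) * 2) ?_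
  filter_upwards [ηl.ae_pd_zero 0] with y h2
  rcases le_or_gt (u y) 2 with hy | hy
  · have h3 := h2 (by rw [η0 y hy, zero_mul])
    have h4 : 0 ≤ (ball 0 R).indicator (fun y => e2 (D1 u y)) y :=
      indicator_nonneg (fun _ _ => e2_nn _) y
    rw [indicator_apply_eq_zero.2 fun _ => by rw [η0 y hy, zero_pow two_ne_zero]]
    simp only [h3, η0 y hy, zero_mul, add_zero, Finset.sum_const_zero, mul_zero, zero_add]
    exact mul_nonneg (by positivity) h4
  · have d1 := (hu.diff y).sub_const 2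
    have h4 : ∀ i, pd i (fun y => max (u y - 2) 0 * max (u y - 2) 0) y =
        2 * (u y - 2) * pd i u y := fun i => by
      rw [pd_congr (h := fun y => (u y - 2) ^ 2) (eventually_of_mem
        ((isOpen_lt continuous_const hu.cont).mem_nhds hy) fun z (hz : 2 < u z) => by
          simp only [max_eq_left (sub_pos.2 hz).le, pow_two]), pd_pow d1, pd_sub_const]
      simp only [Nat.cast_ofNat, Nat.add_one_sub_one, pow_one]
    have h5 : ∀ i, pd i (fun y : E n => y i / (1 + ‖y‖ ^ 2)) y =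
        (1 + ‖y‖ ^ 2)⁻¹ - 2 * (1 + ‖y‖ ^ 2)⁻¹ ^ 2 * y i ^ 2 := fun i => by
      rw [pd_div ((contDiff_coord (m := 1) i).differentiable (by norm_num) y)
        (s1.differentiable (by norm_num) y) (p0 y).ne', pd_coord, if_pos rfl, pd_const_add,
        pd_normSq]
      field_simp
    have h6 : (ball 0 r).indicator (fun y => max (u y - 2) 0 ^ 2) y ≤
        (1 + r ^ 2) * ((1 + ‖y‖ ^ 2)⁻¹ * (u y - 2) ^ 2) := by
      by_cases k : y ∈ ball 0 r
      · rw [indicator_of_mem k, max_eq_left (sub_pos.2 hy).le, ← mul_assoc, ← div_eq_mul_inv]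
        refine le_mul_of_one_le_left (sq_nonneg _) ((one_le_div (p0 y)).2 ?_)
        have := mem_ball_zero_iff.1 k
        gcongr
      · rw [indicator_of_notMem k]
        positivity
    refine h6.trans ?_
    rw [indicator_of_mem (mem_ball_zero_iff.2 (not_le.1 fun k => (out y k).not_gt hy)), mul_assoc,
      mul_assoc, ← mul_add]
    refine mul_le_mul_of_nonneg_left ?_ (by positivity)
    simp only [h4, h5]
    simp only [max_eq_left (sub_pos.2 hy).le, div_eq_mul_inv]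
    have t1 : (1 + ‖y‖ ^ 2)⁻¹ * ∑ i, y i ^ 2 ≤ 1 := by
      rw [← norm_sq_eq, inv_mul_le_iff₀ (p0 y)]
      linarith
    have t0 := inv_pos.2 (p0 y)
    generalize (1 + ‖y‖ ^ 2)⁻¹ = t at *
    generalize u y - 2 = w
    have t2 : ∑ i, (w * w * t - 5 / 2 * (w * w * t * t) * y i ^ 2 - 2 * D1 u y i ^ 2) ≤
        ∑ i, (w * w * (t - 2 * t ^ 2 * y i ^ 2) + 2 * w * pd i u y * (y i * t)) :=
      Finset.sum_le_sum fun i _ => by
        rw [D1]
        linarith [sq_nonneg (w * t * y i + 2 * pd i u y)]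
    simp only [Finset.sum_sub_distrib, ← Finset.mul_sum, Finset.sum_const, Finset.card_fin,
      nsmul_eq_mul] at t2
    have t3 : 0 ≤ w * w * t := mul_nonneg (mul_self_nonneg w) t0.le
    have t4 : (3 : ℝ) ≤ n := by exact_mod_cast hn
    have t5 := mul_le_mul_of_nonneg_left t1 t3
    have t6 := mul_le_mul_of_nonneg_right t4 t3
    rw [e2]
    linarith

end Vale.Agent.P366Y
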