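import Vale.Agent.P366Y.Sk
import Vale.Agent.P366Z.GradA
import Vale.Agent.P366Z.St0.Bub
import Vale.Agent.P272.K.MP.Local

/-!
# P366Y, row MPN: maximum principles for operators in non divergence form
-/

open Metric Filter Topology Set
open scoped ContDiff
open Vale.Agent.P366.Stmt Vale.Agent.P366Z

noncomputable section

namespace Vale.Agent.P366Y

namespace Mp

variable {n : ℕ} {Λ : ℝ} {a : Mx n} {v w : E n → ℝ} {x : E n}

theorem el_nonneg (h : El Λ a) (ξ : Vc n) : 0 ≤ ∑ i, ∑ j, a i j * ξ i * ξ j := by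
  rcases isEmpty_or_nonempty (Fin n) with _ | ⟨⟨i⟩⟩
  · simp
  by_contra k
  have h1 := (h.2.2 ξ).trans (mul_nonpos_of_nonneg_of_nonpos
    ((abs_nonneg _).trans (h.2.1 i i)) (not_le.1 k).le)
  have h2 : ∀ j, ξ j = 0 := fun j => pow_eq_zero_iff two_ne_zero |>.1 (le_antisymm
    ((Finset.single_le_sum (fun j _ => sq_nonneg (ξ j)) (Finset.mem_univ j)).trans h1)
    (sq_nonneg _))
  simp [h2] at k

theorem at_max (h : El Λ a) (hw : ContDiffAt ℝ 2 w x) (hx : IsLocalMax w x) :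
    pr2 a (D2 w x) ≤ 0 :=
  Grad.pr_le (C := a) (H := D2 w x) h.1 (el_nonneg h) fun ξ =>
    (Grad.d2_eq hw (WithLp.toLp 2 ξ)).symm.trans_le
      (P272.K.MP.fderiv2_nonpos_of_max hx hw _)

theorem d2_lin (hv : ContDiff ℝ 2 v) (hw : ContDiff ℝ 2 w) (t : ℝ) (a : Mx n) (x : E n) :
    pr2 a (D2 (fun y => v y - t * w y) x) = pr2 a (D2 v x) - t * pr2 a (D2 w x) := by
  have d : ∀ {f : E n → ℝ}, ContDiff ℝ 2 f → ∀ y, DifferentiableAt ℝ f y := fun h y =>
    diff2 h.contDiffAt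
  have e : ∀ j, pd j (fun y => v y - t * w y) = fun y => pd j v y - t * pd j w y := fun j =>
    funext fun y => by rw [pd_sub (d hv y) ((d hw y).const_mul t), pd_const_mul]
  simp only [pr2, D2, e, pd_sub (diffAt_pd hv.contDiffAt _)
    ((diffAt_pd hw.contDiffAt _).const_mul t), pd_const_mul, mul_sub, Finset.sum_sub_distrib,
    Finset.mul_sum, mul_left_comm t]

theorem d2_sq (a : Mx n) (x : E n) : pr2 a (D2 (fun y => ‖y‖ ^ 2) x) = 2 * ∑ i, a i i := by
  have e : ∀ j, pd j (fun y : E n => ‖y‖ ^ 2) = fun y => 2 * y j := fun j =>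
    funext (pd_normSq j)
  simp only [pr2, D2, e, pd_const_mul, pd_coord, mul_ite, mul_one, mul_zero, Finset.sum_ite_eq,
    Finset.mem_univ, if_true, Finset.mul_sum]
  exact Finset.sum_congr rfl fun i _ => mul_comm _ _

/-- the resolvent preserves the order on bounded functions -/
theorem bdd {a : E n → Mx n} (ha : ∀ x, El Λ (a x)) {l M : ℝ} (hl : 0 < l) (hw : ContDiff ℝ 2 w)
    (hM : ∀ x, |w x| ≤ M) (h : ∀ x, l * w x ≤ pr2 (a x) (D2 w x)) (x : E n) : w x ≤ 0 := by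
  obtain ⟨K, hK⟩ : ∃ K, K = ‖x‖ ^ 2 + 2 * (n * |Λ|) / l + 1 := ⟨_, rfl⟩
  have K0 : 0 < K := by rw [hK]; positivity
  refine le_of_forall_pos_le_add fun e he => ?_
  have δ0 : 0 < e / K := div_pos he K0
  generalize hδ : e / K = δ at δ0
  have c2 : ContDiff ℝ 2 fun y => w y - δ * ‖y‖ ^ 2 := hw.sub (contDiff_const.mul contDiff_normSq)
  obtain ⟨y, hy⟩ := c2.continuous.exists_forall_ge' x (by
    filter_upwards [(tendsto_norm_cocompact_atTop (E := E n)).eventually_ge_atTop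
      (‖x‖ ^ 2 + 2 * M / δ + 1)] with y hy
    have h1 : 0 ≤ 2 * M / δ := div_nonneg (by linarith [abs_nonneg (w x), hM x]) δ0.le
    have h2 : ‖x‖ ^ 2 + 2 * M / δ ≤ ‖y‖ ^ 2 := by nlinarith [sq_nonneg ‖x‖]
    have h3 := mul_le_mul_of_nonneg_left h2 δ0.le
    rw [mul_add, mul_div_cancel₀ _ δ0.ne'] at h3
    linarith [(abs_le.1 (hM x)).1, (abs_le.1 (hM y)).2])
  have h1 := at_max (ha y) c2.contDiffAt (.of_forall hy)
  rw [d2_lin hw contDiff_normSq, d2_sq] at h1
  have h2 : ∑ i, a y i i ≤ n * |Λ| := by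
    simpa using Finset.sum_le_card_nsmul Finset.univ (fun i => a y i i) |Λ| fun i _ =>
      (le_abs_self _).trans (((ha y).2.1 i i).trans (le_abs_self _))
  have h3 : w y ≤ δ * (2 * (n * |Λ|) / l) := by
    rw [← mul_div_assoc, le_div_iff₀' hl]
    nlinarith [h y]
  have h4 : δ * K = e := by rw [← hδ, div_mul_cancel₀ _ K0.ne']
  have h5 := hy x
  have h6 : 0 ≤ δ * ‖y‖ ^ 2 := by positivity
  rw [hK] at h4
  linarith

theorem bu_sm : ContDiff ℝ ∞ (bu n) := St0.Bub.sm _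

theorem bu_c2 : ContDiff ℝ 2 (bu n) := Smooth.two bu_sm

theorem bu_pos (x : E n) : 0 < bu n x := Real.rpow_pos_of_pos (St0.Bub.pos x) _

theorem bu_le (hn : 3 ≤ n) (x : E n) : bu n x ≤ 1 := ((St0.bub0 n hn).2.2.2.1 x).2.1

theorem bu_lim (hn : 3 ≤ n) : Tendsto (bu n) (cocompact (E n)) (𝓝 0) := by
  have n3 : (3 : ℝ) ≤ n := by exact_mod_cast hn
  have h := (tendsto_rpow_neg_atTop (y := (n - 2 : ℝ) / 2) (by linarith)).comp
    (tendsto_atTop_add_const_left _ 1
      ((tendsto_pow_atTop two_ne_zero).comp (tendsto_norm_cocompact_atTop (E := E n))))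
  rwa [show -((n - 2 : ℝ) / 2) = (2 - n) / 2 by ring] at h

/-- the bubble is a strict supersolution -/
theorem bar (Λ₀ ρ : ℝ) (hn : 3 ≤ n) : ∃ l₀ : ℝ, ∃ C > (0 : ℝ), ∀ l ≥ l₀,
    ∀ (a : E n → Mx n) (c : E n → ℝ), Lin Λ₀ ρ l a c → ∀ x,
      pr2 (a x) (D2 (bu n) x) - c x * bu n x < 0 ∧
      (‖x‖ ≤ ρ + 1 → C * (pr2 (a x) (D2 (bu n) x) - c x * bu n x) ≤ -1) := by
  have n3 : (3 : ℝ) ≤ n := by exact_mod_cast hn
  have hb := St0.bub0 n hn
  have cD : Continuous fun x => (∑ i, ∑ j, |D2 (bu n) x i j|) / bu n x :=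
    (continuous_finsetSum _ fun i _ => continuous_finsetSum _ fun j _ =>
      (((Smooth.pd bu_sm j).pd i).cont).abs).div bu_sm.continuous fun x => (bu_pos x).ne'
  obtain ⟨K, hK⟩ := (isCompact_closedBall (0 : E n) ρ).exists_bound_of_continuousOn cD.continuousOn
  have cm : Continuous fun x => (min (bu n x) (St0.src n x))⁻¹ :=
    (bu_sm.continuous.min hb.2.1.cont).inv₀ fun x => (lt_min (bu_pos x) (hb.2.2.2.1 x).2.2.1).ne'
  obtain ⟨C, hC⟩ := (isCompact_closedBall (0 : E n) (ρ + 1)).exists_bound_of_continuousOn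
    cm.continuousOn
  refine ⟨|Λ₀| * K + 1, |C| + 1, by positivity, fun l hl a c h x => ?_⟩
  have m0 := lt_min (bu_pos x) (hb.2.2.2.1 x).2.2.1
  have key : pr2 (a x) (D2 (bu n) x) - c x * bu n x ≤ -min (bu n x) (St0.src n x) := by
    rcases le_total ‖x‖ ρ with hx | hx
    · have h1 : pr2 (a x) (D2 (bu n) x) ≤ |Λ₀| * ∑ i, ∑ j, |D2 (bu n) x i j| := by
        simp only [pr2, Finset.mul_sum]
        refine Finset.sum_le_sum fun i _ => Finset.sum_le_sum fun j _ => (le_abs_self _).trans ?_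
        rw [abs_mul]
        exact mul_le_mul_of_nonneg_right ((h.bd x i j).trans (le_abs_self _)) (abs_nonneg _)
      have h2 := (div_le_iff₀ (bu_pos x)).1 ((le_abs_self _).trans
        (hK x (mem_closedBall_zero_iff.2 hx)))
      have h3 := mul_le_mul_of_nonneg_left h2 (abs_nonneg Λ₀)
      have h4 := mul_le_mul_of_nonneg_right hl (bu_pos x).le
      rw [h.cl x hx]
      linarith [min_le_left (bu n x) (St0.src n x)]
    · have h1 : pr2 (a x) (D2 (bu n) x) = -(n * (n - 2) * St0.src n x) := by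
        rw [← (hb.2.2.2.1 x).2.2.2.2.1, h.id x hx, lap_eu]
        simp [pr2, D2, eu]
        rfl
      have h2 := mul_nonneg (h.cb x).1 (bu_pos x).le
      have h3 := mul_le_mul_of_nonneg_right (show (1 : ℝ) ≤ n * (n - 2) by nlinarith)
        (hb.2.2.2.1 x).2.2.1.le
      linarith [min_le_right (bu n x) (St0.src n x)]
  refine ⟨by linarith, fun hx => ?_⟩
  have h1 := mul_le_mul_of_nonneg_right ((le_abs_self _).trans
    ((hC x (mem_closedBall_zero_iff.2 hx)).trans (le_abs_self C))) m0.le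
  rw [inv_mul_cancel₀ m0.ne'] at h1
  have h2 := mul_le_mul_of_nonneg_left key (by positivity : 0 ≤ |C| + 1)
  linarith

end Mp

open Mp

theorem mpn : MPN := by
  intro n Λ₀ ρ hn
  obtain ⟨l₀, C, C0, h⟩ := bar Λ₀ ρ hn
  refine ⟨l₀, C, C0, fun l hl a c v H hL hv h0 H0 h1 h2 x => ?_⟩
  obtain ⟨Λ, hΛ⟩ := hL.el
  refine le_of_forall_pos_le_add fun e he => ?_
  by_contra k
  have c2 : ContDiff ℝ 2 fun y => v y - (C * H + e) * bu n y := hv.sub (contDiff_const.mul bu_c2)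
  have p0 : 0 < v x - (C * H + e) * bu n x := by
    linarith [mul_le_mul_of_nonneg_left (bu_le hn x) he.le]
  obtain ⟨y, hy⟩ := c2.continuous.exists_forall_ge' x (by
    have := h0.sub ((bu_lim hn).const_mul (C * H + e))
    rw [mul_zero, sub_zero] at this
    exact this.eventually (Iic_mem_nhds p0))
  have k1 := at_max (hΛ y) c2.contDiffAt (.of_forall hy)
  rw [d2_lin hv bu_c2] at k1
  have k2 := mul_nonneg (hL.cb y).1 (p0.le.trans (hy x))
  obtain ⟨k3, k4⟩ := h l hl a c hL y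
  have k5 := mul_neg_of_pos_of_neg he k3
  rcases le_total ‖y‖ (ρ + 1) with k6 | k6
  · linarith [h1 y, mul_le_mul_of_nonneg_left (k4 k6) H0]
  · linarith [h2 y k6, mul_nonpos_of_nonneg_of_nonpos (mul_nonneg C0.le H0) k3.le]

end Vale.Agent.P366Y
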