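import Vale.Agent.P366Y.Sk
import Vale.Agent.P366Z.Calc
import Mathlib.Topology.ContinuousMap.Bounded.ArzelaAscoli

/-!
# P366Y: Hölder classes and the fixed point
-/

open MeasureTheory Metric Filter Topology Set
open scoped ContDiff ENNReal BoundedContinuousFunction
open Vale.Agent.P366.Stmt Vale.Agent.P366Z

noncomputable section

namespace Vale.Agent.P366Y

namespace Qe

variable {n : ℕ} {W : Type} [NormedAddCommGroup W] {α A B : ℝ} {f h : E n → W}

theorem nn (hf : Ho α A f) : 0 ≤ A := (norm_nonneg _).trans (hf.1 0)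

theorem rp (x y : E n) (α : ℝ) : 0 ≤ ‖x - y‖ ^ α := Real.rpow_nonneg (norm_nonneg _) _

theorem mono (hf : Ho α A f) (h : A ≤ B) : Ho α B f :=
  ⟨fun x => (hf.1 x).trans h, fun x y => (hf.2 x y).trans (mul_le_mul_of_nonneg_right h (rp x y α))⟩

theorem add (hf : Ho α A f) (hh : Ho α B h) : Ho α (A + B) fun x => f x + h x :=
  ⟨fun x => norm_add_le_of_le (hf.1 x) (hh.1 x), fun x y => by
    rw [add_sub_add_comm, add_mul]
    exact norm_add_le_of_le (hf.2 x y) (hh.2 x y)⟩

theorem sub (hf : Ho α A f) (hh : Ho α B h) : Ho α (A + B) fun x => f x - h x :=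
  ⟨fun x => norm_sub_le_of_le (hf.1 x) (hh.1 x), fun x y => by
    rw [sub_sub_sub_comm, add_mul]
    exact norm_sub_le_of_le (hf.2 x y) (hh.2 x y)⟩

theorem cont (hα : 0 < α) (hf : Ho α A f) : Continuous f := by
  refine continuous_iff_continuousAt.2 fun y => tendsto_iff_norm_sub_tendsto_zero.2 ?_
  refine squeeze_zero (fun _ => norm_nonneg _) (fun x => hf.2 x y) ?_
  have : Continuous fun x : E n => A * ‖x - y‖ ^ α :=
    continuous_const.mul ((continuous_id.sub continuous_const).norm.rpow_const fun _ => .inr hα.le)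
  simpa [Real.zero_rpow hα.ne'] using this.tendsto y

theorem interp (hα : α ∈ Ioo (0 : ℝ) 1) (L : ℝ) {e : ℝ} (he : 0 < e) : ∃ d > (0 : ℝ),
    ∀ f : E n → W, (∀ x, ‖f x‖ ≤ d) → (∀ x y, ‖f x - f y‖ ≤ L * ‖x - y‖) → Ho α e f := by
  have hc : ContinuousAt (fun t : ℝ => |L| * t ^ (1 - α)) 0 := continuousAt_const.mul
    (Real.continuousAt_rpow_const _ _ (.inr (by linarith [hα.2])))
  have h0 : |L| * (0 : ℝ) ^ (1 - α) < e := by rwa [Real.zero_rpow (by linarith [hα.2]), mul_zero]
  obtain ⟨t, t0, ht⟩ := Metric.eventually_nhds_iff.1 (hc.eventually (gt_mem_nhds h0))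
  have p := Real.rpow_pos_of_pos t0 α
  refine ⟨min e (e * t ^ α / 2), by positivity, fun f h1 h2 =>
    ⟨fun x => (h1 x).trans (min_le_left _ _), fun x y => ?_⟩⟩
  rcases lt_or_ge ‖x - y‖ t with h | h
  · have h3 := ht (y := ‖x - y‖) (by simpa using h)
    calc _ ≤ |L| * (‖x - y‖ ^ (1 - α) * ‖x - y‖ ^ α) := by
          rw [← Real.rpow_add' (norm_nonneg _) (by simp), sub_add_cancel, Real.rpow_one]
          exact (h2 x y).trans (mul_le_mul_of_nonneg_right (le_abs_self _) (norm_nonneg _))
      _ ≤ _ := by rw [← mul_assoc]; exact mul_le_mul_of_nonneg_right h3.le (rp x y α)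
  · have h3 := norm_sub_le_of_le ((h1 x).trans (min_le_right _ _)) ((h1 y).trans (min_le_right _ _))
    have h4 := mul_le_mul_of_nonneg_left (Real.rpow_le_rpow t0.le h hα.1.le) he.le
    linarith

theorem of_lip (hα : α ∈ Ioo (0 : ℝ) 1) {L : ℝ} (hL : 0 ≤ L) (h1 : ∀ x, ‖f x‖ ≤ A)
    (h2 : ∀ x y, ‖f x - f y‖ ≤ L * ‖x - y‖) : Ho α (2 * A + L) f := by
  have hA : 0 ≤ A := (norm_nonneg _).trans (h1 0)
  refine ⟨fun x => by linarith [h1 x], fun x y => ?_⟩
  have p := rp x y α
  rcases le_total ‖x - y‖ 1 with h | h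
  · have h3 := Real.self_le_rpow_of_le_one (norm_nonneg _) h hα.2.le
    nlinarith [h2 x y]
  · have h3 := Real.one_le_rpow h hα.1.le
    nlinarith [norm_sub_le_of_le (h1 x) (h1 y)]

variable [NormedSpace ℝ W]

theorem smul (s : ℝ) (hf : Ho α A f) : Ho α (|s| * A) fun x => s • f x :=
  ⟨fun x => by rw [norm_smul]; exact mul_le_mul_of_nonneg_left (hf.1 x) (abs_nonneg _),
    fun x y => by
      rw [← smul_sub, norm_smul, mul_assoc]
      exact mul_le_mul_of_nonneg_left (hf.2 x y) (abs_nonneg _)⟩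

theorem mul {φ : E n → ℝ} (hφ : Ho α A φ) (hf : Ho α B f) :
    Ho α (2 * A * B) fun x => φ x • f x := by
  have hA := nn hφ
  have hB := nn hf
  refine ⟨fun x => ?_, fun x y => ?_⟩
  · rw [norm_smul]
    nlinarith [mul_le_mul (hφ.1 x) (hf.1 x) (norm_nonneg _) hA]
  · have e : φ x • f x - φ y • f y = φ x • (f x - f y) + (φ x - φ y) • f y := by
      rw [smul_sub, sub_smul]; abel
    rw [e]
    refine (norm_add_le _ _).trans ?_
    rw [norm_smul, norm_smul]
    have h1 := mul_le_mul (hφ.1 x) (hf.2 x y) (norm_nonneg _) hA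
    have h2 := mul_le_mul (hφ.2 x y) (hf.1 y) (norm_nonneg _) (mul_nonneg hA (rp x y α))
    linarith

/-- the best constant -/
def N (α : ℝ) (f : E n → W) : ℝ := sInf {A | Ho α A f}

omit [NormedSpace ℝ W] in
theorem N_le (hf : Ho α A f) : N α f ≤ A := csInf_le ⟨0, fun _ h => nn h⟩ hf

omit [NormedSpace ℝ W] in
theorem N_ho (hf : Ho α A f) : Ho α (N α f) f := by
  refine IsClosed.csInf_mem (s := {A | Ho α A f}) ?_ ⟨A, hf⟩ ⟨0, fun _ h => nn h⟩
  simp only [Ho, ofPred_and, ofPred_forall]
  exact (isClosed_iInter fun x => isClosed_Ici).inter (isClosed_iInter fun x =>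
    isClosed_iInter fun y => isClosed_le continuous_const (continuous_id.mul continuous_const))

open Classical in
/-- the extension by zero -/
def ext (R : ℝ) (j : closedBall (0 : E n) R →ᵇ W) (x : E n) : W :=
  if h : x ∈ closedBall (0 : E n) R then j ⟨x, h⟩ else 0

open Classical in
/-- the restriction -/
def res (R : ℝ) (f : E n → W) : closedBall (0 : E n) R →ᵇ W :=
  if h : Continuous f then
    BoundedContinuousFunction.mkOfCompact ⟨fun x => f x, h.comp continuous_subtype_val⟩ else 0

omit [NormedSpace ℝ W] in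
theorem res_apply {R : ℝ} (hf : Continuous f) (x : closedBall (0 : E n) R) : res R f x = f x := by
  rw [res, dif_pos hf]; rfl

theorem fp [ProperSpace W] (hS : SFP) (hα : 0 < α) {R M : ℝ} (hM : 0 < M)
    (G : (E n → W) → E n → W) (h0 : ∀ j, Ho α M j → ∃ A, Ho α A (G j))
    (hs : ∀ j x, R < ‖x‖ → G j x = 0)
    (hc : ∀ e > (0 : ℝ), ∃ d > (0 : ℝ), ∀ j j', Ho α M j → Ho α M j' →
      (∀ x, ‖j x - j' x‖ ≤ d) → Ho α e fun x => G j x - G j' x) :
    ∃ j, ∃ s ∈ Icc (0 : ℝ) 1, Ho α M j ∧ (∀ x, j x = s • G j x) ∧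
      (s = 1 ∨ ∀ A, Ho α A j → M ≤ A) := by
  set K : Set (closedBall (0 : E n) R →ᵇ W) := {j | Ho α M (ext R j)} with hK
  have ce : ∀ x, Continuous fun j : closedBall (0 : E n) R →ᵇ W => ext R j x := fun x => by
    unfold ext
    split_ifs
    · exact continuous_eval_const _
    · exact continuous_const
  have ee : ∀ (j : closedBall (0 : E n) R →ᵇ W) (x : closedBall (0 : E n) R), ext R j x = j x :=
    fun j x => dif_pos x.2
  have cl : IsClosed K := by
    simp only [hK, Ho, ofPred_and, ofPred_forall]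
    exact (isClosed_iInter fun x => isClosed_le (ce x).norm continuous_const).inter
      (isClosed_iInter fun x => isClosed_iInter fun y =>
        isClosed_le ((ce x).sub (ce y)).norm continuous_const)
  have cp : IsCompact K := by
    refine BoundedContinuousFunction.arzela_ascoli₂ _ (isCompact_closedBall (0 : W) M) K cl
      (fun j x hj => mem_closedBall_zero_iff.2 (ee j x ▸ hj.1 x)) ?_
    refine Metric.equicontinuous_of_continuity_modulus (fun t => M * t ^ α) ?_ _ fun x y j => ?_
    · have : ContinuousAt (fun t : ℝ => M * t ^ α) 0 :=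
        continuousAt_const.mul (Real.continuousAt_rpow_const _ _ (.inr hα.le))
      simpa [ContinuousAt, Real.zero_rpow hα.ne'] using this
    · rw [dist_eq_norm, ← ee, ← ee, Subtype.dist_eq, dist_eq_norm]
      exact j.2.2 _ _
  have cv : Convex ℝ K := fun j hj j' hj' s t s0 t0 st => by
    have e : ext R (s • j + t • j') = fun x => s • ext R j x + t • ext R j' x := by
      funext x
      unfold ext
      split_ifs <;> simp
    have := add (smul s hj) (smul t hj')
    rwa [abs_of_nonneg s0, abs_of_nonneg t0, ← add_mul, st, one_mul, ← e] at this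
  have ne : (0 : closedBall (0 : E n) R →ᵇ W) ∈ K := by
    have e : ext R (0 : closedBall (0 : E n) R →ᵇ W) = fun _ => 0 := by
      funext x
      unfold ext
      split_ifs <;> simp
    rw [hK, mem_ofPred_eq, e]
    exact ⟨fun _ => by simpa using hM.le, fun x y => by simpa using mul_nonneg hM.le (rp x y α)⟩
  have de : ∀ (j j' : closedBall (0 : E n) R →ᵇ W) x, ‖ext R j x - ext R j' x‖ ≤ dist j j' :=
    fun j j' x => by
      unfold ext
      split_ifs
      · rw [← dist_eq_norm]; exact BoundedContinuousFunction.dist_coe_le_dist _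
      · simp
  have gc : ∀ j ∈ K, Continuous (G (ext R j)) := fun j hj => cont hα (h0 _ hj).choose_spec
  have gN : ∀ j ∈ K, Ho α (N α (G (ext R j))) (G (ext R j)) := fun j hj =>
    N_ho (h0 _ hj).choose_spec
  have c1 : ContinuousOn (fun j => res R (G (ext R j))) K := by
    refine Metric.continuousOn_iff.2 fun j hj e he => ?_
    obtain ⟨d, d0, hd⟩ := hc (e / 2) (half_pos he)
    refine ⟨d, d0, fun j' hj' h => ((BoundedContinuousFunction.dist_le (half_pos he).le).2
      fun x => ?_).trans_lt (half_lt_self he)⟩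
    rw [res_apply (gc _ hj'), res_apply (gc _ hj), dist_eq_norm]
    exact (hd _ _ hj' hj fun x => (de _ _ x).trans h.le).1 x
  have c2 : ContinuousOn (fun j => N α (G (ext R j))) K := by
    refine Metric.continuousOn_iff.2 fun j hj e he => ?_
    obtain ⟨d, d0, hd⟩ := hc (e / 2) (half_pos he)
    refine ⟨d, d0, fun j' hj' h => ?_⟩
    have h1 := hd _ _ hj' hj fun x => (de _ _ x).trans h.le
    have h2 := N_le (add (gN j hj) h1)
    have h3 := N_le (sub (gN j' hj') h1)
    simp only [add_sub_cancel, sub_sub_cancel] at h2 h3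
    rw [Real.dist_eq, abs_lt]
    constructor <;> linarith
  have p : ∀ t : ℝ, 0 < max M t := fun t => lt_max_of_lt_left hM
  have er : ∀ j ∈ K, ∀ s : ℝ, ext R (s • res R (G (ext R j))) = fun x => s • G (ext R j) x :=
    fun j hj s => by
      funext x
      rw [ext]
      split_ifs with h
      · rw [BoundedContinuousFunction.smul_apply, res_apply (gc j hj)]
      · rw [hs _ x (by simpa using h), smul_zero]
  obtain ⟨j, hj, e⟩ := hS _ K (fun j => (M / max M (N α (G (ext R j)))) • res R (G (ext R j))) cp cv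
    ⟨_, ne⟩ ((continuousOn_const.div (continuousOn_const.sup c2) fun j _ => (p _).ne').smul c1)
    fun j hj => by
      rw [hK, mem_ofPred_eq, er j hj]
      refine mono (smul _ (gN j hj)) ?_
      rw [abs_of_pos (div_pos hM (p _)), div_mul_eq_mul_div, div_le_iff₀ (p _)]
      exact mul_le_mul_of_nonneg_left (le_max_right _ _) hM.le
  have e2 := (congrArg (ext R) e).symm.trans (er j hj _)
  refine ⟨ext R j, _, ⟨(div_pos hM (p _)).le, (div_le_one (p _)).2 (le_max_left _ _)⟩, hj,
    congrFun e2, ?_⟩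
  rcases le_total (N α (G (ext R j))) M with h | h
  · exact .inl (by rw [max_eq_left h, div_self hM.ne'])
  · refine .inr fun A hA => ?_
    rw [max_eq_right h] at e2
    have q := hM.trans_le h
    have h1 := smul (N α (G (ext R j)) / M) hA
    have e3 : (fun x => (N α (G (ext R j)) / M) • ext R j x) = G (ext R j) := by
      funext x
      rw [congrFun e2 x, smul_smul, div_mul_div_cancel₀ hM.ne', div_self q.ne', one_smul]
    have h2 := N_le (e3 ▸ h1)
    rw [abs_of_pos (div_pos q hM), div_mul_eq_mul_div, le_div_iff₀ hM] at h2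
    exact le_of_mul_le_mul_left h2 q

end Qe

end Vale.Agent.P366Y
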