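import Vale.Agent.P366Y.Sk
import Vale.Agent.P366Z.Int

/-!
# P366Y: the energy inequalities on superlevel sets
-/

open MeasureTheory Metric Filter Topology Set
open scoped ContDiff ENNReal
open Vale.Agent.P366.Stmt Vale.Agent.P366Z

noncomputable section

namespace Vale.Agent.P366Y

namespace Cac

variable {n : ℕ} {ζ v w : E n → ℝ} {x₀ : E n} {r : ℝ}

theorem out_of (h0 : ∀ y, r ≤ ‖y - x₀‖ → ζ y = 0) (y : E n) (hy : ‖x₀‖ + |r| ≤ ‖y‖) : ζ y = 0 :=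
  h0 y (by linarith [norm_sub_norm_le y x₀, le_abs_self r])

theorem mem_of (h0 : ∀ y, r ≤ ‖y - x₀‖ → ζ y = 0) {y : E n} (hy : ζ y ≠ 0) : y ∈ ball x₀ r := by
  rw [mem_ball, dist_eq_norm]
  exact not_le.1 fun h => hy (h0 y h)

/-- the test function -/
def tf (ζ w : E n → ℝ) (y : E n) : ℝ := max (ζ y * ζ y * w y) 0

theorem lip_pre (hζ : Lip ζ) (h1 : ∀ y, 0 ≤ ζ y ∧ ζ y ≤ 1) {R : ℝ} (h0 : ∀ y, R ≤ ‖y‖ → ζ y = 0)
    (hw : ContDiff ℝ 1 w) : Lip fun y => ζ y * ζ y * w y := by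
  have hR : 0 < |R| + 1 := by positivity
  have c1 : ContDiff ℝ 1 fun y => cut (|R| + 1) y * w y :=
    ContDiff.mul (ContDiff.of_le (sm_cut _) (by norm_cast)) hw
  have c2 : HasCompactSupport fun y => cut (|R| + 1) y * w y := (supp_cut hR).mul_right
  obtain ⟨B, hB⟩ := c1.continuous.bounded_above_of_compact_support c2
  have a1 : ∀ y, |ζ y| ≤ 1 := fun y => by rw [abs_of_nonneg (h1 y).1]; exact (h1 y).2
  have a2 : ∀ y, |ζ y * ζ y| ≤ 1 := fun y => by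
    rw [abs_mul]; exact mul_le_one₀ (a1 y) (abs_nonneg _) (a1 y)
  have := (hζ.mul hζ a1 a1).mul (lip_of_supp c1 c2) a2 hB
  convert this using 2 with y
  by_cases hy : R ≤ ‖y‖
  · simp [h0 y hy]
  · rw [cut_one (by linarith [le_abs_self R, not_le.1 hy]), one_mul]

theorem lip_tf (hζ : Lip ζ) (h1 : ∀ y, 0 ≤ ζ y ∧ ζ y ≤ 1) {R : ℝ} (h0 : ∀ y, R ≤ ‖y‖ → ζ y = 0)
    (hw : ContDiff ℝ 1 w) : Lip (tf ζ w) := (lip_pre hζ h1 h0 hw).max (lip_const 0)

theorem tf_zero {y : E n} (h : ζ y = 0) : tf ζ w y = 0 := by simp [tf, h]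

theorem pd_tf (hζ : Lip ζ) (h1 : ∀ y, 0 ≤ ζ y ∧ ζ y ≤ 1) {R : ℝ} (h0 : ∀ y, R ≤ ‖y‖ → ζ y = 0)
    (hw : ContDiff ℝ 1 w) : ∀ᵐ y, (0 < w y ∧ ζ y ≠ 0 → tf ζ w y = ζ y ^ 2 * w y ∧
      ∀ i, pd i (tf ζ w) y = 2 * ζ y * w y * pd i ζ y + ζ y ^ 2 * pd i w y) ∧
      (¬ (0 < w y ∧ ζ y ≠ 0) → tf ζ w y = 0 ∧ ∀ i, pd i (tf ζ w) y = 0) := by
  have l := lip_pre hζ h1 h0 hw
  filter_upwards [(lip_tf hζ h1 h0 hw).ae_pd_zero 0, (lip_tf hζ h1 h0 hw).ae_pd_eq l, hζ.ae_diff]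
    with y e1 e2 d
  refine ⟨fun h => ?_, fun h => ?_⟩
  · have p : 0 ≤ ζ y * ζ y * w y := mul_nonneg (mul_self_nonneg _) h.1.le
    refine ⟨by rw [tf, max_eq_left p]; ring, fun i => ?_⟩
    rw [e2 (max_eq_left p) i, pd_mul (d.fun_mul d) (hw.differentiable (by norm_num) y), pd_mul d d]
    ring
  · have z : tf ζ w y = 0 := by
      by_cases hz : ζ y = 0
      · exact tf_zero hz
      · have : w y ≤ 0 := not_lt.1 fun hw => h ⟨hw, hz⟩
        exact max_eq_right (mul_nonpos_of_nonneg_of_nonpos (mul_self_nonneg _) this)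
    exact ⟨z, e1 z⟩

theorem cont_e2 (hv : ContDiff ℝ 1 v) : Continuous fun y => e2 (D1 v y) :=
  continuous_finsetSum _ fun i _ => (contDiff_pd (k := 0) hv (by norm_num) i).continuous.pow 2

theorem e2_nonneg (p : Vc n) : 0 ≤ e2 p := Finset.sum_nonneg fun _ _ => sq_nonneg _

/-- integration of the pointwise inequality -/
theorem integ (hv : ContDiff ℝ 1 v) (hζ : Lip ζ) {R : ℝ} (h0 : ∀ y, R ≤ ‖y‖ → ζ y = 0)
    {T : E n → ℝ} (hT : Integrable T) (T0 : ∫ y, T y = 0) {γ χ k : ℝ} (γ0 : 0 ≤ γ)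
    (h : ∀ᵐ y, (k < v y ∧ ζ y ≠ 0 →
      ζ y ^ 2 * e2 (D1 v y) ≤ γ * (e2 (D1 ζ y) * (v y - k) ^ 2) + χ ^ 2 + T y) ∧
      (¬ (k < v y ∧ ζ y ≠ 0) → T y = 0)) :
    ∫ y in {y | k < v y}, ζ y ^ 2 * e2 (D1 v y) ≤
      γ * (∫ y, e2 (D1 ζ y) * max (v y - k) 0 ^ 2) +
        χ ^ 2 * volume.real {y | k < v y ∧ ζ y ≠ 0} := by
  have o1 : IsOpen {y | k < v y} := isOpen_lt continuous_const hv.continuous
  have o2 : IsOpen {y | k < v y ∧ ζ y ≠ 0} := o1.inter (isOpen_ne_fun hζ.cont continuous_const)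
  have f2 : volume {y | k < v y ∧ ζ y ≠ 0} < ⊤ :=
    lt_of_le_of_lt (measure_mono fun y hy => mem_ball_zero_iff.2 (not_le.1 fun h => hy.2 (h0 y h)))
      (measure_ball_lt_top (x := (0 : E n)) (r := R))
  have i1 : Integrable fun y => ζ y ^ 2 * e2 (D1 v y) :=
    integrable_of_out ((hζ.cont.pow 2).mul (cont_e2 hv)) (R := R) fun y hy => by simp [h0 y hy]
  obtain ⟨K, K0, hK⟩ := hζ.pd_bd
  have i2 : Integrable fun y => e2 (D1 ζ y) * max (v y - k) 0 ^ 2 := by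
    have := integrable_of_bd (f := fun y => max (v y - k) 0 ^ 2) (h := fun y => e2 (D1 ζ y))
      (((hv.continuous.sub continuous_const).max continuous_const).pow 2)
      (Finset.measurable_sum _ fun i _ => (measurable_pd hζ.cont i).pow_const 2)
      (K := n * K ^ 2) (R := R) (fun y => ?_) fun y hy => ?_
    · simpa only [mul_comm] using this
    · rw [abs_of_nonneg (e2_nonneg _)]
      refine (Finset.sum_le_sum fun i _ =>
        sq_le_sq' (abs_le.1 (hK y i)).1 (abs_le.1 (hK y i)).2).trans ?_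
      simp
    · simp [e2, D1, pd_zero_of_out h0 hy]
  have i3 : Integrable ({y | k < v y ∧ ζ y ≠ 0}.indicator fun _ => χ ^ 2) :=
    (integrable_indicator_iff o2.measurableSet).2 (integrableOn_const f2.ne)
  have i4 : Integrable fun y => γ * (e2 (D1 ζ y) * max (v y - k) 0 ^ 2) +
      {y | k < v y ∧ ζ y ≠ 0}.indicator (fun _ => χ ^ 2) y := (i2.const_mul γ).add i3
  have e := integral_add i4 hT
  rw [T0, add_zero, integral_add (i2.const_mul γ) i3, integral_const_mul,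
    integral_indicator_const _ o2.measurableSet, smul_eq_mul, mul_comm _ (χ ^ 2)] at e
  rw [← integral_indicator o1.measurableSet, ← e]
  refine integral_mono_ae (i1.indicator o1.measurableSet) (i4.add hT) ?_
  filter_upwards [h] with y hy
  by_cases m : k < v y ∧ ζ y ≠ 0
  · have m1 : y ∈ {y | k < v y} := m.1
    have m2 : y ∈ {y | k < v y ∧ ζ y ≠ 0} := m
    simp only [indicator_of_mem m1, indicator_of_mem m2, max_eq_left (sub_nonneg.2 m.1.le)]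
    exact hy.1 m
  · have m2 : y ∉ {y | k < v y ∧ ζ y ≠ 0} := m
    have p : 0 ≤ γ * (e2 (D1 ζ y) * max (v y - k) 0 ^ 2) :=
      mul_nonneg γ0 (mul_nonneg (e2_nonneg _) (sq_nonneg _))
    simp only [indicator_of_notMem m2, hy.2 m, add_zero]
    by_cases m1 : y ∈ {y | k < v y}
    · have : ζ y = 0 := by_contra fun z => m ⟨m1, z⟩
      simpa [indicator_of_mem m1, this] using p
    · simpa only [indicator_of_notMem m1] using p

theorem el_abs {Λ : ℝ} {a : Mx n} (h : El Λ a) : El |Λ| a := by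
  rcases le_or_gt 0 Λ with p | p
  · rwa [abs_of_nonneg p]
  · have : IsEmpty (Fin n) := ⟨fun i => by linarith [h.2.1 i i, abs_nonneg (a i i)]⟩
    exact ⟨h.1, fun i => this.elim i, fun ξ => by simp [e2]⟩

theorem abs_le_sqrt_e2 (p : Vc n) (i : Fin n) : |p i| ≤ √(e2 p) :=
  Real.abs_le_sqrt (Finset.single_le_sum (f := fun i => p i ^ 2) (fun _ _ => sq_nonneg _)
    (Finset.mem_univ i))

theorem sum1 {p q : Vc n} {A B : ℝ} (hp : ∀ i, |p i| ≤ A) (hq : ∀ i, |q i| ≤ B) :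
    |∑ i, p i * q i| ≤ n * (A * B) := by
  refine (Finset.abs_sum_le_sum_abs _ _).trans ((Finset.sum_le_sum fun i _ => ?_).trans
    (by simp : ∑ _ : Fin n, A * B ≤ _))
  rw [abs_mul]
  exact mul_le_mul (hp i) (hq i) (abs_nonneg _) ((abs_nonneg _).trans (hp i))

theorem sum2 {a : Mx n} {p q : Vc n} {l A B : ℝ} (ha : ∀ i j, |a i j| ≤ l) (hp : ∀ i, |p i| ≤ A)
    (hq : ∀ i, |q i| ≤ B) : |∑ i, (∑ j, a i j * p j) * q i| ≤ n * (n * (l * A) * B) :=
  sum1 (fun i => sum1 (ha i) hp) hq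

theorem quad {a : Mx n} {l : ℝ} (h : El l a) (p : Vc n) :
    √(e2 p) ^ 2 ≤ l * ∑ i, (∑ j, a i j * p j) * p i := by
  rw [Real.sq_sqrt (e2_nonneg p)]
  refine (h.2.2 p).trans (le_of_eq ?_)
  congr 1
  refine Finset.sum_congr rfl fun i _ => ?_
  rw [Finset.sum_mul]
  exact Finset.sum_congr rfl fun j _ => by ring

theorem pt1 {z w P Q l m χ S1 S2 S3 S4 : ℝ} (z0 : 0 ≤ z) (z1 : z ≤ 1) (w0 : 0 ≤ w) (l0 : 0 ≤ l)
    (m0 : 0 ≤ m) (χ0 : 0 ≤ χ) (Q0 : 0 ≤ Q) (P0 : 0 ≤ P) (h1 : P ^ 2 ≤ l * S1)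
    (h2 : |S2| ≤ m * (m * (l * P) * Q)) (h3 : |S3| ≤ m * (χ * Q)) (h4 : |S4| ≤ m * (χ * P)) :
    z ^ 2 * P ^ 2 ≤ (8 * (m ^ 2 * l ^ 2) ^ 2 + 2) * (Q ^ 2 * w ^ 2) + (2 * (m * l) * χ) ^ 2 +
      2 * l * (2 * z * w * S2 + z ^ 2 * S1 - 2 * z * w * S3 - z ^ 2 * S4) := by
  have a1 := mul_le_mul_of_nonneg_left h1 (sq_nonneg z)
  have a2 := mul_le_mul_of_nonneg_left (abs_le.1 h2).1 (show 0 ≤ l * (z * w) by positivity)
  have a3 := mul_le_mul_of_nonneg_left (abs_le.1 h3).2 (show 0 ≤ l * (z * w) by positivity)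
  have a4 := mul_le_mul_of_nonneg_left (abs_le.1 h4).2 (show 0 ≤ l * z ^ 2 by positivity)
  have a5 := mul_le_mul_of_nonneg_left z1 (show 0 ≤ m * l * χ * (w * Q) by positivity)
  have a6 := mul_le_mul_of_nonneg_left z1 (show 0 ≤ m * l * χ * (z * P) by positivity)
  have b1 := sq_nonneg (z * P - 4 * (m ^ 2 * l ^ 2) * (w * Q))
  have b2 := sq_nonneg (z * P - 2 * (m * l * χ))
  have b3 := sq_nonneg (w * Q - m * l * χ)
  linarith

end Cac

open Cac

theorem cac1 : CAC1 := by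
  intro n Λ
  refine ⟨8 * (n ^ 2 * |Λ| ^ 2) ^ 2 + 2, 2 * (n * |Λ|), by positivity, ?_⟩
  intro a G v x₀ r χ k₀ ha hG hv χ0 hb hw k _ ζ hζ h1 h0
  have o := out_of h0
  have c : ContDiff ℝ 1 fun y => v y - k := hv.sub contDiff_const
  have l := lip_tf hζ h1 o c
  have cp : ∀ j, Continuous (pd j v) := fun j => (contDiff_pd (k := 0) hv (by norm_num) j).continuous
  refine integ hv hζ o (T := fun y => 2 * |Λ| *
    ∑ i, (∑ j, a y i j * pd j v y - G y i) * pd i (tf ζ fun y => v y - k) y) ?_ ?_ (by positivity) ?_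
  · refine Integrable.const_mul (integrable_finsetSum _ fun i _ => ?_) _
    refine l.integrable_pd (c := 0) (fun y hy => tf_zero (o y hy)) ?_ i
    exact (continuous_finsetSum _ fun j _ => Continuous.mul (by fun_prop) (cp j)).sub (by fun_prop)
  · rw [integral_const_mul, hw _ l fun y hy => tf_zero (h0 y hy), mul_zero]
  filter_upwards [pd_tf hζ h1 o c] with y hy
  simp only [sub_pos] at hy
  refine ⟨fun m => ?_, fun m => by simp [(hy.2 m).2]⟩
  obtain ⟨e, g⟩ := hb y (mem_of h0 m.2)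
  have e := el_abs e
  have g' : ∀ i, |G y i| ≤ χ := fun i => (norm_le_pi_norm (G y) i).trans g
  have := pt1 (h1 y).1 (h1 y).2 (sub_pos.2 m.1).le (abs_nonneg Λ) (Nat.cast_nonneg n) χ0
    (Real.sqrt_nonneg _) (Real.sqrt_nonneg _) (quad e (D1 v y))
    (sum2 e.2.1 (abs_le_sqrt_e2 (D1 v y)) (abs_le_sqrt_e2 (D1 ζ y)))
    (sum1 g' (abs_le_sqrt_e2 (D1 ζ y))) (sum1 g' (abs_le_sqrt_e2 (D1 v y)))
  rw [Real.sq_sqrt (e2_nonneg _), Real.sq_sqrt (e2_nonneg _)] at this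
  refine this.trans (le_of_eq ?_)
  congr 2
  simp only [(hy.1 m).2, pd_sub_const, D1, Finset.mul_sum, ← Finset.sum_add_distrib,
    ← Finset.sum_sub_distrib]
  exact Finset.sum_congr rfl fun i _ => by ring

theorem Cac.pt2 {z w P Q l m κ K s E E0 S1 S2 d : ℝ} (z0 : 0 ≤ z) (z1 : z ≤ 1) (w0 : 0 ≤ w)
    (l0 : 0 ≤ l) (κ0 : 0 ≤ κ) (wK : w ≤ 2 * K) (E1 : 1 ≤ E0 * E) (E2 : E ≤ E0) (Ep : 0 < E)
    (h1 : P ^ 2 ≤ l * S1) (h2 : |S2| ≤ m * (m * (l * P) * Q))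
    (h3 : -(κ * (s ^ 2 + P ^ 2)) ≤ l * d) :
    z ^ 2 * P ^ 2 ≤ 4 * (m ^ 2 * l ^ 2) ^ 2 * E0 ^ 2 * (Q ^ 2 * w ^ 2) + (E0 * (K * κ + 1) * s) ^ 2 +
      2 * l * E0 * (E * (2 * z * w * S2 + z ^ 2 * (1 + κ * w) * S1 + z ^ 2 * w * d)) := by
  have a1 := mul_le_mul_of_nonneg_left h1 (show 0 ≤ z ^ 2 * (1 + κ * w) by positivity)
  have a2 := mul_le_mul_of_nonneg_left (abs_le.1 h2).1 (show 0 ≤ l * (z * w) by positivity)
  have a3 := mul_le_mul_of_nonneg_left h3 (show 0 ≤ z ^ 2 * w by positivity)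
  have a4 : z ^ 2 * w ≤ 2 * K := (mul_le_of_le_one_left w0 (pow_le_one₀ z0 z1)).trans wK
  have a5 := mul_le_mul_of_nonneg_left a4 (show 0 ≤ κ * s ^ 2 by positivity)
  have b1 := sq_nonneg (z * P - 2 * (m ^ 2 * l ^ 2) * (w * Q))
  have b2 := mul_nonneg (sq_nonneg (K * κ - 1)) (sq_nonneg s)
  have c1 : z ^ 2 * P ^ 2 ≤ 4 * (m ^ 2 * l ^ 2) ^ 2 * (Q ^ 2 * w ^ 2) + ((K * κ + 1) * s) ^ 2 +
      2 * l * (2 * z * w * S2 + z ^ 2 * (1 + κ * w) * S1 + z ^ 2 * w * d) := by linarith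
  have p0 : 0 < E0 := Ep.trans_le E2
  have c2 := mul_le_mul_of_nonneg_left c1 (mul_pos p0 Ep).le
  have c3 := mul_le_mul_of_nonneg_left E1 (show 0 ≤ z ^ 2 * P ^ 2 by positivity)
  have c4 := mul_le_mul_of_nonneg_left E2 (show 0 ≤ E0 * (4 * (m ^ 2 * l ^ 2) ^ 2 *
    (Q ^ 2 * w ^ 2) + ((K * κ + 1) * s) ^ 2) by positivity)
  linarith

theorem cac2 : CAC2 := by
  intro n Λ K
  obtain ⟨κ, hκ⟩ : ∃ κ : ℝ, κ = |Λ| * (2 * n ^ 2 * |Λ| + |Λ|) := ⟨_, rfl⟩
  have κ0 : 0 ≤ κ := by rw [hκ]; positivity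
  refine ⟨4 * (n ^ 2 * |Λ| ^ 2) ^ 2 * Real.exp (κ * |K|) ^ 2, Real.exp (κ * |K|) * (|K| * κ + 1),
    by positivity, ?_⟩
  intro a v x₀ r r0 ha hv2 hb k hk ζ hζ h1 h0
  have hv : ContDiff ℝ 1 v := hv2.of_le (by norm_num)
  have o := out_of h0
  have c : ContDiff ℝ 1 fun y => (v y - k) * Real.exp (κ * v y) :=
    (hv.sub contDiff_const).mul (contDiff_const.mul hv).exp
  have l := lip_tf hζ h1 o c
  have o' : ∀ y, ‖x₀‖ + |r| ≤ ‖y‖ → tf ζ (fun y => (v y - k) * Real.exp (κ * v y)) y = 0 :=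
    fun y hy => tf_zero (o y hy)
  have ca : ∀ i j, ContDiff ℝ 1 fun y => a y i j := fun i j =>
    contDiff_pi.1 (contDiff_pi.1 ha i) j
  have cp : ∀ j, ContDiff ℝ 1 (pd j v) := fun j => contDiff_pd hv2 (by norm_num) j
  have cX : ∀ i, ContDiff ℝ 1 fun y => ∑ j, a y i j * pd j v y := fun i =>
    ContDiff.sum fun j _ => (ca i j).mul (cp j)
  have i1 : ∀ i, Integrable fun y => pd i (tf ζ fun y => (v y - k) * Real.exp (κ * v y)) y *
      ∑ j, a y i j * pd j v y := fun i => by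
    simpa only [mul_comm] using l.integrable_pd o' (cX i).continuous i
  have i2 : ∀ i, Integrable fun y => tf ζ (fun y => (v y - k) * Real.exp (κ * v y)) y *
      pd i (fun y => ∑ j, a y i j * pd j v y) y := fun i =>
    integrable_of_out (l.cont.mul (contDiff_pd (k := 0) (cX i) (by norm_num) i).continuous)
      fun y hy => by rw [o' y hy, zero_mul]
  refine integ hv hζ o (T := fun y => 2 * |Λ| * Real.exp (κ * |K|) *
    ∑ i, (pd i (tf ζ fun y => (v y - k) * Real.exp (κ * v y)) y * ∑ j, a y i j * pd j v y +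
      tf ζ (fun y => (v y - k) * Real.exp (κ * v y)) y *
        pd i (fun y => ∑ j, a y i j * pd j v y) y)) ?_ ?_ (by positivity) ?_
  · exact Integrable.const_mul (integrable_finsetSum _ fun i _ => (i1 i).add (i2 i)) _
  · rw [integral_const_mul, integral_finsetSum, Finset.sum_eq_zero fun i _ => ?_, mul_zero]
    · rw [integral_add (i1 i) (i2 i), ibp l (supp_of_out o') (cX i) i, add_neg_cancel]
    · exact fun i _ => (i1 i).add (i2 i)
  filter_upwards [pd_tf hζ h1 o c] with y hy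
  simp only [mul_pos_iff_of_pos_right (Real.exp_pos _), sub_pos] at hy
  refine ⟨fun m => ?_, fun m => by simp [(hy.2 m).2, (hy.2 m).1]⟩
  obtain ⟨e, vK, da, su⟩ := hb y (mem_of h0 m.2)
  have e := el_abs e
  have dv := hv.differentiable (by norm_num) y
  have P0 := Real.sqrt_nonneg (e2 (D1 v y))
  have P2 := Real.sq_sqrt (e2_nonneg (D1 v y))
  have s0 : 0 < 1 / r := by positivity
  have nP : ‖D1 v y‖ ≤ √(e2 (D1 v y)) := (pi_norm_le_iff_of_nonneg P0).2 (abs_le_sqrt_e2 _)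
  have d1 : |∑ i, (∑ j, pd i (fun z => a z i j) y * D1 v y j) * 1| ≤
      n * (n * (|Λ| * (1 / r + √(e2 (D1 v y))) * √(e2 (D1 v y))) * 1) :=
    sum2 (a := fun i j => pd i (fun z => a z i j) y) (q := fun _ => 1)
      (fun i j => (da i j i).trans (mul_le_mul (le_abs_self _) (by linarith) (by positivity)
        (abs_nonneg _))) (abs_le_sqrt_e2 _) fun _ => by simp
  have d2 : ∑ i, pd i (fun y => ∑ j, a y i j * pd j v y) y =
      ∑ i, (∑ j, pd i (fun z => a z i j) y * D1 v y j) * 1 + pr2 (a y) (D2 v y) := by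
    rw [pr2, ← Finset.sum_add_distrib]
    refine Finset.sum_congr rfl fun i _ => ?_
    rw [pd_sum _ fun j _ => ((ca i j).mul (cp j)).differentiable (by norm_num) y, mul_one,
      ← Finset.sum_add_distrib]
    exact Finset.sum_congr rfl fun j _ =>
      pd_mul ((ca i j).differentiable (by norm_num) y) ((cp j).differentiable (by norm_num) y) i
  have d3 : -(κ * ((1 / r) ^ 2 + √(e2 (D1 v y)) ^ 2)) ≤
      |Λ| * ∑ i, pd i (fun y => ∑ j, a y i j * pd j v y) y := by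
    rw [d2, hκ, mul_assoc, ← mul_neg]
    refine mul_le_mul_of_nonneg_left ?_ (abs_nonneg _)
    have t1 := mul_le_mul_of_nonneg_right (le_abs_self Λ)
      (show 0 ≤ 1 / r ^ 2 + e2 (D1 v y) by have := e2_nonneg (D1 v y); positivity)
    have t2 : (1 / r) ^ 2 = 1 / r ^ 2 := by rw [div_pow, one_pow]
    have t3 := mul_nonneg (show 0 ≤ (n : ℝ) ^ 2 * |Λ| by positivity)
      (sq_nonneg (1 / r - √(e2 (D1 v y))))
    have t4 := mul_nonneg (show 0 ≤ (n : ℝ) ^ 2 * |Λ| by positivity) (sq_nonneg (1 / r))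
    have t5 := mul_nonneg (show 0 ≤ (n : ℝ) ^ 2 * |Λ| by positivity) (sq_nonneg (√(e2 (D1 v y))))
    rw [← t2, ← P2] at t1 su
    linarith [(abs_le.1 d1).1]
  have v1 := abs_le.1 (vK.trans (le_abs_self K))
  have := pt2 (K := |K|) (E := Real.exp (κ * v y)) (E0 := Real.exp (κ * |K|)) (h1 y).1 (h1 y).2
    (sub_pos.2 m.1).le (abs_nonneg Λ) κ0 (by linarith [le_abs_self K])
    (by rw [← Real.exp_add]; exact Real.one_le_exp (by nlinarith))
    (Real.exp_le_exp.2 (mul_le_mul_of_nonneg_left v1.2 κ0)) (Real.exp_pos _) (quad e (D1 v y))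
    (sum2 e.2.1 (abs_le_sqrt_e2 (D1 v y)) (abs_le_sqrt_e2 (D1 ζ y))) d3
  rw [Real.sq_sqrt (e2_nonneg _), Real.sq_sqrt (e2_nonneg _)] at this
  refine this.trans (le_of_eq ?_)
  congr 2
  · ring
  have dw : ∀ i, pd i (fun y => (v y - k) * Real.exp (κ * v y)) y =
      Real.exp (κ * v y) * (1 + κ * (v y - k)) * pd i v y := fun i => by
    rw [pd_mul (dv.sub_const k) (dv.const_mul κ).exp, pd_sub_const, pd_exp (dv.const_mul κ),
      pd_const_mul]
    ring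
  simp only [(hy.1 m).2, (hy.1 m).1, dw, D1]
  rw [Finset.mul_sum, Finset.mul_sum, Finset.mul_sum, ← Finset.sum_add_distrib,
    ← Finset.sum_add_distrib, Finset.mul_sum]
  exact Finset.sum_congr rfl fun i _ => by ring

end Vale.Agent.P366Y
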