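import Vale.Agent.P366Y.Sk
import Vale.Agent.P366Y.H.Sob
import Vale.Agent.P366Y.H.Dga
import Vale.Agent.P366Y.H.Poi
import Vale.Agent.P366Y.H.Dgb
import Vale.Agent.P366Y.H.Dgh
import Mathlib.Analysis.Calculus.LocalExtr.LineDeriv

/-!
# P366Y: the Hölder estimate in the class of De Giorgi
-/

open MeasureTheory Metric Filter Topology Set
open scoped ContDiff ENNReal
open Vale.Agent.P366.Stmt Vale.Agent.P366Z

noncomputable section

namespace Vale.Agent.P366Y

namespace DgoH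

variable {n : ℕ} {γ χ k₀ r : ℝ} {v : E n → ℝ} {x₀ : E n}

/-- a cut off function between two balls -/
theorem cutoff (y : E n) {ρ ρ' : ℝ} (h : ρ < ρ') : ∃ ζ : E n → ℝ, Lip ζ ∧
    (∀ z, 0 ≤ ζ z ∧ ζ z ≤ 1) ∧ (∀ z ∈ ball y ρ, ζ z = 1) ∧ (∀ z, z ∉ ball y ρ' → ζ z = 0) ∧
    ∀ z, e2 (D1 ζ z) ≤ n / (ρ' - ρ) ^ 2 := by
  have d0 : 0 < ρ' - ρ := sub_pos.2 h
  have hl : ∀ a b : E n, |max 0 (min 1 ((ρ' - ‖a - y‖) / (ρ' - ρ))) -
      max 0 (min 1 ((ρ' - ‖b - y‖) / (ρ' - ρ)))| ≤ 1 / (ρ' - ρ) * ‖a - b‖ := fun a b => by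
    refine (abs_max_sub_max_le_max _ _ _ _).trans (max_le (by
      rw [sub_self, abs_zero]; positivity) ((abs_min_sub_min_le_max _ _ _ _).trans (max_le (by
      rw [sub_self, abs_zero]; positivity) ?_)))
    rw [← sub_div, abs_div, abs_of_pos d0, one_div_mul_eq_div, sub_sub_sub_cancel_left,
      abs_sub_comm]
    refine div_le_div_of_nonneg_right ?_ d0.le
    have := abs_norm_sub_norm_le (a - y) (b - y)
    rwa [sub_sub_sub_cancel_right] at this
  refine ⟨fun z => max 0 (min 1 ((ρ' - ‖z - y‖) / (ρ' - ρ))), lip_of_le hl,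
    fun z => ⟨le_max_left _ _, max_le zero_le_one (min_le_left _ _)⟩, fun z hz => ?_,
    fun z hz => ?_, fun z => ?_⟩
  · have : 1 ≤ (ρ' - ‖z - y‖) / (ρ' - ρ) :=
      (one_le_div d0).2 (by linarith [mem_ball_iff_norm.1 hz])
    show max 0 (min 1 _) = 1
    rw [min_eq_left this, max_eq_right zero_le_one]
  · have : (ρ' - ‖z - y‖) / (ρ' - ρ) ≤ 0 := div_nonpos_of_nonpos_of_nonneg
      (by linarith [not_lt.1 fun k => hz (mem_ball_iff_norm.2 k)]) d0.le
    exact max_eq_left ((min_le_right _ _).trans this)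
  · have h1 : ∀ i, D1 (fun z => max 0 (min 1 ((ρ' - ‖z - y‖) / (ρ' - ρ)))) z i ^ 2 ≤
        1 / (ρ' - ρ) ^ 2 := fun i => by
      have := norm_lineDeriv_le_of_lip' ℝ (x₀ := z) (v := EuclideanSpace.single i (1 : ℝ))
        (f := fun z => max 0 (min 1 ((ρ' - ‖z - y‖) / (ρ' - ρ)))) (C := 1 / (ρ' - ρ))
        (by positivity) (Eventually.of_forall fun a => hl a z)
      rw [PiLp.norm_single, norm_one, mul_one, Real.norm_eq_abs] at this
      have h2 := pow_le_pow_left₀ (abs_nonneg _) this 2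
      rwa [sq_abs, div_pow, one_pow] at h2
    refine (Finset.sum_le_sum fun i _ => h1 i).trans (le_of_eq ?_)
    rw [Finset.sum_const, Finset.card_univ, Fintype.card_fin, nsmul_eq_mul, mul_one_div]

theorem e2_nonneg (p : Vc n) : 0 ≤ e2 p := Finset.sum_nonneg fun _ _ => sq_nonneg _

/-- the energy inequality at an admissible level -/
theorem en (hv : ContDiff ℝ 1 v) (hD : DG γ χ k₀ v x₀ r) {y : E n} {ρ ρ' k A : ℝ} (h : ρ < ρ')
    (hs : ball y ρ' ⊆ ball x₀ r) (hk : k₀ ≤ k) (hH : 0 ≤ A) (hb : ∀ z ∈ ball y ρ', v z ≤ k + A) :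
    H.eg v y ρ k ≤ (|γ| * (n / (ρ' - ρ) ^ 2 * A ^ 2) + χ ^ 2) * H.ms v y ρ' k := by
  obtain ⟨ζ, z1, z2, z3, z4, z5⟩ := cutoff y h
  have h1 := hD k hk ζ z1 z2 fun z hz => z4 z fun k' => absurd (mem_ball_iff_norm.1 (hs k'))
    (not_lt.2 hz)
  have dv : ∀ z, ‖fderiv ℝ v z‖ ^ 2 = e2 (D1 v z) := fun z =>
    norm_fderiv_sq (hv.differentiable one_ne_zero z)
  have mk : MeasurableSet {z | k < v z} := (isOpen_lt continuous_const hv.continuous).measurableSet
  have m1 := H.meas_lev hv.continuous y ρ k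
  have m2 := H.meas_lev hv.continuous y ρ' k
  have gc : Continuous fun z => ζ z ^ 2 * ‖fderiv ℝ v z‖ ^ 2 :=
    (z1.cont.pow 2).mul ((hv.continuous_fderiv one_ne_zero).norm.pow 2)
  have gi : Integrable fun z => ζ z ^ 2 * ‖fderiv ℝ v z‖ ^ 2 :=
    gc.integrable_of_hasCompactSupport (HasCompactSupport.intro (isCompact_closedBall y ρ')
      fun z hz => by rw [z4 z fun k' => hz (ball_subset_closedBall k')]; simp)
  have h2 : H.eg v y ρ k ≤ ∫ z in {z | k < v z}, ζ z ^ 2 * e2 (D1 v z) := by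
    simp only [← dv]
    refine le_trans (le_of_eq (setIntegral_congr_fun m1 fun z hz => ?_))
      (setIntegral_mono_set gi.integrableOn (Eventually.of_forall fun z => by positivity)
        (inter_subset_right (s := ball y ρ)).eventuallyLE)
    show _ = ζ z ^ 2 * _
    rw [z3 z hz.1, one_pow, one_mul]
  have h3 : ∫ z, e2 (D1 ζ z) * max (v z - k) 0 ^ 2 ≤ n / (ρ' - ρ) ^ 2 * A ^ 2 * H.ms v y ρ' k := by
    have i1 : Integrable ((ball y ρ' ∩ {z | k < v z}).indicator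
        fun _ => n / (ρ' - ρ) ^ 2 * A ^ 2) :=
      (integrable_indicator_iff m2).2 (H.int_on continuous_const inter_subset_left)
    refine (integral_mono_of_nonneg (Eventually.of_forall fun z =>
      mul_nonneg (e2_nonneg _) (sq_nonneg _)) i1 (Eventually.of_forall fun z => ?_)).trans
      (le_of_eq ?_)
    · show e2 (D1 ζ z) * max (v z - k) 0 ^ 2 ≤ _
      by_cases hz : z ∈ ball y ρ' ∩ {z | k < v z}
      · rw [indicator_of_mem hz]
        exact mul_le_mul (z5 z) (pow_le_pow_left₀ (le_max_right _ _)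
          (max_le (by linarith [hb z hz.1]) hH) 2) (sq_nonneg _) (by positivity)
      rw [indicator_of_notMem hz]
      by_cases hz' : z ∈ ball y ρ'
      · have : v z - k ≤ 0 := sub_nonpos.2 (not_lt.1 fun k' => hz ⟨hz', k'⟩)
        rw [max_eq_right this]
        simp
      · have e : lineDeriv ℝ ζ z = 0 := IsLocalMin.lineDeriv_eq_zero
          (Eventually.of_forall fun a => (z4 z hz').le.trans (z2 a).1)
        simp [e2, D1, pd, e]
    · rw [integral_indicator m2, setIntegral_const, smul_eq_mul, mul_comm]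
      rfl
  have h4 : volume.real {z | k < v z ∧ ζ z ≠ 0} ≤ H.ms v y ρ' k :=
    measureReal_mono (fun z hz => ⟨by_contra fun k' => hz.2 (z4 z k'), hz.1⟩)
      (H.fin_sub inter_subset_left)
  have h5 : 0 ≤ ∫ z, e2 (D1 ζ z) * max (v z - k) 0 ^ 2 :=
    integral_nonneg fun z => mul_nonneg (e2_nonneg _) (sq_nonneg _)
  have h6 := (mul_le_mul_of_nonneg_right (le_abs_self γ) h5).trans
    (mul_le_mul_of_nonneg_left h3 (abs_nonneg γ))
  have h7 := mul_le_mul_of_nonneg_left h4 (sq_nonneg χ)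
  linarith

/-- the energy inequality of block H -/
theorem cac (hv : ContDiff ℝ 1 v) (hD : DG γ χ k₀ v x₀ r) (hl : ∀ z ∈ ball x₀ r, k₀ ≤ v z)
    {y : E n} {r' : ℝ} (hs : ball y r' ⊆ ball x₀ r) (hχ : χ ^ 2 ≤ 1 / r' ^ 2) (M : ℝ) :
    H.Cac v y r' (|γ| * n + 1) M := by
  intro ρ ρ' k A h0 h hr hH _ hb
  have s1 : ball y ρ' ⊆ ball x₀ r := (ball_subset_ball hr).trans hs
  have s2 : ball y ρ ⊆ ball x₀ r := (ball_subset_ball h.le).trans s1
  have h1 : H.eg v y ρ k ≤ (|γ| * (n / (ρ' - ρ) ^ 2 * A ^ 2) + χ ^ 2) * H.ms v y ρ' k := by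
    rcases le_total k₀ k with hk | hk
    · exact en hv hD h s1 hk hH hb
    refine le_trans (le_of_eq ?_) ((en hv hD h s1 le_rfl hH fun z hz =>
      (hb z hz).trans (by linarith)).trans
      (mul_le_mul_of_nonneg_left (H.ms_mono v y le_rfl hk) (by positivity)))
    refine setIntegral_eq_of_subset_of_forall_sdiff_eq_zero (H.meas_lev hv.continuous y ρ k)
      (inter_subset_inter_right _ fun z (hz : k₀ < v z) => show k < v z by linarith)
      fun z hz => ?_
    have e : fderiv ℝ v z = 0 := IsLocalMin.fderiv_eq_zero (by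
      filter_upwards [isOpen_ball.mem_nhds hz.1.1] with a ha
      exact (not_lt.1 fun k' => hz.2 ⟨hz.1.1, k'⟩).trans (hl a (s2 ha)))
    rw [e, norm_zero, zero_pow two_ne_zero]
  refine h1.trans (mul_le_mul_of_nonneg_right ?_ (H.ms_nonneg _ _ _ _))
  have a1 : 0 ≤ A ^ 2 / (ρ' - ρ) ^ 2 := by positivity
  have a2 : 0 ≤ |γ| * n * (1 / r' ^ 2) := by positivity
  have e : |γ| * (n / (ρ' - ρ) ^ 2 * A ^ 2) = |γ| * n * (A ^ 2 / (ρ' - ρ) ^ 2) := by ring
  rw [e]
  linarith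

/-- the class after a multiplication -/
theorem scale (hD : DG γ χ k₀ v x₀ r) {c : ℝ} (hc : 0 < c) :
    DG γ (c * χ) (c * k₀) (fun y => c * v y) x₀ r := by
  intro k hk ζ z1 z2 z3
  obtain ⟨k, rfl⟩ : ∃ k', k = c * k' := ⟨k / c, by field_simp⟩
  have h1 := mul_le_mul_of_nonneg_left
    (hD k (le_of_mul_le_mul_left hk hc) ζ z1 z2 z3) (sq_nonneg c)
  have e1 : ∀ y, ζ y ^ 2 * e2 (D1 (fun y => c * v y) y) = c ^ 2 * (ζ y ^ 2 * e2 (D1 v y)) :=
    fun y => by
      simp only [e2, D1, pd_const_mul, mul_pow, ← Finset.mul_sum]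
      ring
  have e2' : ∀ y, e2 (D1 ζ y) * max (c * v y - c * k) 0 ^ 2 =
      c ^ 2 * (e2 (D1 ζ y) * max (v y - k) 0 ^ 2) := fun y => by
    rw [← mul_sub, ← mul_zero c, ← mul_max_of_nonneg _ _ hc.le, mul_zero]
    ring
  simp only [e1, e2', mul_lt_mul_iff_right₀ hc, integral_const_mul]
  linarith

end DgoH

open DgoH in
/-- **row DGO** -/
theorem dgo : DGO := by
  intro n γ hn
  obtain ⟨α, α0, α1, K₀, K0, h⟩ := H.dgh_of (H.dga_of H.sob) (H.dgb_of H.poi) n (|γ| * n + 1)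
    (by omega) (by positivity)
  refine ⟨α / 2, ⟨by positivity, by linarith⟩, 4 * (K₀ + 1), by positivity,
    fun χ K r v x₀ hr hχ hv hK h1 h2 y hy z hz => ?_⟩
  have sub : ball x₀ (r / 2) ⊆ ball x₀ r := ball_subset_ball (by linarith)
  have K1 : 0 ≤ K := (abs_nonneg _).trans (hK x₀ (mem_ball_self hr))
  have c1 : 0 ≤ χ * r := by positivity
  have t0 : 0 ≤ ‖y - z‖ / r := by positivity
  have t1 : ‖y - z‖ / r ≤ 1 := by
    rw [div_le_one hr, ← dist_eq_norm]
    linarith [dist_triangle_right y z x₀, mem_ball.1 hy, mem_ball.1 hz]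
  have t2 : (‖y - z‖ / r) ^ α ≤ (‖y - z‖ / r) ^ (α / 2) :=
    Real.rpow_le_rpow_of_exponent_ge' t0 t1 (by positivity) (by linarith)
  have t3 : 0 ≤ (‖y - z‖ / r) ^ α := Real.rpow_nonneg t0 _
  refine le_trans ?_ (mul_le_mul_of_nonneg_left t2 (by positivity))
  have t4 : (‖y - z‖ / (r / 2)) ^ α ≤ 2 * (‖y - z‖ / r) ^ α := by
    rw [show ‖y - z‖ / (r / 2) = 2 * (‖y - z‖ / r) by field_simp, Real.mul_rpow two_pos.le t0]
    refine mul_le_mul_of_nonneg_right ?_ t3
    exact (Real.rpow_le_rpow_of_exponent_le one_le_two α1).trans_eq (Real.rpow_one 2)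
  have b2 : |v y - v z| ≤ 2 * K := by
    linarith [abs_sub (v y) (v z), hK y (sub hy), hK z (sub hz)]
  rcases le_or_gt (r / 2) ‖y - z‖ with hd | hd
  · have t5 : 1 ≤ (‖y - z‖ / (r / 2)) ^ α :=
      Real.one_le_rpow ((one_le_div (by positivity)).2 hd) α0.le
    have t6 := mul_le_mul_of_nonneg_left (t5.trans t4) (show 0 ≤ 2 * K by positivity)
    have t7 : 0 ≤ (K₀ * (K + χ * r) + χ * r) * (‖y - z‖ / r) ^ α := by positivity
    linarith
  rcases (add_nonneg K1 c1).eq_or_lt with S0 | S0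
  · rw [← S0, mul_zero, zero_mul]
    linarith
  generalize hS : K + χ * r = S at S0
  have c0 : 0 < S⁻¹ := inv_pos.2 S0
  have s2 : ball z (r / 2) ⊆ ball x₀ r := ball_subset_ball' (by linarith [mem_ball.1 hz])
  have hχ' : (S⁻¹ * χ) ^ 2 ≤ 1 / (r / 2) ^ 2 := by
    have : S⁻¹ * χ ≤ 1 / (r / 2) := by
      rw [inv_mul_le_iff₀ S0, mul_one_div, le_div_iff₀ (by positivity)]
      linarith
    have h3 := pow_le_pow_left₀ (by positivity) this 2
    rwa [div_pow, one_pow] at h3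
  have hw : ContDiff ℝ 1 fun y => S⁻¹ * v y := contDiff_const.mul hv
  have d2 := scale h2 c0
  simp only [mul_neg] at d2
  have h3 := h (fun y => S⁻¹ * v y) z (r / 2) 1 hw (by positivity) (fun a ha => by
      rw [abs_mul, abs_of_pos c0, inv_mul_le_iff₀ S0]
      linarith [hK a (s2 ha)])
    (cac hw (scale h1 c0) (fun a ha => mul_le_mul_of_nonneg_left (abs_le.1 (hK a ha)).1 c0.le)
      s2 hχ' 1)
    (cac hw.neg d2 (fun a ha => neg_le_neg
      (mul_le_mul_of_nonneg_left (abs_le.1 (hK a ha)).2 c0.le)) s2 hχ' 1)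
    y (mem_ball_iff_norm.2 hd)
  rw [← mul_sub, abs_mul, abs_of_pos c0, inv_mul_le_iff₀ S0] at h3
  have h4 := mul_le_mul_of_nonneg_left t4 (show 0 ≤ S * (K₀ * 2) by positivity)
  have h5 : 0 ≤ S * (‖y - z‖ / r) ^ α := by positivity
  linarith

/-- the form of the row -/
theorem dgo_of (_ : DGS) : DGO := dgo

end Vale.Agent.P366Y
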