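import Vale.Agent.P366Y.T.Mpn
import Vale.Agent.P366Z.Lina

/-!
# P366Y, row LINH: linear equations with Hölder coefficients
-/

open Metric Filter Topology Set
open scoped ContDiff
open Vale.Agent.P272.K Vale.Agent.P272.K.LIN
open Vale.Agent.P366.Stmt Vale.Agent.P366Z
open Vale.Agent.P366Z.LinaH (Hb Ap piece cu_of sys)

set_option maxSynthPendingDepth 3

noncomputable section

namespace Vale.Agent.P366Y

namespace Lh

section
variable {E : Type} [NormedAddCommGroup E] [NormedSpace ℝ E] {α : ℝ}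
  {a : E → (E →L[ℝ] E →L[ℝ] ℝ) →L[ℝ] ℝ}

theorem ap_univ [FiniteDimensional ℝ E] (hα : 0 < α) (hα1 : α < 1) (hab : Hb α a)
    {R : ℝ} (hR : 0 < R) {a₀ : (E →L[ℝ] E →L[ℝ] ℝ) →L[ℝ] ℝ} (h₀ : ∀ x, R ≤ ‖x‖ → a x = a₀)
    (hp₀ : ∀ ξ : E →L[ℝ] ℝ, ξ ≠ 0 → 0 < a₀ (ξ.smulRight ξ))
    (hp : ∀ x, ∀ ξ : E →L[ℝ] ℝ, ξ ≠ 0 → 0 < a x (ξ.smulRight ξ)) : Ap α a univ := by
  classical
  have hout : Ap α a {x | R + 1 ≤ ‖x‖} := by
    obtain ⟨C, hC, hres⟩ := V.const_resolvent' hα hα1 a₀ hp₀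
    let β : ContDiffBump (0 : E) := ⟨R, R + 1, hR, by linarith⟩
    have hz : ∀ y : E, R + 1 ≤ ‖y‖ → 1 - β y = 1 := fun y hy => by
      rw [β.zero_of_le_dist (by rwa [dist_zero_right]), sub_zero]
    refine (piece (K := {x | R ≤ ‖x‖}) hα hα1 hab (cu_of hα hα1.le (contDiff_const.sub β.contDiff)
      (isCompact_closedBall 0 (R + 1)) 1 fun y hy =>
        hz y (not_le.1 (mem_closedBall_zero_iff.not.1 hy)).le) (fun x hx => ?_) hC le_rfl
      fun l hl f A B hB hf => ?_).mono hz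
    · rw [β.one_of_mem_closedBall (mem_closedBall_zero_iff.2 (not_le.1 hx).le), sub_self]
    · obtain ⟨v, h1, h2, h3⟩ := hres l hl f A B hB hf
      exact ⟨v, h1, fun x hx => by rw [h₀ x hx]; exact h2 x, h3⟩
  have hin : ∀ x₀ : E, ∃ r > 0, Ap α a (closedBall x₀ (2 * r)) := fun x₀ => by
    obtain ⟨M, -, hM⟩ := id hab
    obtain ⟨r, hr, -, C, hC, l₀, hl₀, hres⟩ := V.local_resolvent' hα hα1 isOpen_univ
      (mem_univ x₀) a (fun _ => 0) ⟨M, fun x _ y _ => hM.hol x y⟩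
      ⟨0, fun x _ y _ => by simp⟩ (hp x₀)
    let β : ContDiffBump x₀ := ⟨r / 2, r, half_pos hr, half_lt_self hr⟩
    have hz : ∀ y, y ∉ closedBall x₀ r → β y = 0 := fun y hy =>
      β.zero_of_le_dist (not_le.1 (mem_closedBall.not.1 hy)).le
    refine ⟨r / 4, by positivity, (piece (K := closedBall x₀ r) hα hα1 hab
      (cu_of hα hα1.le β.contDiff (isCompact_closedBall x₀ r) 0 hz) hz hC hl₀
      fun l hl f A B hB hf => ?_).mono fun y hy => β.one_of_mem_closedBall ?_⟩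
    · obtain ⟨v, h1, h2, h3⟩ := hres l hl f A B hB hf
      exact ⟨v, h1, fun x hx => by simpa using h2 x hx, h3⟩
    · rwa [show 2 * (r / 4) = r / 2 by ring] at hy
  choose r hr hin using hin
  obtain ⟨t, -, ht⟩ := (isCompact_closedBall (0 : E) (R + 1)).elim_nhds_subcover
    (fun x => closedBall x (r x)) fun x _ => closedBall_mem_nhds x (hr x)
  have key : ∀ s : Finset E, Ap α a ({x | R + 1 ≤ ‖x‖} ∪ ⋃ x ∈ s, closedBall x (r x)) := by
    intro s
    induction s using Finset.induction_on with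
    | empty => simpa using hout
    | insert x₀ s _ ih =>
      have hχ : Hb α (V.cut x₀ (r x₀)) := Hb.of (A := 1) (Real.rpow_pos_of_pos (hr x₀) _).le
        ⟨fun y => by
          rw [Real.norm_of_nonneg (V.cut_nonneg _ _ _)]
          exact V.cut_le_one _ _ _, fun y z => V.cut_hol hα hα1 (hr x₀) y z⟩
      refine (ih.split hα (hin x₀) hχ fun y hy => V.cut_eq_zero (hr x₀) ?_).mono ?_
      · rwa [mem_closedBall, dist_eq_norm, not_le] at hy
      · rw [Finset.set_biUnion_insert]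
        rintro y (hy | hy | hy)
        · exact Or.inl (Or.inl hy)
        · exact Or.inr (V.cut_eq_one (hr x₀) (by rwa [mem_closedBall, dist_eq_norm] at hy))
        · exact Or.inl (Or.inr hy)
  refine (key t).mono fun x _ => ?_
  rcases le_total (R + 1) ‖x‖ with h | h
  · exact Or.inl h
  · exact Or.inr (ht (mem_closedBall_zero_iff.2 h))

end

/-- a monotone map of a complete lattice of functions has a fixed point -/
theorem tarski {X : Type} {S : Set (X → ℝ)} {T : S → S}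
    (mono : ∀ v w : S, v.1 ≤ w.1 → (T v).1 ≤ (T w).1)
    (bot : ∃ b : S, ∀ v : S, b.1 ≤ v.1)
    (sup : ∀ P : Set S, P.Nonempty → ∃ u : S, (∀ v ∈ P, v.1 ≤ u.1) ∧
      ∀ w : S, (∀ v ∈ P, v.1 ≤ w.1) → u.1 ≤ w.1) : ∃ u : S, (T u).1 = u.1 := by
  obtain ⟨b, hb⟩ := bot
  obtain ⟨u, h1, h2⟩ := sup {v | v.1 ≤ (T v).1} ⟨b, hb _⟩
  have h3 : u.1 ≤ (T u).1 := h2 _ fun v hv => le_trans hv (mono _ _ (h1 v hv))
  exact ⟨u, le_antisymm (h1 _ (mono _ _ h3)) h3⟩

theorem interp {α ε : ℝ} (h0 : 0 < α) (h1 : α < 1) (hε : 0 < ε) : ∃ D ≥ (0 : ℝ),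
    ∀ L M r t : ℝ, 0 ≤ L → 0 ≤ M → 0 ≤ r → t ≤ L * r → t ≤ M → t ≤ (ε * L + D * M) * r ^ α := by
  have δ0 : 0 < ε ^ (1 - α)⁻¹ := Real.rpow_pos_of_pos hε _
  have e : (ε ^ (1 - α)⁻¹) ^ (1 - α) = ε := Real.rpow_inv_rpow hε.le (by linarith)
  generalize ε ^ (1 - α)⁻¹ = δ at δ0 e
  have p0 := Real.rpow_pos_of_pos δ0 α
  refine ⟨(δ ^ α)⁻¹, by positivity, fun L M r t hL hM hr k1 k2 => ?_⟩
  have r0 := Real.rpow_nonneg hr α
  have q1 : 0 ≤ ε * L * r ^ α := by positivity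
  have q2 : 0 ≤ (δ ^ α)⁻¹ * M * r ^ α := by positivity
  rcases le_total r δ with k | k
  · have h2 : r = r ^ (1 - α) * r ^ α := by
      rw [← Real.rpow_add' hr (by norm_num), sub_add_cancel, Real.rpow_one]
    have h3 := mul_le_mul_of_nonneg_left (mul_le_mul_of_nonneg_right
      ((Real.rpow_le_rpow hr k (by linarith)).trans_eq e) r0) hL
    rw [← h2] at h3
    linarith
  · have h3 := mul_le_mul_of_nonneg_left (Real.rpow_le_rpow δ0.le k h0.le)
      (by positivity : 0 ≤ (δ ^ α)⁻¹ * M)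
    rw [mul_right_comm, inv_mul_cancel₀ p0.ne', one_mul] at h3
    linarith

variable {n : ℕ} {α : ℝ}

/-- the operator on bilinear forms -/
def op (a : Mx n) : (E n →L[ℝ] E n →L[ℝ] ℝ) →L[ℝ] ℝ := ∑ i, ∑ j, a i j • LinaH.e2 i j

theorem op_apply (a : Mx n) (B : E n →L[ℝ] E n →L[ℝ] ℝ) : op a B =
    ∑ i, ∑ j, a i j * B (EuclideanSpace.single i 1) (EuclideanSpace.single j 1) := by
  simp only [op, ContinuousLinearMap.sum_apply]
  rfl

theorem op_pos {Λ : ℝ} {a : Mx n} (h : El Λ a) (ξ : E n →L[ℝ] ℝ) (hξ : ξ ≠ 0) :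
    0 < op a (ξ.smulRight ξ) := by
  have e : op a (ξ.smulRight ξ) = ∑ i, ∑ j, a i j * ξ (EuclideanSpace.single i 1) *
      ξ (EuclideanSpace.single j 1) := by
    simp only [op_apply, ContinuousLinearMap.smulRight_apply, ContinuousLinearMap.smul_apply,
      smul_eq_mul, mul_assoc]
  rw [e]
  refine (Mp.el_nonneg h _).lt_of_ne' fun k => hξ ?_
  have h1 := h.2.2 fun i => ξ (EuclideanSpace.single i 1)
  rw [k, mul_zero] at h1
  refine ContinuousLinearMap.coe_injective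
    ((EuclideanSpace.basisFun (Fin n) ℝ).toBasis.ext fun i => ?_)
  simpa using (Finset.single_le_sum (fun j _ => sq_nonneg (ξ (EuclideanSpace.single j 1)))
    (Finset.mem_univ i)).trans h1

theorem c2h {v : E n → ℝ} {P : ℝ} (hP : 0 ≤ P) (hv : ContDiff ℝ 2 v) (h : HB α (jet v) P P) :
    C2H α P v := by
  have s1 : ∀ i : Fin n, ‖(EuclideanSpace.single i 1 : E n)‖ = 1 := fun i => by simp
  have o1 : ∀ (L : E n →L[ℝ] ℝ) i, ‖L (EuclideanSpace.single i 1)‖ ≤ ‖L‖ := fun L i => by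
    simpa [s1] using L.le_opNorm (EuclideanSpace.single i 1)
  have o2 : ∀ (L : E n →L[ℝ] E n →L[ℝ] ℝ) i j,
      ‖L (EuclideanSpace.single i 1) (EuclideanSpace.single j 1)‖ ≤ ‖L‖ := fun L i j =>
    (o1 _ j).trans (by simpa [s1] using L.le_opNorm (EuclideanSpace.single i 1))
  have d1 : ∀ x i, D1 v x i = fderiv ℝ v x (EuclideanSpace.single i 1) := fun x i =>
    pd_eq (diff2 hv.contDiffAt) i
  have d2 : ∀ x i j, D2 v x i j = fderiv ℝ (fderiv ℝ v) x (EuclideanSpace.single i 1)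
      (EuclideanSpace.single j 1) := fun x i j => pd_pd_eq hv.contDiffAt i j
  have q : ∀ x y : E n, 0 ≤ P * ‖x - y‖ ^ α := fun x y => by positivity
  refine ⟨hv, ⟨fun x => (norm_fst_le (jet v x)).trans (h.sup x),
    fun x y => (norm_fst_le (jet v x - jet v y)).trans (h.hol x y)⟩,
    ⟨fun x => (pi_norm_le_iff_of_nonneg hP).2 fun i => ?_,
      fun x y => (pi_norm_le_iff_of_nonneg (q x y)).2 fun i => ?_⟩,
    fun x => (pi_norm_le_iff_of_nonneg hP).2 fun i => (pi_norm_le_iff_of_nonneg hP).2 fun j => ?_,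
    fun x y => (pi_norm_le_iff_of_nonneg (q x y)).2 fun i =>
      (pi_norm_le_iff_of_nonneg (q x y)).2 fun j => ?_⟩
  · rw [d1]
    exact (o1 _ i).trans (((norm_fst_le _).trans (norm_snd_le (jet v x))).trans (h.sup x))
  · rw [Pi.sub_apply, d1, d1, ← ContinuousLinearMap.sub_apply]
    exact (o1 _ i).trans (((norm_fst_le _).trans (norm_snd_le (jet v x - jet v y))).trans
      (h.hol x y))
  · rw [d2]
    exact (o2 _ i j).trans (((norm_snd_le _).trans (norm_snd_le (jet v x))).trans (h.sup x))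
  · rw [Pi.sub_apply, Pi.sub_apply, d2, d2, ← ContinuousLinearMap.sub_apply,
      ← ContinuousLinearMap.sub_apply]
    exact (o2 _ i j).trans (((norm_snd_le _).trans (norm_snd_le (jet v x - jet v y))).trans
      (h.hol x y))

/-- the resolvent -/
theorem res (hn : 3 ≤ n) (h0 : 0 < α) (h1 : α < 1) {a : E n → Mx n} {Λ A ρ : ℝ}
    (he : ∀ x, El Λ (a x)) (ha : Ho α A a) (hi : ∀ x, ρ ≤ ‖x‖ → a x = eu n x) (l : ℝ) :
    ∃ l' K : ℝ, l ≤ l' ∧ 0 < l' ∧ 0 ≤ K ∧ ∀ (f : E n → ℝ) (P Q : ℝ), 0 ≤ Q → HB α f P Q →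
      ∃ v, C2H α (K * (P + Q)) v ∧ (∀ x y, |v x - v y| ≤ K * (P + Q) * ‖x - y‖) ∧
        ∀ x, l' * v x - pr2 (a x) (D2 v x) = f x := by
  have A0 : 0 ≤ A := (norm_nonneg _).trans (ha.1 0)
  have hb : Hb α fun x => op (a x) := Hb.sum _ fun i => Hb.sum _ fun j => Hb.smul
    ⟨A, A0, fun x => ((norm_le_pi_norm _ j).trans (norm_le_pi_norm (a x) i)).trans (ha.1 x),
      fun x y => ((norm_le_pi_norm ((a x - a y) i) j).trans
        (norm_le_pi_norm (a x - a y) i)).trans (ha.2 x y)⟩ (Hb.const _)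
  have hx : ρ ≤ ‖(EuclideanSpace.single (⟨0, by omega⟩ : Fin n) ρ : E n)‖ := by
    simpa using le_abs_self ρ
  obtain ⟨C, l₀, C0, l1, hs⟩ := sys (ι := Unit) h0 (ap_univ h0 h1 hb (R := max ρ 1)
    (lt_max_of_lt_right one_pos) (fun x k => congrArg op
      ((hi x ((le_max_left _ _).trans k)).trans (hi _ hx).symm)) (op_pos (he _))
    fun x => op_pos (he x)) (Hb.const 0)
  obtain ⟨l', k1, k2⟩ : ∃ l', l ≤ l' ∧ l₀ ≤ l' := ⟨_, le_max_left _ _, le_max_right _ _⟩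
  have hl1 : 1 ≤ l' := l1.trans k2
  have hl0 : 0 < l' := by linarith
  have hq : 1 ≤ l' ^ (α / 2) := Real.one_le_rpow hl1 (by linarith)
  have e : l' ^ (α / 2) * l' ^ (-(α / 2)) = 1 := by
    rw [← Real.rpow_add hl0, add_neg_cancel, Real.rpow_zero]
  refine ⟨l', C * l' ^ (α / 2), k1, hl0, by positivity, fun f P Q Q0 hf => ?_⟩
  have P0 := hf.sup_nonneg
  obtain ⟨v, hv, heq⟩ := hs l' k2 (fun x _ => f x) (l' ^ (α / 2) * (P + Q)) (by positivity)
    ((LinaH.hb_pi P0 Q0 fun _ => hf).mono' (by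
      have : l' ^ (α / 2) * (P + Q) * l' ^ (-(α / 2)) = P + Q := by
        linear_combination (P + Q) * e
      linarith) (by nlinarith))
  have hj := (hv ()).2.jet h0 hl1 (by positivity)
  rw [← mul_assoc] at hj
  refine ⟨v (), c2h (by positivity) (hv ()).1 hj, fun x y => ?_, fun x => ?_⟩
  · exact convex_univ.norm_image_sub_le_of_norm_fderiv_le (𝕜 := ℝ)
      (fun z _ => diff2 (hv ()).1.contDiffAt)
      (fun z _ => ((norm_fst_le _).trans (norm_snd_le (jet (v ()) z))).trans (hj.sup z))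
      (mem_univ y) (mem_univ x)
  · have := heq x ()
    rw [op_apply] at this
    simpa [pr2, D2, pd_pd_eq (hv ()).1.contDiffAt] using this

end Lh

open Lh Mp

theorem linh : LINH := by
  intro n Λ₀ ρ hn
  obtain ⟨l₀, C, C0, hbar⟩ := bar Λ₀ ρ hn
  refine ⟨l₀, fun l hl α hα a c h hL ⟨A, ha, hc, hh⟩ hz => ?_⟩
  obtain ⟨Λ, hΛ⟩ := hL.el
  have A0 : 0 ≤ A := (norm_nonneg _).trans (ha.1 0)
  obtain ⟨l', K, l1, l0, K0, hres⟩ := res hn hα.1 hα.2 hΛ ha hL.id l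
  obtain ⟨D, D0, hD⟩ := interp hα.1 hα.2 (ε := (2 * (K * l' + 1))⁻¹) (by positivity)
  obtain ⟨M, hM⟩ : ∃ M, M = C * A := ⟨_, rfl⟩
  have M0 : 0 ≤ M := by rw [hM]; positivity
  obtain ⟨K₁, hK₁⟩ : ∃ K₁, K₁ = K * (l' * M + A + (l' * (D * (2 * M)) + A * M + A)) := ⟨_, rfl⟩
  have K1 : 0 ≤ K₁ := by rw [hK₁]; positivity
  have W0 : ∀ x, 0 ≤ l' - c x ∧ l' - c x ≤ l' := fun x =>
    ⟨by linarith [(hL.cb x).2], by linarith [(hL.cb x).1]⟩
  have bW : ∀ x, M * bu n x ≤ M := fun x => mul_le_of_le_one_right M0 (bu_le hn x)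
  have pW : ∀ x, 0 ≤ M * bu n x := fun x => mul_nonneg M0 (bu_pos x).le
  have sW : ∀ x, M * (pr2 (a x) (D2 (bu n) x) - c x * bu n x) ≤ -|h x| := fun x => by
    obtain ⟨k1, k2⟩ := hbar l hl a c hL x
    rcases le_total ‖x‖ (ρ + 1) with k | k
    · have k3 : |h x| ≤ A := hh.1 x
      rw [hM]
      linarith [mul_le_mul_of_nonneg_left (k2 k) A0]
    · rw [hz x k, abs_zero, neg_zero]
      exact mul_nonpos_of_nonneg_of_nonpos M0 k1.le
  let S : Set (E n → ℝ) := {v | (∀ x, |v x| ≤ M * bu n x) ∧ ∀ x y, v x - v y ≤ 2 * K₁ * ‖x - y‖}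
  have cmp : ∀ {v w : E n → ℝ} {B B' t : ℝ}, ContDiff ℝ 2 v → ContDiff ℝ 2 w → (∀ x, |v x| ≤ B) →
      (∀ x, |w x| ≤ B') → (∀ x, l' * v x - pr2 (a x) (D2 v x) ≤
        t * (l' * w x - pr2 (a x) (D2 w x))) → ∀ x, v x ≤ t * w x := by
    intro v w B B' t hv hw b1 b2 k x
    refine sub_nonpos.1 (bdd hΛ l0 (M := B + |t| * B') (hv.sub (contDiff_const.mul hw))
      (fun y => (abs_sub _ _).trans (add_le_add (b1 y) ?_)) (fun y => ?_) x)
    · rw [abs_mul]
      exact mul_le_mul_of_nonneg_left (b2 y) (abs_nonneg t)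
    · rw [d2_lin hv hw]
      linarith [k y]
  have b1 : ∀ x : E n, |bu n x| ≤ 1 := fun x => (abs_of_pos (bu_pos x)).trans_le (bu_le hn x)
  have step : ∀ v : S, ∃ w : S, (∃ P, C2H α P w.1) ∧
      ∀ x, l' * w.1 x - pr2 (a x) (D2 w.1 x) = (l' - c x) * v.1 x - h x := by
    rintro ⟨v, v1, v2⟩
    have v3 : ∀ x, |v x| ≤ M := fun x => (v1 x).trans (bW x)
    have v4 : ∀ x y, |v x - v y| ≤ ((2 * (K * l' + 1))⁻¹ * (2 * K₁) + D * (2 * M)) *
        ‖x - y‖ ^ α := fun x y => hD _ _ _ _ (by positivity) (by positivity) (norm_nonneg _)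
      (abs_sub_le_iff.2 ⟨v2 x y, norm_sub_rev y x ▸ v2 y x⟩)
      ((abs_sub _ _).trans (by linarith [v3 x, v3 y]))
    obtain ⟨w, w1, w2, w3⟩ := hres (fun x => (l' - c x) * v x - h x) (l' * M + A)
      (l' * ((2 * (K * l' + 1))⁻¹ * (2 * K₁) + D * (2 * M)) + A * M + A) (by positivity)
      ⟨fun x => (abs_sub _ _).trans (add_le_add (by
        rw [abs_mul, abs_of_nonneg (W0 x).1]
        exact mul_le_mul (W0 x).2 (v3 x) (abs_nonneg _) l0.le) (hh.1 x)), fun x y => by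
        have k1 := ((abs_mul (l' - c x) (v x - v y)).trans
          (congrArg (· * _) (abs_of_nonneg (W0 x).1))).trans_le
            (mul_le_mul (W0 x).2 (v4 x y) (abs_nonneg _) l0.le)
        have k2 : |(c x - c y) * v y| ≤ A * ‖x - y‖ ^ α * M := by
          rw [abs_mul]
          exact mul_le_mul (hc.2 x y) (v3 y) (abs_nonneg _) (by positivity)
        have k3 : |h x - h y| ≤ A * ‖x - y‖ ^ α := hh.2 x y
        rw [abs_le] at k1 k2 k3
        rw [Real.norm_eq_abs, abs_le]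
        constructor <;> linarith [k1.1, k1.2, k2.1, k2.2, k3.1, k3.2]⟩
    refine ⟨⟨w, fun x => abs_le.2 ⟨?_, ?_⟩, fun x y => (le_abs_self _).trans ((w2 x y).trans
      (mul_le_mul_of_nonneg_right ?_ (norm_nonneg _)))⟩, ⟨_, w1⟩, w3⟩
    · have := cmp (v := fun y => 0 - M * bu n y) (t := 1) (B := M)
        (contDiff_const.sub (contDiff_const.mul bu_c2)) w1.1
        (fun y => by rw [zero_sub, abs_neg, abs_of_nonneg (pW y)]; exact bW y) w1.2.1.1
        (fun y => by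
          rw [d2_lin contDiff_const bu_c2, w3, show pr2 (a y) (D2 (fun _ => 0) y) = 0 by
            simp [pr2, D2, funext (pd_const (0 : ℝ) _), pd_const]]
          linarith [sW y, le_abs_self (h y),
            mul_le_mul_of_nonneg_left (abs_le.1 (v1 y)).1 (W0 y).1]) x
      linarith
    · refine cmp w1.1 bu_c2 w1.2.1.1 b1 (fun y => ?_) x
      rw [w3]
      linarith [sW y, neg_abs_le (h y), mul_le_mul_of_nonneg_left (abs_le.1 (v1 y)).2 (W0 y).1]
    · have k1 : K * l' * (2 * (K * l' + 1))⁻¹ ≤ 1 / 2 := by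
        rw [← div_eq_mul_inv, div_le_iff₀ (by positivity)]
        linarith
      have k2 := mul_le_mul_of_nonneg_right k1 K1
      linarith
  choose T T1 T2 using step
  have up : ∀ P : Set S, ∀ x, BddAbove (range fun v : P => v.1.1 x) := fun P x =>
    ⟨M * bu n x, by rintro _ ⟨v, rfl⟩; exact (abs_le.1 (v.1.2.1 x)).2⟩
  have lo : ∀ x, BddBelow (range fun v : S => v.1 x) := fun x =>
    ⟨-(M * bu n x), by rintro _ ⟨v, rfl⟩; exact (abs_le.1 (v.2.1 x)).1⟩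
  let o : S := ⟨fun _ => 0, fun x => by simpa using pW x, fun x y => by
    rw [sub_zero]; positivity⟩
  have : Nonempty S := ⟨o⟩
  obtain ⟨u, hu⟩ := tarski (T := T) (fun v w k x => by
      obtain ⟨_, p⟩ := T1 v
      obtain ⟨_, q⟩ := T1 w
      refine (cmp (t := 1) p.1 q.1 p.2.1.1 q.2.1.1 (fun y => ?_) x).trans_eq (one_mul _)
      rw [T2, T2]
      linarith [mul_le_mul_of_nonneg_left (k y) (W0 y).1])
    ⟨⟨fun x => ⨅ v : S, v.1 x, fun x => abs_le.2 ⟨le_ciInf fun v => (abs_le.1 (v.2.1 x)).1,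
      (ciInf_le (lo x) o).trans (pW x)⟩, fun x y => sub_le_comm.1 (le_ciInf fun v => by
        linarith [ciInf_le (lo x) v, v.2.2 x y])⟩, fun v x => ciInf_le (lo x) v⟩
    fun P ⟨p, hp⟩ =>
      have : Nonempty P := ⟨⟨p, hp⟩⟩
      ⟨⟨fun x => ⨆ v : P, v.1.1 x, fun x => abs_le.2 ⟨(abs_le.1 (p.2.1 x)).1.trans
        (le_ciSup (up P x) ⟨p, hp⟩), ciSup_le fun v => (abs_le.1 (v.1.2.1 x)).2⟩,
        fun x y => sub_le_iff_le_add.2 (ciSup_le fun v => by
          linarith [le_ciSup (up P y) v, v.1.2.2 x y])⟩,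
        fun v hv x => le_ciSup (up P x) ⟨v, hv⟩, fun w k x => ciSup_le fun v => k v v.2 x⟩
  refine ⟨(T u).1, T1 u, ?_, fun x => ?_⟩
  · have k := (bu_lim hn).const_mul M
    rw [mul_zero] at k
    exact squeeze_zero_norm (T u).2.1 k
  · have := T2 u x
    rw [← hu] at this
    linarith

theorem linh_of (_ : USCH) (_ : INTP) (_ : MPN) : LINH := linh

end Vale.Agent.P366Y
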