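import Vale.Agent.P366Y.Sk
import Vale.Agent.P366Z.Calc

/-!
# P366Y: the estimate of Schauder under natural growth
-/

open MeasureTheory Metric Filter Topology Set
open scoped ContDiff ENNReal
open Vale.Agent.P366.Stmt Vale.Agent.P366Z

noncomputable section

namespace Vale.Agent.P366Y

namespace NatsH

variable {n : ℕ}

/-- the mean value inequality for the first derivatives -/
theorem lip {v : E n → ℝ} (hv : ContDiff ℝ 2 v) {H : ℝ} (h : ∀ x, ‖D2 v x‖ ≤ H) (x y : E n) :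
    ‖D1 v x - D1 v y‖ ≤ n * H * ‖x - y‖ := by
  have H0 : 0 ≤ H := (norm_nonneg _).trans (h x)
  refine (pi_norm_le_iff_of_nonneg (by positivity)).2 fun j => ?_
  have hd : ∀ z, DifferentiableAt ℝ (pd j v) z := fun z => diffAt_pd hv.contDiffAt j
  refine Convex.norm_image_sub_le_of_norm_fderiv_le (𝕜 := ℝ) (f := pd j v) (s := univ)
    (fun z _ => hd z) (fun z _ => ?_) convex_univ (mem_univ y) (mem_univ x)
  refine ContinuousLinearMap.opNorm_le_bound _ (by positivity) fun ξ => ?_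
  rw [fderiv_eq_sum (hd z)]
  refine (norm_sum_le _ _).trans ((Finset.sum_le_card_nsmul _ _ (H * ‖ξ‖) fun i _ => ?_).trans_eq
    (by simp [mul_assoc]))
  rw [norm_mul, mul_comm]
  exact mul_le_mul (((norm_le_pi_norm (D2 v z i) j).trans (norm_le_pi_norm (D2 v z) i)).trans (h z))
    (PiLp.norm_apply_le ξ i) (norm_nonneg _) H0

theorem e2_le {q : Vc n} {G : ℝ} (h : ‖q‖ ≤ G) : e2 q ≤ n * G ^ 2 :=
  (Finset.sum_le_card_nsmul _ _ (G ^ 2) fun i _ => by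
    rw [← sq_abs]
    exact pow_le_pow_left₀ (abs_nonneg _) ((norm_le_pi_norm q i).trans h) 2).trans_eq (by simp)

theorem small {α r d : ℝ} (hα : α ∈ Ioo (0 : ℝ) 1) (hr : 0 < r) (h0 : 0 ≤ d) (h : d ≤ r) :
    r ^ α * d ≤ r * d ^ α := by
  have h1 : d / r ≤ (d / r) ^ α := by
    rcases h0.eq_or_lt with rfl | h2
    · simpa using Real.rpow_nonneg le_rfl α
    · simpa using Real.rpow_le_rpow_of_exponent_ge (div_pos h2 hr) ((div_le_one hr).2 h) hα.2.le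
  rwa [Real.div_rpow h0 hr.le, div_le_div_iff₀ hr (Real.rpow_pos_of_pos hr α), mul_comm d,
    mul_comm _ r] at h1

theorem ho_mono {V : Type} [NormedAddCommGroup V] {α A B : ℝ} {f : E n → V} (h : Ho α A f)
    (k : A ≤ B) : Ho α B f :=
  ⟨fun x => (h.1 x).trans k, fun x y => (h.2 x y).trans
    (mul_le_mul_of_nonneg_right k (Real.rpow_nonneg (norm_nonneg _) α))⟩

end NatsH

open NatsH in
/-- **NATS** -/
theorem nats_of (hI : INTP) (hU : USCH) : NATS := by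
  intro n α Λ hα
  obtain ⟨C₁, h1, hI⟩ := hI n α hα
  obtain ⟨C₂, h2, hU⟩ := hU n α Λ hα
  obtain ⟨K, hK⟩ : ∃ K, K = C₁ * (Λ + 1) := ⟨_, rfl⟩
  obtain ⟨K', hK'⟩ : ∃ K', K' = (n + 2) * K := ⟨_, rfl⟩
  obtain ⟨Q, hQ⟩ : ∃ Q, Q = Λ * (1 + n * K ^ 2) + Λ * (1 + 2 * K) * K' := ⟨_, rfl⟩
  obtain ⟨P, hP⟩ : ∃ P, P = C₂ * (K + Q) + 1 := ⟨_, rfl⟩
  obtain ⟨T, hT⟩ : ∃ T, T = (2 * P) ^ α⁻¹ := ⟨_, rfl⟩
  refine ⟨Λ + K' * T + P * T ^ 2, fun a b v ha ha' ⟨A, hA⟩ hv b1 b2 b3 he => ?_⟩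
  have Λ0 : 0 ≤ Λ := (norm_nonneg _).trans (hv.1 0)
  have K0 : 0 ≤ K := by rw [hK]; positivity
  have K0' : K ≤ K' := by rw [hK']; nlinarith [(Nat.cast_nonneg n : (0 : ℝ) ≤ n)]
  have K1 : 0 ≤ K' := K0.trans K0'
  have Q0 : 0 ≤ Q := by rw [hQ]; positivity
  have P1 : 1 ≤ P := by rw [hP]; nlinarith [mul_nonneg h2.le (add_nonneg K0 Q0)]
  have step : ∀ t, 1 ≤ t → (∀ x y, ‖D2 v x - D2 v y‖ ≤ t ^ 2 * ‖x - y‖ ^ α) →
      Ho α (K' * t) (D1 v) ∧ 1 ≤ P * (t⁻¹ ^ α * t ^ 2) ∧ Ho α (P * (t⁻¹ ^ α * t ^ 2)) (D2 v) := by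
    intro t ht hB
    have t0 : 0 < t := one_pos.trans_le ht
    have r0 : 0 < t⁻¹ := inv_pos.2 t0
    have r1 : t⁻¹ ≤ 1 := inv_le_one_of_one_le₀ ht
    obtain ⟨s, hs⟩ : ∃ s, s = t⁻¹ ^ α := ⟨_, rfl⟩
    have s0 : 0 < s := hs ▸ Real.rpow_pos_of_pos r0 α
    have s1 : s ≤ 1 := hs ▸ Real.rpow_le_one r0.le r1 hα.1.le
    have s2 : 1 ≤ s * t := by
      have : t⁻¹ ≤ s := by simpa [hs] using Real.rpow_le_rpow_of_exponent_ge r0 r1 hα.2.le
      rwa [inv_le_iff_one_le_mul₀ t0] at this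
    have s3 : t ≤ s * t ^ 2 := by nlinarith
    have s4 : s * t ≤ t := by nlinarith
    have k := (hI v (Λ * s) (t ^ 2) t⁻¹ r0 (by positivity) (by positivity) hA.1 hB).1
      fun x y hxy => (hv.2 x y).trans (mul_le_mul_of_nonneg_left
        (hs ▸ Real.rpow_le_rpow (norm_nonneg _) hxy hα.1.le) Λ0)
    have hG : ∀ x, ‖D1 v x‖ ≤ K * (s * t) := fun x => (k x).1.trans_eq (by
      rw [Real.rpow_add r0, Real.rpow_one, ← hs, hK]
      field_simp)
    have hH : ∀ x, ‖D2 v x‖ ≤ K * (s * t ^ 2) := fun x => (k x).2.trans_eq (by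
      rw [← hs, hK]
      field_simp)
    have hD : ∀ x y, ‖D1 v x - D1 v y‖ ≤ K' * t * ‖x - y‖ ^ α := fun x y => by
      have d0 : 0 ≤ ‖x - y‖ ^ α := Real.rpow_nonneg (norm_nonneg _) α
      have n0 : (0 : ℝ) ≤ n := Nat.cast_nonneg n
      have d1 : 0 ≤ K * t * ‖x - y‖ ^ α := by positivity
      rcases le_total ‖x - y‖ t⁻¹ with c | c
      · have c1 := small hα r0 (norm_nonneg _) c
        rw [← hs] at c1
        have c2 : n * (K * (s * t ^ 2)) * ‖x - y‖ ≤ n * (K * t * ‖x - y‖ ^ α) := by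
          calc _ = n * K * t ^ 2 * (s * ‖x - y‖) := by ring
            _ ≤ n * K * t ^ 2 * (t⁻¹ * ‖x - y‖ ^ α) := by gcongr
            _ = _ := by field_simp
        have c3 := lip hA.1 hH x y
        rw [hK']
        nlinarith
      · have c1 : s ≤ ‖x - y‖ ^ α := hs ▸ Real.rpow_le_rpow r0.le c hα.1.le
        have c2 : K * (s * t) ≤ K * t * ‖x - y‖ ^ α := by
          calc _ = K * t * s := by ring
            _ ≤ _ := by gcongr
        have c3 := norm_sub_le (D1 v x) (D1 v y)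
        have c4 := mul_nonneg n0 d1
        rw [hK']
        nlinarith [hG x, hG y]
    have u1 : 1 ≤ s * t ^ 2 := ht.trans s3
    have hE : ∀ x, Λ * (1 + e2 (D1 v x)) ≤ Λ * (1 + n * K ^ 2) * (s * t ^ 2) := fun x => by
      have c1 := e2_le (hG x)
      have c2 : n * (K * (s * t)) ^ 2 ≤ n * K ^ 2 * (s * t ^ 2) := by
        calc _ = n * K ^ 2 * (s * t ^ 2) * s := by ring
          _ ≤ n * K ^ 2 * (s * t ^ 2) * 1 := by gcongr
          _ = _ := mul_one _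
      rw [mul_assoc]
      exact mul_le_mul_of_nonneg_left (by linarith) Λ0
    have q1 : Λ * (1 + n * K ^ 2) * (s * t ^ 2) ≤ Q * (s * t ^ 2) := by
      have : 0 ≤ Λ * (1 + 2 * K) * K' := by positivity
      exact mul_le_mul_of_nonneg_right (by linarith) (by positivity)
    have hh : Ho α (Q * (s * t ^ 2)) fun x => pr2 (a x) (D2 v x) := by
      simp only [he]
      refine ⟨fun x => ((b1 x _).trans (hE x)).trans q1, fun x y => ?_⟩
      have d0 : 0 ≤ ‖x - y‖ ^ α := Real.rpow_nonneg (norm_nonneg _) α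
      have c1 := (b2 x y (D1 v x)).trans (mul_le_mul_of_nonneg_right (hE x) d0)
      have c2 : 1 + ‖D1 v x‖ + ‖D1 v y‖ ≤ (1 + 2 * K) * (s * t) := by linarith [hG x, hG y]
      have c3 : |b y (D1 v x) - b y (D1 v y)| ≤
          Λ * ((1 + 2 * K) * (s * t)) * (K' * t * ‖x - y‖ ^ α) :=
        (b3 y _ _).trans (mul_le_mul (mul_le_mul_of_nonneg_left c2 Λ0) (hD x y) (norm_nonneg _)
          (by positivity))
      refine (abs_sub_le _ (b y (D1 v x)) _).trans ((add_le_add c1 c3).trans_eq ?_)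
      rw [hQ]
      ring
    have g1 : ∀ x, ‖D1 v x‖ ≤ K * (s * t ^ 2) := fun x =>
      (hG x).trans (mul_le_mul_of_nonneg_left (s4.trans s3) K0)
    rw [← hs]
    refine ⟨⟨fun x => (hG x).trans (mul_le_mul K0' s4 (by positivity) K1), hD⟩,
      one_le_mul_of_one_le_of_one_le P1 u1,
      ho_mono (hU a v _ _ ha ha' hA.1 ⟨A, hA.2.2.2⟩ g1 hh) ?_⟩
    rw [hP]
    nlinarith
  let S : Set ℝ := {B | 1 ≤ B ∧ ∀ x y, ‖D2 v x - D2 v y‖ ≤ B * ‖x - y‖ ^ α}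
  have hne : S.Nonempty := ⟨max 1 A, le_max_left _ _, (ho_mono hA.2.2.2 (le_max_right _ _)).2⟩
  have hb : BddBelow S := ⟨1, fun _ h => h.1⟩
  have i1 : 1 ≤ sInf S := le_csInf hne fun _ h => h.1
  obtain ⟨B, hB, hB'⟩ := exists_lt_of_csInf_lt hne (show sInf S < 2 * sInf S by linarith)
  have t1 : 1 ≤ √B := Real.one_le_sqrt.2 hB.1
  have t2 : √B ^ 2 = B := Real.sq_sqrt (zero_le_one.trans hB.1)
  obtain ⟨k1, k2, k3⟩ := step (√B) t1 (by rw [t2]; exact hB.2)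
  generalize √B = t at t1 t2 k1 k2 k3
  have t0 : 0 < t := one_pos.trans_le t1
  have i2 : sInf S ≤ P * (t⁻¹ ^ α * t ^ 2) := csInf_le hb ⟨k2, k3.2⟩
  have a0 : 0 < t ^ α := Real.rpow_pos_of_pos t0 α
  have a1 : 1 ≤ t ^ α := Real.one_le_rpow t1 hα.1.le
  rw [Real.inv_rpow t0.le] at i2 k3
  have a2 : t ^ α ≤ 2 * P := by
    have : t ^ 2 * 1 ≤ t ^ 2 * (2 * P * (t ^ α)⁻¹) := by linarith
    have := le_of_mul_le_mul_left this (by positivity)
    rwa [← div_eq_mul_inv, one_le_div a0] at this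
  have a3 : t ≤ T := by
    rw [hT, Real.le_rpow_inv_iff_of_pos t0.le (by linarith) hα.1]
    exact a2
  have a4 : K' * t ≤ K' * T := mul_le_mul_of_nonneg_left a3 K1
  have a5 : P * ((t ^ α)⁻¹ * t ^ 2) ≤ P * T ^ 2 := by
    have := inv_le_one_of_one_le₀ a1
    calc _ ≤ P * (1 * T ^ 2) := by gcongr
      _ = _ := by rw [one_mul]
  have a6 : 0 ≤ K' * T := mul_nonneg K1 (t0.le.trans a3)
  have a7 : 0 ≤ P * T ^ 2 := by positivity
  exact ⟨hA.1, ho_mono hv (by linarith), ho_mono k1 (by linarith), ho_mono k3 (by linarith)⟩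

end Vale.Agent.P366Y
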