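import Vale.Agent.P366Y.T.QeB

/-!
# P366Y: the principle of Leray and Schauder
-/

open MeasureTheory Metric Filter Topology Set
open scoped ContDiff ENNReal
open Vale.Agent.P366.Stmt Vale.Agent.P366Z

noncomputable section

namespace Vale.Agent.P366Y

namespace Qe

variable {n : ℕ}

/-- the cut off function -/
def zz (r : ℝ) (x : E n) : ℝ := max 0 (min 1 (r - ‖x‖))

theorem zz_ho {α : ℝ} (hα : α ∈ Ioo (0 : ℝ) 1) (r : ℝ) : Ho α 3 (zz r : E n → ℝ) := by
  have h : LipschitzWith (0 + 1) (zz r : E n → ℝ) :=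
    (((LipschitzWith.const r).sub lipschitzWith_one_norm).const_min 1).const_max 0
  have := of_lip (A := 1) (f := (zz r : E n → ℝ)) hα zero_le_one (fun x => by
    rw [zz, Real.norm_of_nonneg (le_max_left _ _)]
    exact max_le zero_le_one (min_le_left _ _)) fun x y => by
      simpa [dist_eq_norm] using h.dist_le_mul x y
  norm_num at this
  exact this

theorem zz_one {r : ℝ} {x : E n} (h : ‖x‖ ≤ r - 1) : zz r x = 1 := by
  rw [zz, min_eq_left (by linarith), max_eq_right zero_le_one]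

theorem zz_zero {r : ℝ} {x : E n} (h : r < ‖x‖) : zz r x = 0 :=
  max_eq_left ((min_le_right _ _).trans (by linarith))

end Qe

open Qe in
theorem qe_of (hS : SFP) (hI : INTP) (hU : USCH) (hM : MPN) (hL : LINH) : QE := by
  intro n Λ₀ ρ hn
  obtain ⟨l₁, C, C0, mp⟩ := mp2 hM hn Λ₀ ρ
  obtain ⟨l₂, hL⟩ := hL n Λ₀ ρ hn
  refine ⟨max l₁ l₂, fun l hl α hα c a b Q => ?_⟩
  replace mp := mp l ((le_max_left _ _).trans hl)
  replace hL := hL l ((le_max_right _ _).trans hl) α hα
  obtain ⟨Ac, hc⟩ := Q.hc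
  obtain ⟨M₀, ap⟩ := Q.ap
  set M := 2 * 3 * |M₀| + 1 with hM
  have M0 : 0 < M := by positivity
  obtain ⟨Λ, bd⟩ := Q.bd M
  have Ac0 := nn hc
  set H := |Λ| + 2 * Ac * M with hH
  have H0 : 0 ≤ H := by positivity
  have hh : ∀ j, Ho α M j → Ho α H fun x => b j x - c x * (j x).1 := fun j hj =>
    sub (mono (bd j hj).2.2.2.1 (le_abs_self _)) (mul hc (fst hj))
  have h0 : ∀ j, Ho α M j → ∀ x, ρ + 1 ≤ ‖x‖ → b j x - c x * (j x).1 = 0 := fun j hj x hx =>
    sub_eq_zero.2 ((bd j hj).2.2.2.2 x hx)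
  have ex : ∀ j, ∃ v : E n → ℝ, Ho α M j → (∃ A, C2H α A v) ∧ Tendsto v (cocompact (E n)) (𝓝 0) ∧
      ∀ x, pr2 (a j x) (D2 v x) - c x * v x = b j x - c x * (j x).1 := fun j => by
    by_cases hj : Ho α M j
    · obtain ⟨v, hv⟩ := hL (a j) c _ (bd j hj).1 ⟨max Λ (max Ac H),
        mono (bd j hj).2.2.1 (le_max_left _ _),
        mono hc ((le_max_left _ _).trans (le_max_right _ _)),
        mono (hh j hj) ((le_max_right _ _).trans (le_max_right _ _))⟩ (h0 j hj)
      exact ⟨v, fun _ => hv⟩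
    · exact ⟨0, fun h => (hj h).elim⟩
  choose S hS' using ex
  have c2 : ∀ j, Ho α M j → ContDiff ℝ 2 (S j) := fun j hj => (hS' j hj).1.choose_spec.1
  obtain ⟨B, hB⟩ := est (n := n) hI hU hα Λ (Ac + C * H + H)
  have CH : 0 ≤ C * H := by positivity
  have bB : ∀ j, Ho α M j → (∀ x, ‖D1 (S j) x‖ ≤ B) ∧ Ho α B (D2 (S j)) := fun j hj => by
    have e := funext (hS' j hj).2.2
    refine hB (a j) c _ (bd j hj).2.1 (bd j hj).2.2.1 (mono hc (by linarith)) (hS' j hj).1
      (fun x => (mp (a j) c _ H (bd j hj).1 (c2 j hj) (hS' j hj).2.1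
        (fun y => (hS' j hj).2.2 y ▸ (hh j hj).1 y)
        (fun y hy => ((hS' j hj).2.2 y).trans (h0 j hj y hy)) x).trans (by linarith))
      (e ▸ mono (hh j hj) (by linarith))
  obtain ⟨j, s, hs, hj, e, alt⟩ := fp hS hα.1 (R := ρ + 3) M0
    (fun j x => zz (ρ + 3) x • J1 (S j) x)
    (fun j hj => ⟨_, mul (zz_ho hα _) (c2_J (hS' j hj).1.choose_spec)⟩)
    (fun j x hx => by rw [zz_zero hx, zero_smul]) fun e he => by
      obtain ⟨d, d0, hd⟩ := key (n := n) hI hα (B + B) (e := e / 6) (by positivity)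
      set t := d / (C * (1 + Ac + n * (n * |B|))) with ht
      have t0 : 0 < t := by positivity
      obtain ⟨d', d0', hd'⟩ := Q.ct M t t0
      refine ⟨min d' t, by positivity, fun j j' hj hj' h => ?_⟩
      have q := hd' j j' hj hj' fun x => (h x).trans (min_le_left _ _)
      have cw := (c2 j hj).sub (c2 j' hj')
      have eq : ∀ x, pr2 (a j x) (D2 (fun x => S j x - S j' x) x) - c x * (S j x - S j' x) =
          (b j x - c x * (j x).1) - (b j' x - c x * (j' x).1) -
            pr2 (a j x - a j' x) (D2 (S j') x) := fun x => by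
        rw [D2_sub (c2 j hj) (c2 j' hj'), pr2_sub, pr2_sub', ← (hS' j hj).2.2, ← (hS' j' hj').2.2]
        ring
      have w0 := mp (a j) c _ (t * (1 + Ac + n * (n * |B|))) (bd j hj).1 cw
        (by simpa using (hS' j hj).2.1.sub (hS' j' hj').2.1) (fun x => by
          have k1 := (pr2_le (a j x - a j' x) (D2 (S j') x)).trans
            (mul_le_mul_of_nonneg_left (mul_le_mul_of_nonneg_left (mul_le_mul (q x).1
              (((bB j' hj').2.1 x).trans (le_abs_self B)) (norm_nonneg _) t0.le) n.cast_nonneg)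
              n.cast_nonneg)
          have k2 : |c x * ((j x).1 - (j' x).1)| ≤ Ac * t := by
            rw [abs_mul]
            exact mul_le_mul (hc.1 x) ((norm_fst_le (j x - j' x)).trans
              ((h x).trans (min_le_right _ _))) (abs_nonneg _) Ac0
          have k3 := (q x).2
          rw [eq]
          rw [abs_le] at k1 k2 k3 ⊢
          constructor <;> nlinarith [k1.1, k1.2, k2.1, k2.2, k3.1, k3.2])
        fun x hx => by
          rw [eq, h0 j hj x hx, h0 j' hj' x hx, (bd j hj).1.id x (by linarith),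
            (bd j' hj').1.id x (by linarith), pr2_sub', sub_self, sub_self, sub_self]
      have e1 : C * (t * (1 + Ac + n * (n * |B|))) = d := by rw [ht]; field_simp
      have k := mul (zz_ho hα (ρ + 3)) (hd _ cw
        (D2_sub (c2 j hj) (c2 j' hj') ▸ sub (bB j hj).2 (bB j' hj').2)
        (fun x => by
          rw [D1_sub (c2 j hj) (c2 j' hj')]
          exact norm_sub_le_of_le ((bB j hj).1 x) ((bB j' hj').1 x)) fun x => e1 ▸ w0 x)
      simp only [J1_sub (c2 j hj) (c2 j' hj'), smul_sub] at k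
      exact mono k (by linarith)
  obtain ⟨⟨A, hA⟩, lim, eqn⟩ := hS' j hj
  have cv := c2_smul s hA
  have jv := c2_J cv
  have e' : ∀ x, j x = zz (ρ + 3) x • J1 (fun x => s * S j x) x := fun x => by
    rw [J1_smul, smul_comm]; exact e x
  have e2 : ∀ x, ‖x‖ ≤ ρ + 2 → j x = J1 (fun x => s * S j x) x := fun x hx => by
    rw [e', zz_one (by linarith), one_smul]
  obtain ⟨Λ', bd'⟩ := Q.bd (|s| * A)
  have lim' : Tendsto (fun x => s * S j x) (cocompact (E n)) (𝓝 0) := by
    simpa using lim.const_mul s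
  have eq : ∀ x, pr2 (a (J1 fun x => s * S j x) x) (D2 (fun x => s * S j x) x) =
      s * b (J1 fun x => s * S j x) x + (1 - s) * c x * (s * S j x) := fun x => by
    rw [D2_smul, pr2_smul]
    have k := eqn x
    rcases le_total ‖x‖ (ρ + 1) with hx | hx
    · obtain ⟨k1, k2⟩ := Q.loc j _ ⟨max M (|s| * A), mono hj (le_max_left _ _),
        mono jv (le_max_right _ _)⟩ e2 x hx
      rw [← k1, ← k2]
      rw [e2 x (by linarith)] at k
      simp only [J1] at k
      linear_combination s * k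
    · rw [h0 j hj x hx, (bd j hj).1.id x (by linarith)] at k
      rw [(bd' _ jv).1.id x (by linarith), (bd' _ jv).2.2.2.2 x hx]
      simp only [J1]
      linear_combination s * k
  rcases alt with rfl | alt
  · exact ⟨_, ⟨_, cv⟩, lim', fun x => by rw [eq]; ring⟩
  · have k := mul (zz_ho hα (ρ + 3)) (mono (ap s hs _ ⟨_, cv⟩ lim' eq) (le_abs_self _))
    have := alt _ ((funext e').symm ▸ k)
    linarith

end Vale.Agent.P366Y
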