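import Vale.Agent.P366Y.Sk
import Vale.Agent.P366Z.LinbA

/-!
# P366Y, row REGQ: smoothness of the solutions of quasilinear equations
-/

set_option maxSynthPendingDepth 3

open MeasureTheory Metric Filter Topology Set
open scoped ContDiff ENNReal
open Vale.Agent.P366.Stmt Vale.Agent.P366Z Vale.Agent.P366Z.LinbH
open Vale.Agent.P272.K.R (HC Bil hc_id hc_const linear_reg allCCE)

noncomputable section

namespace Vale.Agent.P366Y

namespace RegqH

variable {n : ℕ} {α A : ℝ} {v : E n → ℝ}

theorem hc_two (hα : 0 < α) (hα1 : α ≤ 1) (hv : C2H α A v) : HC α univ 2 v := by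
  obtain ⟨hc, -, -, h1, h2⟩ := hv
  refine ⟨fun x _ => hc.differentiable (by norm_num) x, fun x _ =>
    (hc.fderiv_right (m := 1) (by norm_num)).differentiable (by norm_num) x, ?_⟩
  refine HC.of_apply hα hα1 isOpen_univ (EuclideanSpace.basisFun (Fin n) ℝ).toBasis fun i =>
    HC.of_apply hα hα1 isOpen_univ (EuclideanSpace.basisFun (Fin n) ℝ).toBasis fun j x _ =>
      ⟨1, one_pos, subset_univ _, A, (norm_nonneg _).trans (h1 0), fun y _ z _ => ?_⟩
  simp only [OrthonormalBasis.coe_toBasis, EuclideanSpace.basisFun_apply,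
    ← pd_pd_eq hc.contDiffAt]
  exact ((norm_le_pi_norm ((D2 v y - D2 v z) i) j).trans (norm_le_pi_norm _ i)).trans (h2 y z)

theorem ell {Λ : ℝ} {a : Mx n} (h : El Λ a) {l : E n →L[ℝ] ℝ} (hl : l ≠ 0) :
    0 < ∑ i, ∑ j, a i j * l (ee i) * l (ee j) := by
  obtain ⟨i, hi⟩ : ∃ i, l (ee i) ≠ 0 := by
    by_contra h0
    push Not at h0
    refine hl (ContinuousLinearMap.ext fun w => ?_)
    have h2 := fderiv_eq_sum (f := l) (x := 0) l.differentiableAt w
    simp only [pd_eq l.differentiableAt, l.fderiv] at h2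
    rw [h2]
    exact Finset.sum_eq_zero fun i _ => mul_eq_zero_of_right _ (h0 i)
  have h1 : 0 < e2 fun i => l (ee i) :=
    Finset.sum_pos' (fun _ _ => sq_nonneg _) ⟨i, Finset.mem_univ _, by positivity⟩
  exact pos_of_mul_pos_right (h1.trans_le (h.2.2 _)) ((abs_nonneg _).trans (h.2.1 i i))

end RegqH

open RegqH in
theorem regq : REGQ := by
  intro n α A v a b ⟨hα, hα1⟩ hv ha hb hE heq
  have h2 := hc_two hα hα1.le hv
  let φ : E n × ℝ × (E n →L[ℝ] ℝ) → E n × ℝ × Vc n := fun q => (q.1, q.2.1, fun i => q.2.2 (ee i))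
  have hφ : ContDiff ℝ ∞ φ := contDiff_fst.prodMk ((contDiff_fst.comp contDiff_snd).prodMk
    (contDiff_pi.2 fun i => (contDiff_snd.comp contDiff_snd).clm_apply contDiff_const))
  have e : ∀ x, φ (x, v x, fderiv ℝ v x) = (x, J1 v x) := fun x =>
    Prod.ext rfl (Prod.ext rfl (funext fun i => (pd_eq (diff2 hv.1.contDiffAt) i).symm))
  have hA : ContDiff ℝ ∞ fun q => ∑ i, ∑ j, a (φ q) i j • ent i j :=
    ContDiff.sum fun i _ => ContDiff.sum fun j _ =>
      (contDiff_pi.1 (contDiff_pi.1 (ha.comp hφ) i) j).smul contDiff_const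
  have key : ∀ k, HC α univ (k + 2) v := fun k => by
    induction k with
    | zero => exact h2
    | succ k ih =>
      have hj : HC α univ (k + 1) fun x => (x, v x, fderiv ℝ v x) :=
        (hc_id hα1.le isOpen_univ).prodMk hα hα1.le isOpen_univ
          ((ih.of_succ hα hα1.le isOpen_univ).prodMk hα hα1.le isOpen_univ ih.2)
      refine linear_reg hα hα1.le (allCCE (E n) hα hα1) isOpen_univ (k + 1) (c := fun _ => 0)
        (HC.comp_smooth hα hα1.le isOpen_univ isOpen_univ
          (fun y _ => hA.contDiffAt.of_le (by exact_mod_cast le_top)) hj fun _ _ => mem_univ _)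
        (hc_const _ isOpen_univ) (HC.comp_smooth hα hα1.le isOpen_univ isOpen_univ
          (fun y _ => (hb.comp hφ).neg.contDiffAt.of_le (by exact_mod_cast le_top)) hj
          fun _ _ => mem_univ _) (fun x _ l hl => ?_) h2 fun x _ => ?_
      · obtain ⟨Λ, hΛ⟩ := hE x
        refine (ell hΛ hl).trans_eq ?_
        simp only [e, sum_apply, smul_apply, ent_apply, ContinuousLinearMap.smulRight_apply,
          smul_eq_mul, mul_assoc]
      · simp only [e, sum_apply, smul_apply, ent_apply, smul_eq_mul, Function.comp_apply, ← heq x,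
          pr2, D2, pd_pd_eq hv.1.contDiffAt]
        ring
  refine contDiff_infty.2 fun k => contDiffOn_univ.1
    ((HC.mono hα hα1.le isOpen_univ (Nat.le_add_right k 2) (key k)).contDiffOn hα isOpen_univ)

end Vale.Agent.P366Y
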