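import Vale.Agent.P366Y.Sk
import Vale.Agent.P264Z.Brouwer

/-!
# P366Y: the fixed point theorem of Schauder
-/

open Metric Set

noncomputable section

namespace Vale.Agent.P366Y

namespace SfpH

/-- approximate fixed points -/
theorem approx {V : Type} [NormedAddCommGroup V] [NormedSpace ℝ V] {K : Set V} {T : V → V}
    (hK : IsCompact K) (hc : Convex ℝ K) {x₀ : V} (h₀ : x₀ ∈ K) (hT : ContinuousOn T K)
    (hm : MapsTo T K K) {ε : ℝ} (hε : 0 < ε) : ∃ y ∈ K, ‖T y - y‖ ≤ 2 * ε := by
  obtain ⟨t, ht, hf, hcov⟩ := finite_cover_balls_of_compact hK hε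
  have := hf.fintype
  let z : Option t → V := fun o => o.elim x₀ (↑)
  let w : (t → ℝ) → Option t → ℝ := fun u o =>
    o.elim (max 0 (ε - ∑ i, max 0 (u i))) fun i => max 0 (u i)
  have w0 : ∀ u o, 0 ≤ w u o := fun u o => by cases o <;> exact le_max_left _ _
  have ws : ∀ u, 0 < ∑ o, w u o := fun u => by
    rw [Fintype.sum_option]
    exact hε.trans_le (sub_le_iff_le_add.1 (le_max_right _ _))
  have wc : ∀ o, Continuous fun u => w u o := fun o => by
    cases o <;> simp only [w, Option.elim] <;> fun_prop
  let φ : (t → ℝ) → V := fun u => Finset.univ.centerMass (w u) z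
  have φK : ∀ u, φ u ∈ K := fun u => hc.centerMass_mem (fun o _ => w0 u o) (ws u) fun o _ => by
    cases o with
    | none => exact h₀
    | some i => exact ht i.2
  have φc : Continuous φ :=
    ((continuous_finsetSum _ fun o _ => wc o).inv₀ fun u => (ws u).ne').smul
      (continuous_finsetSum _ fun o _ => (wc o).smul continuous_const)
  have Tc : Continuous fun u => T (φ u) := hT.comp_continuous φc φK
  let G : (t → ℝ) → t → ℝ := fun u i => max 0 (2 * ε - ‖T (φ u) - i‖)
  have Gc : Continuous G := continuous_pi fun i =>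
    continuous_const.max (continuous_const.sub (Tc.sub continuous_const).norm)
  have Gb : ∀ u, ‖G u‖ ≤ 2 * ε := fun u => (pi_norm_le_iff_of_nonneg (by positivity)).2 fun i => by
    rw [Real.norm_of_nonneg (le_max_left _ _)]
    exact max_le (by positivity) (sub_le_self _ (norm_nonneg _))
  obtain ⟨u, -, hu⟩ := P264Z.exists_zero_of_sphere (E := t → ℝ) (r := 3 * ε) (by positivity)
    (f := fun u => u - G u) (continuous_id.sub Gc).continuousOn fun u h1 s hs h2 => by
      have h3 : u = s • G u := by linear_combination (norm := module) h2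
      have h4 := congrArg norm h3
      rw [h1, norm_smul, Real.norm_of_nonneg hs.1] at h4
      nlinarith [Gb u, hs.1, hs.2, norm_nonneg (G u)]
  have hi : ∀ i, max 0 (u i) = max 0 (2 * ε - ‖T (φ u) - i‖) := fun i => by
    rw [show u i = G u i from congrFun (sub_eq_zero.1 hu) i, ← max_assoc, max_self]
  have hn : w u none = 0 := by
    obtain ⟨x, hx, k⟩ := mem_iUnion₂.1 (hcov (hm (φK u)))
    have k1 := Finset.single_le_sum (f := fun i => max 0 (u i)) (fun i _ => le_max_left _ _)
      (Finset.mem_univ (⟨x, hx⟩ : t))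
    have k2 := (le_max_right _ _).trans_eq (hi ⟨x, hx⟩).symm
    rw [mem_ball, dist_eq_norm] at k
    exact max_eq_left (by linarith)
  refine ⟨φ u, φK u, mem_closedBall_iff_norm'.1 ?_⟩
  have h5 := (convex_closedBall (T (φ u)) (2 * ε)).centerMass_mem
    (t := Finset.univ.filter fun o => w u o ≠ 0) (w := w u) (z := z) (fun o _ => w0 u o)
    (by rw [Finset.sum_filter_ne_zero]; exact ws u) fun o ho => by
      have k := (Finset.mem_filter.1 ho).2
      cases o with
      | none => exact (k hn).elim
      | some i =>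
        refine mem_closedBall_iff_norm'.2 (le_of_not_gt fun c => k ((hi i).trans ?_))
        exact max_eq_left (sub_nonpos.2 c.le)
  rwa [Finset.centerMass_filter_ne_zero] at h5

end SfpH

theorem sfp : SFP := by
  intro V _ _ K T hK hc hne hT hm
  obtain ⟨x, hx, h⟩ := hK.exists_isMinOn hne (f := fun y => ‖T y - y‖)
    (hT.sub continuousOn_id).norm
  refine ⟨x, hx, sub_eq_zero.1 (norm_le_zero_iff.1 (le_of_forall_pos_le_add fun ε hε => ?_))⟩
  obtain ⟨y, hy, k⟩ := SfpH.approx hK hc hx hT hm (half_pos hε)
  exact (h hy).trans (k.trans_eq (by ring))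

end Vale.Agent.P366Y
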