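import Vale.Agent.P366Y.T.UschD
import Vale.Agent.P272.K.R.Final
import Vale.Agent.P366Z.Calc3

/-!
# P366Y, tools: the estimate for constant coefficients
-/

open Set
open scoped MatrixOrder
open Vale.Agent.P366.Stmt Vale.Agent.P366Z
open Vale.Agent.P272.K

noncomputable section

namespace Vale.Agent.P366Y

namespace CceX

variable {n : ℕ} {Λ : ℝ} {a : Mx n}

theorem sq_root (h : El Λ a) (hΛ : 0 ≤ Λ) :
    ∃ S : Mx n, (∀ i j, S i j = S j i) ∧ ∀ i j, ∑ k, S i k * S j k = a i j := by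
  have p : (Matrix.of a).PosSemidef := by
    refine Matrix.PosSemidef.of_dotProduct_mulVec_nonneg (Matrix.ext fun i j => h.1 j i) fun ξ => ?_
    have e : star ξ ⬝ᵥ (Matrix.of a).mulVec ξ = ∑ i, ∑ j, a i j * ξ i * ξ j := by
      simp only [dotProduct, Matrix.mulVec, star_trivial, Matrix.of_apply, Finset.mul_sum]
      exact Finset.sum_congr rfl fun i _ => Finset.sum_congr rfl fun j _ => by ring
    rw [e]
    by_contra c
    have k := (h.2.2 ξ).trans (mul_nonpos_of_nonneg_of_nonpos hΛ (not_le.1 c).le)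
    have z : ∀ i, ξ i = 0 := fun i => pow_eq_zero_iff two_ne_zero |>.1 (le_antisymm
      ((Finset.single_le_sum (f := fun i => ξ i ^ 2) (fun i _ => sq_nonneg _)
        (Finset.mem_univ i)).trans k) (sq_nonneg _))
    simp [z] at c
  have s := (Matrix.nonneg_iff_posSemidef.1 (CFC.sqrt_nonneg (Matrix.of a))).1
  have y : ∀ i j, CFC.sqrt (Matrix.of a) i j = CFC.sqrt (Matrix.of a) j i := fun i j =>
    (congrFun (congrFun s i) j).symm
  refine ⟨fun i j => CFC.sqrt (Matrix.of a) i j, y, fun i j => ?_⟩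
  refine Eq.trans ?_ (congrFun (congrFun (CFC.sqrt_mul_sqrt_self (Matrix.of a) p.nonneg) i) j)
  exact Finset.sum_congr rfl fun k _ => congrArg _ (y j k)

theorem frame (h : El Λ a) (hΛ : 0 ≤ Λ) : ∃ T : E n ≃L[ℝ] E n,
    ‖(T : E n →L[ℝ] E n)‖ ≤ √(n * Λ) ∧ ‖(T.symm : E n →L[ℝ] E n)‖ ≤ √Λ ∧
    ∀ B : E n →L[ℝ] E n →L[ℝ] ℝ,
      ∑ i, B (T (EuclideanSpace.single i 1)) (T (EuclideanSpace.single i 1)) =
        ∑ i, ∑ j, a i j * B (EuclideanSpace.single i 1) (EuclideanSpace.single j 1) := by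
  obtain ⟨S, s1, s2⟩ := sq_root h hΛ
  let T : E n →ₗ[ℝ] E n := Matrix.toEuclideanLin (Matrix.of S)
  have t1 : ∀ ξ i, T ξ i = ∑ k, S i k * ξ k := fun _ _ => rfl
  have t2 : ∀ ξ, ‖T ξ‖ ^ 2 = ∑ i, ∑ j, a i j * ξ i * ξ j := fun ξ => by
    rw [EuclideanSpace.real_norm_sq_eq]
    simp only [t1, pow_two, Finset.sum_mul_sum, ← s2]
    simp only [Finset.sum_mul]
    rw [Finset.sum_comm]
    refine Finset.sum_congr rfl fun i _ => Finset.sum_comm.trans
      (Finset.sum_congr rfl fun j _ => Finset.sum_congr rfl fun k _ => ?_)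
    rw [s1 k i, s1 k j]
    ring
  have t3 : ∀ ξ, ‖ξ‖ ≤ √Λ * ‖T ξ‖ := fun ξ => by
    refine le_of_pow_le_pow_left₀ two_ne_zero (by positivity) ?_
    rw [mul_pow, Real.sq_sqrt hΛ, t2, EuclideanSpace.real_norm_sq_eq]
    exact h.2.2 _
  have t4 : Function.Injective T := (injective_iff_map_eq_zero T).2 fun ξ k =>
    norm_le_zero_iff.1 (by simpa [k] using t3 ξ)
  refine ⟨(LinearEquiv.ofInjectiveEndo T t4).toContinuousLinearEquiv,
    ContinuousLinearMap.opNorm_le_bound _ (Real.sqrt_nonneg _) fun ξ => ?_,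
    ContinuousLinearMap.opNorm_le_bound _ (Real.sqrt_nonneg _) fun ξ => ?_, fun B => ?_⟩
  · refine le_of_pow_le_pow_left₀ two_ne_zero (by positivity) ?_
    rw [mul_pow, Real.sq_sqrt (by positivity), EuclideanSpace.real_norm_sq_eq ξ]
    exact (t2 ξ).trans_le (quad_le_of_bd h.2.1 _)
  · exact (t3 _).trans_eq (congrArg (√Λ * ‖·‖)
      ((LinearEquiv.ofInjectiveEndo T t4).apply_symm_apply ξ))
  · have e : ∀ i, T (EuclideanSpace.single i 1) = ∑ k, S k i • EuclideanSpace.single k (1 : ℝ) :=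
      fun i => by
        ext k
        simp [t1, Pi.single_apply]
    show ∑ i, B (T _) (T _) = _
    simp only [e, map_sum, map_smul, sum_apply, smul_apply,
      smul_eq_mul, ← s2, Finset.sum_mul, Finset.mul_sum]
    rw [Finset.sum_comm, Finset.sum_comm (f := fun i j => ∑ k, S i k * S j k * _)]
    refine Finset.sum_congr rfl fun j _ => Finset.sum_comm.trans
      (Finset.sum_congr rfl fun i _ => Finset.sum_congr rfl fun k _ => ?_)
    ring

end CceX

open CceX

/-- **row CCE** -/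
theorem cce : CCE := by
  intro n α Λ ⟨hα, hα1⟩
  obtain ⟨C, hC, h⟩ := H.holder_fderiv2_le (E n) hα hα1
  refine ⟨√Λ ^ 2 * (C * √(n * Λ) ^ α) * √Λ ^ α + 1, by positivity,
    fun a v K ha hv hvc hK hH x y => ?_⟩
  refine (pi_norm_le_iff_of_nonneg (by positivity)).2 fun i =>
    (pi_norm_le_iff_of_nonneg (by positivity)).2 fun j => ?_
  obtain ⟨T, t1, t2, t3⟩ := frame ha ((abs_nonneg _).trans (ha.2.1 i j))
  have hu : ContDiff ℝ 2 (fun y => v (T y)) := hv.comp T.contDiff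
  have huc : HasCompactSupport (fun y => v (T y)) := hvc.comp_homeomorph T.toHomeomorph
  obtain ⟨M, K', hK', hM⟩ := R.exists_hb hα hα1.le (hu.of_le (by norm_num)) huc
  have htr : ∀ x, ∑ i, fderiv ℝ (fderiv ℝ (fun y => v (T y))) x
      (EuclideanSpace.basisFun (Fin n) ℝ i) (EuclideanSpace.basisFun (Fin n) ℝ i) =
        pr2 a (D2 v (T x)) := fun x => by
    simp only [EuclideanSpace.basisFun_apply, V.fderiv2_comp_equiv T v hv, t3, pr2, D2,
      pd_pd_eq hv.contDiffAt]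
  have hcont : Continuous (fderiv ℝ (fderiv ℝ fun y => v (T y))) :=
    ((hu.fderiv_right (m := 1) (by norm_num)).fderiv_right (m := 0) (by norm_num)).continuous
  obtain ⟨A, hA⟩ := (((huc.fderiv ℝ).fderiv ℝ).comp_left
    (g := fun B : E n →L[ℝ] E n →L[ℝ] ℝ => ∑ i, B (EuclideanSpace.basisFun (Fin n) ℝ i)
      (EuclideanSpace.basisFun (Fin n) ℝ i)) (by simp)).exists_bound_of_continuous
    (continuous_finsetSum _ fun i _ => (hcont.clm_apply continuous_const).clm_apply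
      continuous_const)
  have key := h (Fin n) (EuclideanSpace.basisFun (Fin n) ℝ) (fun y => v (T y)) M K' A
    (K * √(n * Λ) ^ α) hu (by positivity) hK' hM ⟨hA, fun x y => by
      rw [htr, htr]
      refine (hH _ _).trans ?_
      rw [mul_assoc, ← map_sub, ← Real.mul_rpow (Real.sqrt_nonneg _) (norm_nonneg _)]
      exact mul_le_mul_of_nonneg_left (Real.rpow_le_rpow (norm_nonneg _)
        ((T : E n →L[ℝ] E n).le_of_opNorm_le t1 _) hα.le) hK⟩ (T.symm x) (T.symm y)
  have hback : ∀ x, fderiv ℝ (fderiv ℝ v) x = V.pull2 (T.symm : E n →L[ℝ] E n)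
      (fderiv ℝ (fderiv ℝ (fun y => v (T y))) (T.symm x)) := fun x => by
    simpa only [T.apply_symm_apply] using V.fderiv2_comp_equiv' T.symm (fun y => v (T y)) hu x
  have h3 : ‖T.symm x - T.symm y‖ ^ α ≤ √Λ ^ α * ‖x - y‖ ^ α := by
    rw [← map_sub, ← Real.mul_rpow (Real.sqrt_nonneg _) (norm_nonneg _)]
    exact Real.rpow_le_rpow (norm_nonneg _) ((T.symm : E n →L[ℝ] E n).le_of_opNorm_le t2 _) hα.le
  have h4 := (fderiv ℝ (fderiv ℝ v) x - fderiv ℝ (fderiv ℝ v) y).le_opNorm₂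
    (EuclideanSpace.single i 1) (EuclideanSpace.single j 1)
  rw [PiLp.norm_single, PiLp.norm_single, norm_one, mul_one, mul_one] at h4
  simp only [Pi.sub_apply, D2, pd_pd_eq hv.contDiffAt]
  refine h4.trans ?_
  rw [hback x, hback y, ← V.pull2_sub]
  refine (V.norm_pull2_le _ _).trans ((mul_le_mul (pow_le_pow_left₀ (norm_nonneg _) t2 2)
    (key.trans (mul_le_mul_of_nonneg_left h3 (by positivity))) (ContinuousLinearMap.opNorm_nonneg _)
    (by positivity)).trans ?_)
  have : 0 ≤ K * ‖x - y‖ ^ α := by positivity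
  linarith

end Vale.Agent.P366Y
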