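import Vale.Agent.P366Y.Sk
import Vale.Agent.P366Z.Calc

/-!
# P366Y, row INTP: interpolation
-/

open Set
open Vale.Agent.P366.Stmt Vale.Agent.P366Z

noncomputable section

namespace Vale.Agent.P366Y

namespace IntpH

variable {n : ℕ} {v : E n → ℝ} {α A B r : ℝ}

/-- the point `x + t e_i` -/
def ln (x : E n) (i : Fin n) (t : ℝ) : E n := x + t • EuclideanSpace.single i (1 : ℝ)

theorem ln_zero (x : E n) (i : Fin n) : ln x i 0 = x := by simp [ln]

theorem ln_sub (x : E n) (i : Fin n) (s t : ℝ) : ‖ln x i s - ln x i t‖ = |s - t| := by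
  rw [ln, ln, add_sub_add_left_eq_sub, ← sub_smul, norm_smul]
  simp

theorem der {w : E n → ℝ} (hw : ∀ x, DifferentiableAt ℝ w x) (x : E n) (i : Fin n) (t : ℝ) :
    HasDerivAt (fun t => w (ln x i t)) (pd i w (ln x i t)) t := by
  rw [pd_eq (hw _)]
  have h := ((hasDerivAt_id t).smul_const (EuclideanSpace.single i (1 : ℝ))).const_add x
  rw [one_smul] at h
  exact (hw _).hasFDerivAt.comp_hasDerivAt (f := ln x i) t h

theorem mv {φ φ' : ℝ → ℝ} {K s : ℝ} (h : ∀ t, HasDerivAt φ (φ' t) t)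
    (hb : ∀ t ∈ Icc 0 s, |φ' t| ≤ K) {t : ℝ} (ht : t ∈ Icc 0 s) : |φ t - φ 0| ≤ K * t := by
  simpa using norm_image_sub_le_of_norm_deriv_le_segment' (fun t _ => (h t).hasDerivWithinAt)
    (fun t k => hb t (Ico_subset_Icc_self k)) t ht

theorem ho (hα : 0 < α) (hB : 0 ≤ B) (h : ∀ x y, ‖D2 v x - D2 v y‖ ≤ B * ‖x - y‖ ^ α) (x : E n)
    (i j : Fin n) {s t : ℝ} (k : |s - t| ≤ r) :
    |pd i (pd j v) (ln x i s) - pd i (pd j v) (ln x i t)| ≤ B * r ^ α :=
  ((norm_le_pi_norm ((D2 v (ln x i s) - D2 v (ln x i t)) i) j).trans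
    ((norm_le_pi_norm _ i).trans (h _ _))).trans (mul_le_mul_of_nonneg_left
      (Real.rpow_le_rpow (norm_nonneg _) ((ln_sub x i s t).trans_le k) hα.le) hB)

theorem two (hα : 0 < α) (hr : 0 < r) (hA : 0 ≤ A) (hB : 0 ≤ B) (hv : ContDiff ℝ 2 v)
    (h : ∀ x y, ‖D2 v x - D2 v y‖ ≤ B * ‖x - y‖ ^ α) (h1 : ∀ x, ‖D1 v x‖ ≤ A) (x : E n) :
    ‖D2 v x‖ ≤ 2 * (A / r) + B * r ^ α := by
  refine (pi_norm_le_iff_of_nonneg (by positivity)).2 fun i =>
    (pi_norm_le_iff_of_nonneg (by positivity)).2 fun j => ?_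
  have h2 := abs_le.1 (mv (fun t => (der (fun y => diffAt_pd hv.contDiffAt j) x i t).fun_sub
    ((hasDerivAt_id' t).const_mul (pd i (pd j v) (ln x i 0))))
    (fun t ht => by
      rw [mul_one]
      exact ho hα hB h x i j (by rw [sub_zero, abs_of_nonneg ht.1]; exact ht.2))
    (right_mem_Icc.2 hr.le))
  have h3 : ∀ y, |pd j v y| ≤ A := fun y => (norm_le_pi_norm (D1 v y) j).trans (h1 y)
  have h4 := abs_le.1 (h3 x)
  have h5 := abs_le.1 (h3 (ln x i r))
  obtain ⟨a, rfl⟩ : ∃ a, A = a * r := ⟨A / r, (div_mul_cancel₀ A hr.ne').symm⟩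
  rw [ln_zero] at h2
  rw [mul_div_cancel_right₀ a hr.ne']
  show |pd i (pd j v) x| ≤ _
  refine abs_le.2 ⟨le_of_mul_le_mul_right ?_ hr, le_of_mul_le_mul_right ?_ hr⟩ <;> linarith

theorem one (hα : 0 < α) (hr : 0 < r) (hA : 0 ≤ A) (hB : 0 ≤ B) (hv : ContDiff ℝ 2 v)
    (h : ∀ x y, ‖D2 v x - D2 v y‖ ≤ B * ‖x - y‖ ^ α) (h1 : ∀ x y, ‖x - y‖ ≤ r → |v x - v y| ≤ A)
    (x : E n) : ‖D1 v x‖ ≤ A / r + B * r ^ α * r := by
  refine (pi_norm_le_iff_of_nonneg (by positivity)).2 fun i => ?_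
  have d1 := der (fun y => diff2 hv.contDiffAt) x i
  have d2 := der (fun y => diffAt_pd hv.contDiffAt i) x i
  have h2 : ∀ t ∈ Icc 0 (r / 2), |pd i v (ln x i t) + pd i v (ln x i (-t)) -
      (pd i v (ln x i 0) + pd i v (ln x i (-0)))| ≤ B * r ^ α * t := fun t ht =>
    mv (fun t => (d2 t).fun_add ((d2 (-t)).comp t (hasDerivAt_neg t))) (fun t ht => by
      rw [mul_neg_one, ← sub_eq_add_neg]
      exact ho hα hB h x i i (abs_le.2 ⟨by linarith [ht.1], by linarith [ht.2]⟩)) ht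
  have h0 : 0 ≤ B * r ^ α := by positivity
  have h3 := abs_le.1 (mv (K := B * r ^ α * r) (fun t => ((d1 t).fun_sub ((d1 (-t)).comp t
    (hasDerivAt_neg t))).fun_sub ((hasDerivAt_id' t).const_mul
      (pd i v (ln x i 0) + pd i v (ln x i (-0))))) (fun t ht => by
      rw [mul_one, mul_neg_one, sub_neg_eq_add]
      exact (h2 t ht).trans (mul_le_mul_of_nonneg_left (by linarith [ht.2]) h0))
    (right_mem_Icc.2 (half_pos hr).le))
  have h4 := abs_le.1 (h1 (ln x i (r / 2)) (ln x i (-(r / 2))) (by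
    rw [ln_sub, sub_neg_eq_add, add_halves, abs_of_pos hr]))
  have h5 : 0 ≤ B * r ^ α * r * r := by positivity
  obtain ⟨a, rfl⟩ : ∃ a, A = a * r := ⟨A / r, (div_mul_cancel₀ A hr.ne').symm⟩
  simp only [Function.comp, neg_zero, ln_zero] at h3
  rw [mul_div_cancel_right₀ a hr.ne']
  show |pd i v x| ≤ _
  refine abs_le.2 ⟨le_of_mul_le_mul_right ?_ hr, le_of_mul_le_mul_right ?_ hr⟩ <;> linarith

end IntpH

open IntpH in
theorem intp : INTP := by
  intro n α hα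
  refine ⟨3, three_pos, fun v A B r hr hA hB hv h => ⟨fun h1 x => ?_, fun h1 x => ?_⟩⟩
  · have h2 := one hα.1 hr hA hB hv h h1
    have h3 := two hα.1 hr (by positivity) hB hv h h2 x
    have h4 : 0 ≤ A / r := by positivity
    have h5 : 0 ≤ A / r ^ 2 := by positivity
    have h6 : 0 ≤ B * r ^ α * r := by positivity
    rw [add_div, mul_div_cancel_right₀ _ hr.ne', div_div, ← pow_two] at h3
    rw [Real.rpow_add hr, Real.rpow_one]
    exact ⟨by linarith [h2 x], by linarith⟩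
  · have h4 : 0 ≤ A / r := by positivity
    have h6 : 0 ≤ B * r ^ α := by positivity
    linarith [two hα.1 hr hA hB hv h h1 x]

end Vale.Agent.P366Y
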