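import Vale.Agent.P366Y.T.Usch
import Vale.Agent.P366Y.T.Cce
import Vale.Agent.P366Y.T.Intp

/-!
# P366Y, tools: row USCH
-/

namespace Vale.Agent.P366Y

theorem usch_of (hI : INTP) : USCH := usch_of' cce hI

theorem usch : USCH := usch_of intp

end Vale.Agent.P366Y
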