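import Vale.Agent.P366Y.T.QeA

/-!
# P366Y: uniform estimates for linear equations
-/

open MeasureTheory Metric Filter Topology Set
open scoped ContDiff ENNReal
open Vale.Agent.P366.Stmt Vale.Agent.P366Z

noncomputable section

namespace Vale.Agent.P366Y

namespace Qe

variable {n : ℕ} {α A B : ℝ} {v w : E n → ℝ}

theorem pr2_sub (a H H' : Mx n) : pr2 a (H - H') = pr2 a H - pr2 a H' := by
  simp only [pr2, Pi.sub_apply, mul_sub, Finset.sum_sub_distrib]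

theorem pr2_sub' (a a' H : Mx n) : pr2 (a - a') H = pr2 a H - pr2 a' H := by
  simp only [pr2, Pi.sub_apply, sub_mul, Finset.sum_sub_distrib]

theorem pr2_smul (a H : Mx n) (s : ℝ) : pr2 a (s • H) = s * pr2 a H := by
  simp only [pr2, Pi.smul_apply, smul_eq_mul, Finset.mul_sum, mul_left_comm]

theorem pr2_le (a H : Mx n) : |pr2 a H| ≤ n * (n * (‖a‖ * ‖H‖)) := by
  have h : ∀ i j, |a i j * H i j| ≤ ‖a‖ * ‖H‖ := fun i j => by
    rw [abs_mul]
    exact mul_le_mul ((norm_le_pi_norm (a i) j).trans (norm_le_pi_norm a i))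
      ((norm_le_pi_norm (H i) j).trans (norm_le_pi_norm H i)) (abs_nonneg _) (norm_nonneg _)
  refine (Finset.abs_sum_le_sum_abs _ _).trans ((Finset.sum_le_sum fun i _ =>
    (Finset.abs_sum_le_sum_abs _ _).trans (Finset.sum_le_sum fun j _ => h i j)).trans_eq ?_)
  simp

theorem D1_smul (s : ℝ) (v : E n → ℝ) : D1 (fun x => s * v x) = fun x => s • D1 v x :=
  funext fun _ => funext fun i => pd_const_mul s i

theorem D2_smul (s : ℝ) (v : E n → ℝ) : D2 (fun x => s * v x) = fun x => s • D2 v x := by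
  funext x i j
  have : (pd j fun x => s * v x) = fun x => s * pd j v x := funext fun _ => pd_const_mul s j
  rw [D2, this, pd_const_mul]
  rfl

theorem J1_smul (s : ℝ) (v : E n → ℝ) (x : E n) : J1 (fun x => s * v x) x = s • J1 v x := by
  rw [J1, D1_smul]; rfl

theorem D1_sub (hv : ContDiff ℝ 2 v) (hw : ContDiff ℝ 2 w) :
    D1 (fun x => v x - w x) = fun x => D1 v x - D1 w x :=
  funext fun _ => funext fun i => pd_sub (diff2 hv.contDiffAt) (diff2 hw.contDiffAt) i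

theorem D2_sub (hv : ContDiff ℝ 2 v) (hw : ContDiff ℝ 2 w) :
    D2 (fun x => v x - w x) = fun x => D2 v x - D2 w x := by
  funext x i j
  have : (pd j fun x => v x - w x) = fun x => pd j v x - pd j w x :=
    funext fun _ => pd_sub (diff2 hv.contDiffAt) (diff2 hw.contDiffAt) j
  rw [D2, this, pd_sub (diffAt_pd hv.contDiffAt j) (diffAt_pd hw.contDiffAt j)]
  rfl

theorem J1_sub (hv : ContDiff ℝ 2 v) (hw : ContDiff ℝ 2 w) (x : E n) :
    J1 (fun x => v x - w x) x = J1 v x - J1 w x := by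
  rw [J1, D1_sub hv hw]; rfl

theorem c2_smul (s : ℝ) (hv : C2H α A v) : C2H α (|s| * A) fun x => s * v x :=
  ⟨contDiff_const.mul hv.1, smul s hv.2.1, D1_smul s v ▸ smul s hv.2.2.1,
    D2_smul s v ▸ smul s hv.2.2.2⟩

theorem c2_J (hv : C2H α A v) : Ho α A (J1 v) :=
  ⟨fun x => max_le (hv.2.1.1 x) (hv.2.2.1.1 x), fun x y => max_le (hv.2.1.2 x y) (hv.2.2.1.2 x y)⟩

theorem fst {j : E n → ℝ × Vc n} (hj : Ho α A j) : Ho α A fun x => (j x).1 :=
  ⟨fun x => (norm_fst_le _).trans (hj.1 x), fun x y => (norm_fst_le (j x - j y)).trans (hj.2 x y)⟩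

theorem lip1 (hv : Differentiable ℝ v) (h : ∀ x, ‖D1 v x‖ ≤ A) (x y : E n) :
    ‖v x - v y‖ ≤ n * A * ‖x - y‖ := by
  have hA : 0 ≤ A := (norm_nonneg _).trans (h 0)
  refine convex_univ.norm_image_sub_le_of_norm_fderiv_le (fun z _ => hv z) (fun z _ => ?_)
    (mem_univ y) (mem_univ x)
  refine ContinuousLinearMap.opNorm_le_bound _ (by positivity) fun ξ => ?_
  rw [fderiv_eq_sum (hv z)]
  refine (norm_sum_le _ _).trans ((Finset.sum_le_sum (g := fun _ => A * ‖ξ‖) fun i _ => ?_).trans_eq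
    (by simp [mul_assoc]))
  rw [norm_mul, mul_comm]
  exact mul_le_mul ((norm_le_pi_norm (D1 v z) i).trans (h z)) (PiLp.norm_apply_le ξ i)
    (norm_nonneg _) hA

theorem lip2 (hv : ContDiff ℝ 2 v) (h : ∀ x, ‖D2 v x‖ ≤ A) (x y : E n) :
    ‖D1 v x - D1 v y‖ ≤ n * A * ‖x - y‖ := by
  have hA : 0 ≤ A := (norm_nonneg _).trans (h 0)
  refine (pi_norm_le_iff_of_nonneg (by positivity)).2 fun i => ?_
  exact lip1 (fun z => diffAt_pd hv.contDiffAt i) (fun z => (pi_norm_le_iff_of_nonneg hA).2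
    fun k => ((norm_le_pi_norm (D2 v z k) i).trans (norm_le_pi_norm _ k)).trans (h z)) x y

theorem small {p e : ℝ} (hp : 0 < p) (he : 0 < e) (C : ℝ) : ∃ r > (0 : ℝ), C * r ^ p ≤ e := by
  have hc : ContinuousAt (fun t : ℝ => C * t ^ p) 0 :=
    continuousAt_const.mul (Real.continuousAt_rpow_const _ _ (.inr hp.le))
  have h0 : C * (0 : ℝ) ^ p < e := by rwa [Real.zero_rpow hp.ne', mul_zero]
  obtain ⟨t, t0, ht⟩ := Metric.eventually_nhds_iff.1 (hc.eventually (gt_mem_nhds h0))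
  exact ⟨t / 2, half_pos t0, (ht (by
    rw [dist_zero_right, Real.norm_of_nonneg (half_pos t0).le]; exact half_lt_self t0)).le⟩

theorem osc {S : ℝ} (h : ∀ x, |v x| ≤ S) (x y : E n) : |v x - v y| ≤ 2 * S :=
  (abs_sub _ _).trans (by linarith [h x, h y])

/-- small functions with bounded derivatives have small jets -/
theorem key (hI : INTP) (hα : α ∈ Ioo (0 : ℝ) 1) (B : ℝ) {e : ℝ} (he : 0 < e) :
    ∃ d > (0 : ℝ), ∀ w : E n → ℝ, ContDiff ℝ 2 w → Ho α B (D2 w) → (∀ x, ‖D1 w x‖ ≤ B) →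
      (∀ x, |w x| ≤ d) → Ho α e (J1 w) := by
  obtain ⟨C, C0, hC⟩ := hI n α hα
  obtain ⟨d, d0, hd⟩ := interp (n := n) (W := ℝ × Vc n) hα (n * B) he
  obtain ⟨r, r0, hr⟩ := small (p := 1 + α) (by linarith [hα.1]) (half_pos d0) (C * B)
  refine ⟨min d (d * r / (4 * C)), by positivity, fun w h1 h2 h3 h4 => hd _ (fun x => ?_)
    fun x y => max_le (lip1 (fun z => diff2 h1.contDiffAt) h3 x y) (lip2 h1 h2.1 x y)⟩
  refine max_le ((h4 x).trans (min_le_left _ _)) ?_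
  have h5 := (((hC w (2 * (d * r / (4 * C))) B r r0 (by positivity) (nn h2) h1 h2.2).1
    fun x y _ => osc (fun z => (h4 z).trans (min_le_right _ _)) x y) x).1
  have e1 : C * (2 * (d * r / (4 * C)) / r) = d / 2 := by field_simp; norm_num
  rw [mul_add, e1, ← mul_assoc] at h5
  change ‖D1 w x‖ ≤ d
  linarith

/-- the global estimate -/
theorem est (hI : INTP) (hU : USCH) (hα : α ∈ Ioo (0 : ℝ) 1) (Λ S : ℝ) : ∃ B, ∀ (a : E n → Mx n)
    (c v : E n → ℝ), (∀ x, El Λ (a x)) → Ho α Λ a → Ho α S c → (∃ A, C2H α A v) →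
      (∀ x, |v x| ≤ S) → Ho α S (fun x => pr2 (a x) (D2 v x) - c x * v x) →
      (∀ x, ‖D1 v x‖ ≤ B) ∧ Ho α B (D2 v) := by
  obtain ⟨C, C0, hC⟩ := hI n α hα
  obtain ⟨U, U0, hU⟩ := hU n α Λ hα
  obtain ⟨r, r0, hr⟩ := small (p := 1 + α) (by linarith [hα.1]) one_half_pos
    (C * (U * (1 + 2 * S * n)))
  set A₀ := 2 * (C * (2 * S / r + U * (S + 2 * S * (2 * S)) * r ^ (1 + α))) with hA₀
  refine ⟨max A₀ (U * (A₀ + (S + 2 * S * (2 * S + n * A₀)))), fun a c v h1 h2 h3 ⟨A', h4⟩ h5 h6 => ?_⟩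
  have S0 := nn h3
  have bd : BddAbove (range fun x => ‖D1 v x‖) := ⟨A', by rintro _ ⟨x, rfl⟩; exact h4.2.2.1.1 x⟩
  have st : ∀ A, (∀ x, ‖D1 v x‖ ≤ A) → Ho α (U * (A + (S + 2 * S * (2 * S + n * A)))) (D2 v) :=
    fun A hA => by
      have A0 : 0 ≤ A := (norm_nonneg _).trans (hA 0)
      have k := add h6 (mul h3 (of_lip hα (by positivity) h5
        (lip1 (fun z => diff2 h4.1.contDiffAt) hA)))
      simp only [smul_eq_mul, sub_add_cancel] at k
      exact hU a v A _ h1 h2 h4.1 ⟨A', h4.2.2.2⟩ hA k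
  have hA : ∀ x, ‖D1 v x‖ ≤ ⨆ x, ‖D1 v x‖ := le_ciSup bd
  have k := st _ hA
  have l : ⨆ x, ‖D1 v x‖ ≤ _ := ciSup_le fun x =>
    (((hC v (2 * S) _ r r0 (by positivity) (nn k) h4.1 k.2).1 fun x y _ => osc h5 x y) x).1
  have A0 : 0 ≤ ⨆ x, ‖D1 v x‖ := (norm_nonneg _).trans (hA 0)
  have hB : ∀ x, ‖D1 v x‖ ≤ A₀ := fun x => (hA x).trans (by
    have := mul_le_mul_of_nonneg_right hr A0
    rw [hA₀]
    nlinarith)
  exact ⟨fun x => (hB x).trans (le_max_left _ _), mono (st _ hB) (le_max_right _ _)⟩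

theorem bu_le (hn : 3 ≤ n) (x : E n) : bu n x ≤ 1 := by
  have : (3 : ℝ) ≤ n := by exact_mod_cast hn
  exact Real.rpow_le_one_of_one_le_of_nonpos (by nlinarith [sq_nonneg ‖x‖]) (by linarith)

/-- the maximum principle on both sides -/
theorem mp2 (hM : MPN) (hn : 3 ≤ n) (Λ₀ ρ : ℝ) : ∃ l₀ : ℝ, ∃ C > (0 : ℝ), ∀ l ≥ l₀,
    ∀ (a : E n → Mx n) (c v : E n → ℝ) (H : ℝ), Lin Λ₀ ρ l a c → ContDiff ℝ 2 v →
      Tendsto v (cocompact (E n)) (𝓝 0) → (∀ x, |pr2 (a x) (D2 v x) - c x * v x| ≤ H) →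
      (∀ x, ρ + 1 ≤ ‖x‖ → pr2 (a x) (D2 v x) - c x * v x = 0) → ∀ x, |v x| ≤ C * H := by
  obtain ⟨l₀, C, C0, hC⟩ := hM n Λ₀ ρ hn
  refine ⟨l₀, C, C0, fun l hl a c v H h1 h2 h3 h4 h5 x => ?_⟩
  have H0 : 0 ≤ H := (abs_nonneg _).trans (h4 0)
  have b := mul_le_of_le_one_right (mul_nonneg C0.le H0) (bu_le hn x)
  have e : ∀ y, pr2 (a y) (D2 (fun x => -1 * v x) y) - c y * (-1 * v y) =
      -(pr2 (a y) (D2 v y) - c y * v y) := fun y => by rw [D2_smul, pr2_smul]; ring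
  have k1 := hC l hl a c v H h1 h2 h3 H0 (fun y => (abs_le.1 (h4 y)).1) (fun y h => (h5 y h).ge) x
  have k2 := hC l hl a c (fun x => -1 * v x) H h1 (contDiff_const.mul h2)
    (by simpa using h3.const_mul (-1)) H0 (fun y => by rw [e]; linarith [(abs_le.1 (h4 y)).2])
    (fun y h => by rw [e, h5 y h, neg_zero]) x
  exact abs_le.2 ⟨by linarith, by linarith⟩

end Qe

end Vale.Agent.P366Y
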