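import Vale.Agent.P366Y.Sk
import Vale.Agent.P366Z.GradA

/-!
# P366Y, tools: the gradient bound by the maximum principle at one point (row GB)
-/

open Filter Topology Set
open Vale.Agent.P366.Stmt Vale.Agent.P366Z

noncomputable section

namespace Vale.Agent.P366Y

namespace GbT

variable {n : ℕ}

theorem chain {W : Type} [NormedAddCommGroup W] [NormedSpace ℝ W] {F : E n × W → ℝ}
    {w : E n → W} {x : E n} (hF : Differentiable ℝ F) (hw : DifferentiableAt ℝ w x) (v : E n) :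
    fderiv ℝ (fun y => F (y, w y)) x v =
      fderiv ℝ (fun y => F (y, w x)) x v + fderiv ℝ F (x, w x) (0, fderiv ℝ w x v) := by
  have h1 : HasFDerivAt (fun y => F (y, w y)) _ x :=
    HasFDerivAt.comp (g := F) (f := fun y => (y, w y)) x (hF (x, w x)).hasFDerivAt
      ((hasFDerivAt_id x).prodMk hw.hasFDerivAt)
  have h2 : HasFDerivAt (fun y => F (y, w x)) _ x :=
    HasFDerivAt.comp (g := F) (f := fun y => (y, w x)) x (hF (x, w x)).hasFDerivAt
      ((hasFDerivAt_id x).prodMk (hasFDerivAt_const (w x) x))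
  rw [h1.fderiv, h2.fderiv]
  simp [← map_add]

theorem norm_sq_le (p : Vc n) : ‖p‖ ^ 2 ≤ e2 p := by
  have h0 : 0 ≤ e2 p := Finset.sum_nonneg fun i _ => sq_nonneg _
  rw [← Real.le_sqrt (norm_nonneg _) h0, pi_norm_le_iff_of_nonneg (Real.sqrt_nonneg _)]
  exact fun i => Real.abs_le_sqrt
    (Finset.single_le_sum (f := fun i => p i ^ 2) (fun i _ => sq_nonneg _) (Finset.mem_univ i))

theorem alg {p B : Vc n} {H : Mx n} {A : Fin n → Fin n → Fin n → ℝ} {C β Q S : ℝ} (hC : 0 ≤ C)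
    (hA : ∀ i j k, |A i j k| ≤ C) (hB : ∀ k, |B k| ≤ C * ‖p‖) (Q0 : 0 ≤ Q)
    (hQ : ∑ i, ∑ j, H i j ^ 2 ≤ C * Q) (h1 : Q + S ≤ 0)
    (h2 : ∑ i, ∑ j, (∑ k, p k * A i j k) * H i j + S = ∑ k, p k * B k + e2 p * β)
    (hβ : n ^ 2 * (n * C + 1) * C ^ 2 + n * C ^ 2 + 2 ≤ β) : e2 p ≤ 0 := by
  obtain ⟨D, hD⟩ : ∃ D : ℝ, D = n * C + 1 := ⟨_, rfl⟩
  have D0 : 0 < D := by rw [hD]; positivity
  have P0 : 0 ≤ e2 p := Finset.sum_nonneg fun i _ => sq_nonneg _
  have a1 : ∑ i, ∑ j, (∑ k, p k * A i j k) * H i j ≤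
      ∑ i, ∑ j, ∑ k, (D⁻¹ * H i j ^ 2 + D * C ^ 2 * p k ^ 2) :=
    Finset.sum_le_sum fun i _ => Finset.sum_le_sum fun j _ => by
      rw [Finset.sum_mul]
      refine Finset.sum_le_sum fun k _ => le_of_mul_le_mul_left ?_ D0
      rw [mul_add, ← mul_assoc D D⁻¹, mul_inv_cancel₀ D0.ne']
      have := mul_le_mul_of_nonneg_right (sq_le_sq' (abs_le.1 (hA i j k)).1 (abs_le.1 (hA i j k)).2)
        (sq_nonneg (D * p k))
      nlinarith [sq_nonneg (H i j - D * p k * A i j k / 2), sq_nonneg (D * p k * A i j k)]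
  have a2 : ∑ i, ∑ j, ∑ k, (D⁻¹ * H i j ^ 2 + D * C ^ 2 * p k ^ 2) =
      n * D⁻¹ * ∑ i, ∑ j, H i j ^ 2 + n ^ 2 * D * C ^ 2 * e2 p := by
    simp only [Finset.sum_add_distrib, ← Finset.mul_sum, Finset.sum_const, Finset.card_univ,
      Fintype.card_fin, nsmul_eq_mul, e2]
    ring
  have a3 : ∑ k, (-p k ^ 2 - C ^ 2 * e2 p) ≤ ∑ k, p k * B k := Finset.sum_le_sum fun k _ => by
    have k1 := sq_le_sq' (abs_le.1 (hB k)).1 (abs_le.1 (hB k)).2
    have k2 := mul_le_mul_of_nonneg_left (norm_sq_le p) (sq_nonneg C)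
    nlinarith [sq_nonneg (p k + B k / 2), sq_nonneg (B k)]
  have a4 : ∑ k, (-p k ^ 2 - C ^ 2 * e2 p) = -e2 p - n * C ^ 2 * e2 p := by
    simp only [Finset.sum_sub_distrib, Finset.sum_neg_distrib, Finset.sum_const, Finset.card_univ,
      Fintype.card_fin, nsmul_eq_mul, e2]
    ring
  have a5 : n * D⁻¹ * ∑ i, ∑ j, H i j ^ 2 ≤ Q := by
    refine (mul_le_mul_of_nonneg_left hQ (by positivity)).trans ?_
    rw [← mul_assoc]
    refine mul_le_of_le_one_left Q0 ?_
    rw [mul_right_comm, mul_inv_le_iff₀ D0]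
    linarith
  have a6 := mul_le_mul_of_nonneg_left hβ P0
  rw [← hD] at a6
  linarith

end GbT

open GbT in
/-- **row GB** -/
theorem gb0 : GB := by
  intro n C
  refine ⟨n ^ 2 * (n * C + 1) * C ^ 2 + n * C ^ 2 + 2, fun M f a b hM hf ha hb h0 he hyp x₀ => ?_⟩
  by_contra hx₀
  have M0 : 0 < M ^ 2 := by positivity
  have sm : Smooth fun y => ∑ k, pd k f y ^ 2 := ContDiff.sum fun k _ => ContDiff.pow (hf.pd k) 2
  have lim : Tendsto (fun y => e2 (D1 f y)) (cocompact (E n)) (𝓝 0) := by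
    have c : Continuous (e2 (n := n)) := by unfold e2; fun_prop
    exact (c.tendsto' 0 0 (by simp [e2])).comp h0
  obtain ⟨x, hx⟩ := Continuous.exists_forall_ge' (f := fun y => e2 (D1 f y)) sm.cont x₀
    ((lim.eventually (gt_mem_nhds (M0.trans (not_le.1 hx₀)))).mono fun _ => le_of_lt)
  have hP : M ^ 2 ≤ e2 (D1 f x) := (not_le.1 hx₀).le.trans (hx x₀)
  obtain ⟨⟨Λ, sy, bd, el⟩, tg, hA, hB, hβ⟩ := hyp x hP
  obtain ⟨i₀, -, -⟩ := Finset.exists_ne_zero_of_sum_ne_zero (M0.trans_le hP).ne'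
  have hC : 0 ≤ C := (abs_nonneg _).trans (hA i₀ i₀ i₀)
  have a0 : ∀ ξ, 0 ≤ Grad.qf (a (x, D1 f x)) ξ := fun ξ => le_of_not_gt fun k => by
    have k1 : e2 ξ ≤ 0 := (el ξ).trans
      (mul_nonpos_of_nonneg_of_nonpos ((abs_nonneg _).trans (bd i₀ i₀)) k.le)
    have k2 : ξ = 0 := norm_eq_zero.1 (pow_eq_zero_iff two_ne_zero |>.1
      (le_antisymm ((norm_sq_le ξ).trans k1) (sq_nonneg _)))
    rw [k2, Grad.qf_zero] at k
    exact k.false
  have d1 : ∀ j y, pd j (fun y => ∑ k, pd k f y ^ 2) y = ∑ k, 2 * (pd k f y * pd j (pd k f) y) :=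
    fun j y => by
      rw [pd_sum _ fun k _ => ((hf.pd k).diff y).fun_pow 2]
      exact Finset.sum_congr rfl fun k _ => by rw [pd_pow ((hf.pd k).diff y)]; simp [mul_assoc]
  have d2 : ∀ i j, pd i (pd j fun y => ∑ k, pd k f y ^ 2) x = 2 * ∑ k, (pd i (pd k f) x *
      pd j (pd k f) x + pd k f x * pd i (pd j (pd k f)) x) := fun i j => by
    rw [funext (d1 j), pd_sum _ fun k _ =>
      (((hf.pd k).diff x).fun_mul (((hf.pd k).pd j).diff x)).const_mul 2, Finset.mul_sum]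
    exact Finset.sum_congr rfl fun k _ => by
      rw [pd_const_mul, pd_mul ((hf.pd k).diff x) (((hf.pd k).pd j).diff x)]
  have t := fun ξ => Grad.test (f := fun y => ∑ k, pd k f y ^ 2) (h := fun _ => 0) (a := x) (b := x)
    (ξ := ξ) (η := 0) (α := 0) (β := 0) (sm.c2 x) contDiffAt_const
    (.of_forall fun t => by simpa [e2, D1] using hx _)
  have o1 : ∀ j, ∑ k, pd k (pd j f) x * pd k f x = 0 := fun j => by
    have k := (t (EuclideanSpace.single j 1)).1
    rw [map_zero, sub_zero, ← pd_eq (sm.diff x), d1, ← Finset.mul_sum] at k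
    rw [← (mul_eq_zero.1 k).resolve_left two_ne_zero]
    exact Finset.sum_congr rfl fun k _ => by rw [pd_comm (hf.c2 x), mul_comm]
  have o2 := Grad.pr_le sy a0 (H := fun i j => pd i (pd j fun y => ∑ k, pd k f y ^ 2) x)
    fun ξ => by
      have k := (t (WithLp.toLp 2 ξ)).2
      rwa [map_zero, sub_zero, mul_zero, Grad.d2_eq (sm.c2 x)] at k
  have dv : ∀ {u : E n → ℝ}, DifferentiableAt ℝ u x →
      fderiv ℝ u x (WithLp.toLp 2 (D1 f x)) = ∑ k, pd k f x * pd k u x := fun hu =>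
    fderiv_eq_sum hu _
  have dD : DifferentiableAt ℝ (D1 f) x := differentiableAt_pi.2 fun i => (hf.pd i).diff x
  have dJ : DifferentiableAt ℝ (J1 f) x := (hf.diff x).prodMk dD
  have z1 : fderiv ℝ (D1 f) x (WithLp.toLp 2 (D1 f x)) = 0 := funext fun i => by
    rw [show D1 f = fun y i => pd i f y from rfl, fderiv_pi fun i => (hf.pd i).diff x]
    exact (dv ((hf.pd i).diff x)).trans ((Finset.sum_congr rfl fun k _ => mul_comm _ _).trans (o1 i))
  have z2 : fderiv ℝ (J1 f) x (WithLp.toLp 2 (D1 f x)) = (e2 (D1 f x), 0) := by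
    rw [show J1 f = fun y => (f y, D1 f y) from rfl, (hf.diff x).fderiv_prodMk dD]
    exact Prod.ext ((dv (hf.diff x)).trans (Finset.sum_congr rfl fun k _ => (pow_two _).symm)) z1
  have da : ∀ i j, Differentiable ℝ fun q => a q i j := fun i j =>
    differentiable_pi.1 (differentiable_pi.1 (ha.differentiable one_ne_zero) i) j
  have db := hb.differentiable one_ne_zero
  have da1 : ∀ i j, DifferentiableAt ℝ (fun y => a (y, D1 f y) i j) x := fun i j =>
    DifferentiableAt.comp (g := fun q => a q i j) x (da i j _) (differentiableAt_id.prodMk dD)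
  have c1 : ∀ i j, ∑ k, pd k f x * pd k (fun y => a (y, D1 f y) i j) x =
      ∑ k, pd k f x * pd k (fun y => a (y, D1 f x) i j) x := fun i j => by
    rw [← dv (da1 i j), chain (da i j) dD, z1, Prod.mk_zero_zero, map_zero, add_zero]
    exact dv (DifferentiableAt.comp (g := fun q => a q i j) x (da i j _) (by fun_prop))
  have c2 : ∑ k, pd k f x * pd k (fun y => b (y, J1 f y)) x =
      ∑ k, pd k f x * pd k (fun y => b (y, J1 f x)) x +
        e2 (D1 f x) * deriv (fun z => b (x, z, D1 f x)) (f x) := by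
    rw [← dv (u := fun y => b (y, J1 f y)) (by fun_prop),
      ← dv (u := fun y => b (y, J1 f x)) (by fun_prop)]
    refine (chain db dJ _).trans (congrArg _ ?_)
    have k : HasDerivAt (fun z => b (x, z, D1 f x)) _ (f x) :=
      HasFDerivAt.comp_hasDerivAt (l := b) (f := fun z => (x, z, D1 f x)) (f x)
        (db _).hasFDerivAt ((hasDerivAt_const _ _).prodMk
          ((hasDerivAt_id' _).prodMk (hasDerivAt_const _ _)))
    rw [z2, k.deriv, ← smul_eq_mul, ← map_smul]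
    simp [J1]
  have c3 : ∀ k, pd k (fun y => b (y, J1 f y)) x = ∑ i, ∑ j, (pd k (fun y => a (y, D1 f y) i j) x *
      pd i (pd j f) x + a (x, D1 f x) i j * pd i (pd j (pd k f)) x) := fun k => by
    have dd := fun i j => ((hf.pd j).pd i).diff x
    rw [← funext he]
    refine (pd_sum _ (fun i _ => .fun_sum fun j _ => (da1 i j).fun_mul (dd i j)) k).trans
      (Finset.sum_congr rfl fun i _ => (pd_sum _ (fun j _ => (da1 i j).fun_mul (dd i j)) k).trans
        (Finset.sum_congr rfl fun j _ => (pd_mul (da1 i j) (dd i j) k).trans ?_))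
    rw [pd_comm ((hf.pd j).c2 x), funext fun y => pd_comm (hf.c2 y) k j]
  refine (M0.trans_le hP).not_ge (alg (H := D2 f x) hC hA hB
    (Q := ∑ k, Grad.qf (a (x, D1 f x)) fun i => pd i (pd k f) x)
    (S := ∑ i, ∑ j, ∑ k, a (x, D1 f x) i j * (pd k f x * pd i (pd j (pd k f)) x))
    (Finset.sum_nonneg fun k _ => a0 _) ?_ ?_ ?_ hβ)
  · rw [Finset.sum_comm, Finset.mul_sum]
    exact Finset.sum_le_sum fun k _ => tg _ (o1 k)
  · simp only [Grad.pr, d2, mul_left_comm _ (2 : ℝ), ← Finset.mul_sum] at o2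
    refine le_of_eq_of_le ?_ (nonpos_of_mul_nonpos_right o2 two_pos)
    simp only [Grad.qf, Finset.mul_sum, mul_add, Finset.sum_add_distrib, mul_assoc]
    rw [Finset.sum_comm]
    exact congrArg (· + _) (Finset.sum_congr rfl fun i _ => Finset.sum_comm)
  · refine Eq.trans ?_ c2
    simp only [c3, D1, D2, ← c1, Finset.mul_sum, mul_add, Finset.sum_add_distrib, Finset.sum_mul]
    refine congrArg₂ (· + ·) ?_ ?_ <;> refine Eq.trans ?_ Finset.sum_comm <;>
      refine Finset.sum_congr rfl fun i _ => Eq.trans ?_ Finset.sum_comm <;>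
      exact Finset.sum_congr rfl fun j _ => Finset.sum_congr rfl fun k _ => by ring

end Vale.Agent.P366Y
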