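import Vale.Agent.P366Y.Sk
import Mathlib.Analysis.Calculus.BumpFunction.Normed
import Mathlib.Analysis.Calculus.BumpFunction.InnerProduct
import Mathlib.Analysis.Calculus.ContDiff.Convolution

/-!
# P366Y, row MOL: a smoothing operator which dominates
-/

open MeasureTheory Metric Filter Topology Set ContinuousLinearMap
open scoped Convolution
open Vale.Agent.P366.Stmt

noncomputable section

namespace Vale.Agent.P366Y

namespace MolH

variable {n : ℕ} {h h' : E n → ℝ}

/-- the supremum on the balls of radius one -/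
def sp (h : E n → ℝ) (y : E n) : ℝ := sSup ((fun z => h (y + z)) '' closedBall 0 1)

/-- the kernel -/
def kn (n : ℕ) : E n → ℝ := (⟨1 / 2, 1, by norm_num, by norm_num⟩ : ContDiffBump (0 : E n)).normed
  volume

theorem cont (hh : Continuous h) : Continuous (sp h) :=
  (isCompact_closedBall 0 1).continuous_sSup (f := fun y z => h (y + z))
    (hh.comp (continuous_fst.add continuous_snd))

theorem le_sp (hh : Continuous h) (y : E n) {z : E n} (hz : ‖z‖ ≤ 1) : h (y + z) ≤ sp h y :=
  le_csSup ((isCompact_closedBall 0 1).bddAbove_image (by fun_prop))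
    ⟨z, mem_closedBall_zero_iff.2 hz, rfl⟩

theorem sp_le {y : E n} {b : ℝ} (hb : ∀ z, ‖z‖ ≤ 1 → h (y + z) ≤ b) : sp h y ≤ b :=
  csSup_le ((nonempty_closedBall.2 zero_le_one).image _) (by
    rintro _ ⟨z, hz, rfl⟩
    exact hb z (mem_closedBall_zero_iff.1 hz))

theorem kn_nn (t : E n) : 0 ≤ kn n t := ContDiffBump.nonneg_normed _ _

theorem kn_int : ∫ t, kn n t = 1 := ContDiffBump.integral_normed _

theorem kn_cs : HasCompactSupport (kn n) := ContDiffBump.hasCompactSupport_normed _

theorem kn_sm {m : ℕ∞} : ContDiff ℝ m (kn n) := ContDiffBump.contDiff_normed _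

theorem kn_zero {t : E n} (ht : 1 ≤ ‖t‖) : kn n t = 0 := by
  by_contra k
  have : t ∈ ball (0 : E n) 1 :=
    (ContDiffBump.support_normed_eq (μ := volume) _).subset (Function.mem_support.2 k)
  exact absurd (mem_ball_zero_iff.1 this) (not_lt.2 ht)

theorem ex (hh : Continuous h) (x : E n) : Integrable fun t => kn n t * h (x - t) :=
  kn_cs.convolutionExists_left (mul ℝ ℝ) (kn_sm (m := 0)).continuous hh.locallyIntegrable x

theorem cv_add (hh : Continuous h) (e : ℝ) (x : E n) :
    (kn n ⋆[mul ℝ ℝ] fun y => h y + e) x = (kn n ⋆[mul ℝ ℝ] h) x + e := by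
  change ∫ t, kn n t * (h (x - t) + e) = (∫ t, kn n t * h (x - t)) + e
  simp only [mul_add]
  rw [integral_add (ex hh x) (ex (h := fun _ => e) continuous_const x), integral_mul_const, kn_int,
    one_mul]

theorem cv_mono (hh : Continuous h) (hh' : Continuous h') {x : E n}
    (k : ∀ t, ‖t‖ < 1 → h (x - t) ≤ h' (x - t)) :
    (kn n ⋆[mul ℝ ℝ] h) x ≤ (kn n ⋆[mul ℝ ℝ] h') x :=
  integral_mono (ex hh x) (ex hh' x) fun t => by
    change kn n t * h (x - t) ≤ kn n t * h' (x - t)
    rcases lt_or_ge ‖t‖ 1 with ht | ht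
    · exact mul_le_mul_of_nonneg_left (k t ht) (kn_nn t)
    · rw [kn_zero ht, zero_mul, zero_mul]

theorem cv_cst (c : ℝ) (x : E n) : (kn n ⋆[mul ℝ ℝ] fun _ => c) x = c := by
  change ∫ t, kn n t * c = c
  rw [integral_mul_const, kn_int, one_mul]

theorem one : Mol ((∫ t, ‖fderiv ℝ (kn n) t‖) + 1) 1 fun h => kn n ⋆[mul ℝ ℝ] sp h where
  sm h hh := kn_cs.contDiff_convolution_left _ kn_sm (cont hh).locallyIntegrable
  ge h x hh := (cv_cst (h x) x).ge.trans (cv_mono continuous_const (cont hh) fun t ht => by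
    simpa using le_sp hh (x - t) ht.le)
  cst c x := by
    have : sp (fun _ : E n => c) = fun _ => c := funext fun y => le_antisymm
      (sp_le fun _ _ => le_rfl) (le_sp (h := fun _ => c) continuous_const y (z := 0) (by simp))
    rw [this, cv_cst]
  loc h h' x e hh hh' k := by
    rw [← cv_add (cont hh')]
    refine cv_mono (cont hh) ((cont hh').add continuous_const) fun t ht => sp_le fun z hz =>
      (k _ ?_).trans (add_le_add_left (le_sp hh' _ hz) _)
    rw [mem_ball_iff_norm, show x - t + z - x = z - t by abel]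
    linarith [norm_sub_le z t]
  lip h x a b hh k := by
    have hc : Continuous fun y => sp h y - a := (cont hh).sub continuous_const
    have e : kn n ⋆[mul ℝ ℝ] sp h = fun x => (kn n ⋆[mul ℝ ℝ] fun y => sp h y - a) x + a :=
      funext fun x => by rw [← cv_add hc]; simp
    have hab : 0 ≤ b - a := sub_nonneg.2 ((k x).1.trans (k x).2)
    have hi : Integrable fun t => ‖fderiv ℝ (kn n) t‖ :=
      (((kn_sm (m := 1)).continuous_fderiv one_ne_zero).integrable_of_hasCompactSupport
        (kn_cs.fderiv ℝ)).norm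
    rw [e, fderiv_add_const, (kn_cs.hasFDerivAt_convolution_left (mul ℝ ℝ) (kn_sm (m := 1))
      hc.locallyIntegrable x).fderiv, div_one]
    refine (norm_integral_le_of_norm_le (hi.mul_const (b - a)) (.of_forall fun t =>
      opNorm_le_bound _ (by positivity) fun v => ?_)).trans ?_
    · change ‖fderiv ℝ (kn n) t v * (sp h (x - t) - a)‖ ≤ _
      have h1 := (k (x - t + 0)).1.trans (le_sp hh (x - t) (z := 0) (by simp))
      have h2 : sp h (x - t) ≤ b := sp_le fun z _ => (k _).2
      rw [norm_mul, mul_right_comm, Real.norm_of_nonneg (sub_nonneg.2 h1)]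
      exact mul_le_mul (le_opNorm _ v) (by linarith) (sub_nonneg.2 h1) (by positivity)
    · rw [integral_mul_const]
      linarith

end MolH

theorem mol : MOL := by
  intro n
  have k := MolH.one (n := n)
  refine ⟨(∫ t, ‖fderiv ℝ (MolH.kn n) t‖) + 1,
    add_pos_of_nonneg_of_pos (integral_nonneg fun _ => norm_nonneg _) one_pos, fun δ hδ => ?_⟩
  generalize (fun h => MolH.kn n ⋆[mul ℝ ℝ] MolH.sp h) = S at k
  have hc : ∀ {h : E n → ℝ}, Continuous h → Continuous fun y => h (δ • y) := fun hh =>
    hh.comp (continuous_const_smul δ)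
  refine ⟨fun h x => S (fun y => h (δ • y)) (δ⁻¹ • x),
    fun h hh => ContDiff.comp (k.sm _ (hc hh)) (contDiff_const_smul δ⁻¹), fun h x hh => ?_,
    fun c x => k.cst c _, fun h h' x e hh hh' l => k.loc _ _ _ e (hc hh) (hc hh') fun y hy =>
      l _ ?_, fun h x a b hh l => ?_⟩
  · simpa [smul_inv_smul₀ hδ.ne'] using k.ge _ (δ⁻¹ • x) (hc hh)
  · rw [mem_ball_iff_norm] at hy ⊢
    rw [← smul_inv_smul₀ hδ.ne' x, ← smul_sub, norm_smul, Real.norm_of_nonneg hδ.le]
    nlinarith
  · have := k.lip _ (δ⁻¹ • x) a b (hc hh) fun y => l _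
    rw [fderiv_comp_smul, norm_smul, Real.norm_of_nonneg (inv_pos.2 hδ).le, inv_mul_eq_div]
    rw [div_one] at this
    exact div_le_div_of_nonneg_right this hδ.le

end Vale.Agent.P366Y
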