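import Vale.Agent.P366Y.Defs
import Vale.Agent.P366Z.Calc2

/-!
# P366Y: the parameters exist
-/

open Filter Topology Set
open scoped ContDiff
open Vale.Agent.P366.Stmt Vale.Agent.P366Z

noncomputable section

namespace Vale.Agent.P366Y

namespace ParH

open Real

theorem st_bd : ∃ c ≥ (1 : ℝ), ∀ x, 0 ≤ deriv smoothTransition x ∧ deriv smoothTransition x ≤ c := by
  have hc : Continuous (deriv smoothTransition) :=
    (smoothTransition.contDiff (n := 1)).continuous_deriv le_rfl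
  obtain ⟨C, hC⟩ := (isCompact_Icc (a := (0 : ℝ)) (b := 1)).exists_bound_of_continuousOn
    hc.continuousOn
  refine ⟨max C 1, le_max_right _ _, fun x => ⟨smoothTransition.monotone.deriv_nonneg, ?_⟩⟩
  by_cases h : x ∈ Icc (0 : ℝ) 1
  · exact ((le_abs_self _).trans (hC x h)).trans (le_max_left _ _)
  · have : deriv smoothTransition x = 0 := by
      rcases not_and_or.1 h with h | h
      · rw [(show smoothTransition =ᶠ[𝓝 x] fun _ => 0 from (eventually_lt_nhds (not_le.1 h)).mono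
          fun y hy => smoothTransition.zero_of_nonpos hy.le).deriv_eq, deriv_const]
      · rw [(show smoothTransition =ᶠ[𝓝 x] fun _ => 1 from (eventually_gt_nhds (not_le.1 h)).mono
          fun y hy => smoothTransition.one_of_one_le hy.le).deriv_eq, deriv_const]
    rw [this]; positivity

theorem st_d (a b z : ℝ) : HasDerivAt (fun z => smoothTransition ((z - a) / b))
    (deriv smoothTransition ((z - a) / b) * (1 / b)) z :=
  HasDerivAt.comp (h₂ := smoothTransition) z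
    (((smoothTransition.contDiff (n := 1)).differentiable (by norm_num) _).hasDerivAt)
    (((hasDerivAt_id z).sub_const a).div_const b)

theorem st_sm (a b : ℝ) : ContDiff ℝ ∞ fun z => smoothTransition ((z - a) / b) :=
  smoothTransition.contDiff.comp ((contDiff_id.sub contDiff_const).div_const b)

theorem st0 {a b z : ℝ} (hb : 0 < b) (h : z ≤ a) : smoothTransition ((z - a) / b) = 0 :=
  smoothTransition.zero_of_nonpos (div_nonpos_of_nonpos_of_nonneg (by linarith) hb.le)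

theorem st1 {a b z : ℝ} (hb : 0 < b) (h : a + b ≤ z) : smoothTransition ((z - a) / b) = 1 :=
  smoothTransition.one_of_one_le ((one_le_div hb).2 (by linarith))

/-- the warping function -/
theorem ex_phi : ∃ c ≥ (1 : ℝ), ∀ η N : ℝ, 0 < η → 1 ≤ N → ∃ φ : ℝ → ℝ, ContDiff ℝ ∞ φ ∧
    (∀ z ≤ 1 - η, φ z = exp (-N)) ∧ (∀ z ≥ 1 + η, φ z = 2) ∧ φ 1 = 1 ∧
    (∀ z, exp (-N) ≤ φ z ∧ φ z ≤ 2) ∧ ∀ z, 0 ≤ deriv φ z ∧ deriv φ z ≤ 2 * N * c / η * φ z := by
  obtain ⟨c, c1, hc⟩ := st_bd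
  refine ⟨c, c1, fun η N η0 N1 => ?_⟩
  have l0 : 0 < log 2 := log_pos one_lt_two
  have l1 : log 2 ≤ 1 := by linarith [log_le_sub_one_of_pos (two_pos : (0 : ℝ) < 2)]
  refine ⟨fun z => exp (N * (smoothTransition ((z - (1 - η)) / η) - 1) +
    log 2 * smoothTransition ((z - 1) / η)), ?_, fun z hz => ?_, fun z hz => ?_, ?_, fun z => ?_,
    fun z => ?_⟩
  · exact ((contDiff_const.mul ((st_sm _ _).sub contDiff_const)).add
      (contDiff_const.mul (st_sm _ _))).exp
  · simp only [st0 η0 hz, st0 η0 (show z ≤ 1 by linarith)]; simp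
  · simp only [st1 η0 hz, st1 η0 (show 1 - η + η ≤ z by linarith)]; simp [exp_log]
  · simp only [st0 η0 (le_refl (1 : ℝ)), st1 η0 (show 1 - η + η ≤ 1 by linarith)]; simp
  · have a0 := smoothTransition.nonneg ((z - (1 - η)) / η)
    have a1 := smoothTransition.le_one ((z - (1 - η)) / η)
    have b0 := smoothTransition.nonneg ((z - 1) / η)
    have b1 := smoothTransition.le_one ((z - 1) / η)
    refine ⟨exp_le_exp.2 (by nlinarith), ?_⟩
    rw [← exp_log (two_pos : (0 : ℝ) < 2), exp_le_exp, exp_log two_pos]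
    nlinarith
  · rw [(((((st_d (1 - η) η z).sub_const 1).const_mul N).fun_add
      ((st_d 1 η z).const_mul (log 2))).exp).deriv]
    obtain ⟨a0, a1⟩ := hc ((z - (1 - η)) / η)
    obtain ⟨b0, b1⟩ := hc ((z - 1) / η)
    refine ⟨by positivity, ?_⟩
    rw [mul_comm]
    refine mul_le_mul_of_nonneg_right ?_ (exp_pos _).le
    have : 2 * N * c / η = N * (c * (1 / η)) + N * (c * (1 / η)) := by ring
    rw [this]
    gcongr
    linarith

/-- the capillary function -/
theorem ex_T {τ F K : ℝ} (τ0 : 0 < τ) (F0 : 0 < F) (K0 : 0 < K) (h : 8 * (τ * F) ≤ K) :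
    ∃ T : ℝ → ℝ, ContDiff ℝ ∞ T ∧ (∀ z, τ ≤ deriv T z) ∧ (∀ z, |z| ≤ 4 * F → T z = τ * z) ∧
      (∀ z, |z| ≤ 8 * F → |T z| ≤ 2 * K) ∧ K ≤ T (8 * F) ∧ T (-(8 * F)) ≤ -K := by
  have F4 : 0 < 4 * F := by positivity
  refine ⟨fun z => τ * z + K * (smoothTransition ((z - 4 * F) / (4 * F)) +
    smoothTransition ((z - -(8 * F)) / (4 * F)) - 1), ?_, fun z => ?_, fun z hz => ?_,
    fun z hz => ?_, ?_, ?_⟩
  · exact (contDiff_const.mul contDiff_id).add
      (contDiff_const.mul (((st_sm _ _).add (st_sm _ _)).sub contDiff_const))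
  · rw [(((hasDerivAt_id' z).const_mul τ).fun_add ((((st_d (4 * F) (4 * F) z).fun_add
      (st_d (-(8 * F)) (4 * F) z)).sub_const 1).const_mul K)).deriv]
    have a0 := smoothTransition.monotone.deriv_nonneg (x := (z - 4 * F) / (4 * F))
    have b0 := smoothTransition.monotone.deriv_nonneg (x := (z - -(8 * F)) / (4 * F))
    rw [mul_one]
    exact le_add_of_nonneg_right (by positivity)
  · obtain ⟨h1, h2⟩ := abs_le.1 hz
    simp only [st0 F4 h2, st1 F4 (show -(8 * F) + 4 * F ≤ z by linarith)]; simp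
  · obtain ⟨h1, h2⟩ := abs_le.1 hz
    have a0 := smoothTransition.nonneg ((z - 4 * F) / (4 * F))
    have a1 := smoothTransition.le_one ((z - 4 * F) / (4 * F))
    have b0 := smoothTransition.nonneg ((z - -(8 * F)) / (4 * F))
    have b1 := smoothTransition.le_one ((z - -(8 * F)) / (4 * F))
    rw [abs_le]
    constructor <;> nlinarith
  · simp only [st1 F4 (show 4 * F + 4 * F ≤ 8 * F by linarith),
      st1 F4 (show -(8 * F) + 4 * F ≤ 8 * F by linarith)]
    nlinarith [mul_pos τ0 F0]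
  · simp only [st0 F4 (show -(8 * F) ≤ 4 * F by linarith), st0 F4 (le_refl (-(8 * F)))]
    nlinarith [mul_pos τ0 F0]

theorem big_mono {P : Pa} (h : P.Ok) {C C' : ℝ} (hC : C ≤ C') (b : P.Big C') : P.Big C := by
  obtain ⟨h1, h2, h3, h4, h5, h6, h7, h8, h9⟩ := h.pos
  have φ0 := h.φ0.1
  exact ⟨le_trans (by gcongr) b.b1, le_trans (by gcongr) b.b2, le_trans (by gcongr) b.b3,
    le_trans (by gcongr) b.b4, le_trans (by gcongr) b.b5, hC.trans b.b6, le_trans (by gcongr) b.b7⟩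

end ParH

open Real ParH in
theorem par (C η p₀ CK : ℝ) (η0 : 0 < η) (η1 : η ≤ 1 / 16) (p0 : 0 < p₀) (K1 : 1 ≤ CK) :
    ∃ P : Pa, P.Ok ∧ P.Big C ∧ P.η = η ∧ P.p₁ ≤ p₀ ∧ P.CK = CK := by
  obtain ⟨k, k1, hφ⟩ := ex_phi
  obtain ⟨c, c8, hc⟩ : ∃ c ≥ (8 : ℝ), C ≤ c := ⟨max C 8, le_max_right _ _, le_max_left _ _⟩
  have c0 : 0 < c := by linarith
  have lc : 0 ≤ log c := log_nonneg (by linarith)
  obtain ⟨A, hA⟩ : ∃ A, A = c * (2 + log c) ^ 2 + c * (2 * k / η) := ⟨_, rfl⟩
  have A1 : c * (2 + log c) ^ 2 ≤ A := by rw [hA]; exact le_add_of_nonneg_right (by positivity)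
  have A2 : c * (2 * k / η) ≤ A := by rw [hA]; exact le_add_of_nonneg_left (by positivity)
  have A3 : 1 ≤ A := by nlinarith
  obtain ⟨N, hN, N1⟩ : ∃ N, c * A * (1 + A * c ^ 2) * (N ^ 4 * exp (-N)) < η ∧ 1 ≤ N := by
    have := (tendsto_pow_mul_exp_neg_atTop_nhds_zero 4).const_mul (c * A * (1 + A * c ^ 2))
    rw [mul_zero] at this
    exact ((this.eventually (gt_mem_nhds η0)).and (eventually_ge_atTop 1)).exists
  obtain ⟨φ, f1, f2, f3, f4, f5, f6⟩ := hφ η N η0 N1
  have e0 := exp_pos (-N)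
  have e1 : exp (-N) ≤ 1 := exp_le_one_iff.2 (by linarith)
  have e2 : exp (-N) * exp N = 1 := by rw [← exp_add]; simp
  have e3 : 1 ≤ exp N := one_le_exp (by linarith)
  have lF : log (c * exp N) = log c + N := by rw [log_mul c0.ne' (exp_pos N).ne', log_exp]
  generalize exp (-N) = e at *
  generalize exp N = E at *
  have tF : c * (e / c ^ 2 * (c * E)) = 1 := by rw [← e2]; field_simp
  obtain ⟨T, t1, t2, t3, t4, t5⟩ := ex_T (τ := e / c ^ 2) (F := c * E) (K := CK) (by positivity)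
    (by positivity) (by linarith) (by
      have : 0 < e / c ^ 2 * (c * E) := by positivity
      nlinarith)
  have N2 : 1 ≤ N ^ 2 := one_le_pow₀ N1
  have L1 : 1 ≤ A * N ^ 2 := one_le_mul_of_one_le_of_one_le A3 N2
  have cL : 1 ≤ c * (A * N ^ 2) := one_le_mul_of_one_le_of_one_le (by linarith) L1
  have m0 : 0 < η * (e / c ^ 2) * e ^ 4 := by positivity
  have q1 : e ^ 2 / (c * (A * N ^ 2)) ≤ 1 :=
    (div_le_one (by positivity)).2 ((pow_le_one₀ e0.le e1).trans cL)
  let P : Pa := ⟨φ, fun z => 1 - smoothTransition ((z - (1 - 2 * η)) / η), T, η, e, 2 * N * k / η,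
    A * N ^ 2, e / c ^ 2, c * E, c * (A * N ^ 2) / (η * (e / c ^ 2) * e ^ 4) + 1,
    min p₀ (e ^ 2 / (c * (A * N ^ 2))), CK⟩
  have ok : P.Ok := by
    refine ⟨⟨η0, η1⟩, ⟨e0, e1⟩, f1, f2, f3, f4, f5, f6, contDiff_const.sub (st_sm _ _),
      fun z => ⟨sub_nonneg.2 (smoothTransition.le_one _), sub_le_self _ (smoothTransition.nonneg _)⟩,
      fun z hz => ?_, fun z hz => ?_, t1, t2, t3, t4, t5, ?_, L1, by positivity, ?_, ?_, ?_, ?_,
      (min_le_right _ _).trans q1, K1⟩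
    · exact (congrArg (1 - ·) (st0 η0 hz)).trans (sub_zero 1)
    · exact (congrArg (1 - ·) (st1 η0 (show 1 - 2 * η + η ≤ z by
        have : 1 - η ≤ z := hz
        linarith))).trans (sub_self 1)
    · exact (one_le_div η0).2 (by nlinarith)
    · exact (div_le_one (by positivity)).2 (by nlinarith)
    · exact one_le_mul_of_one_le_of_one_le (by linarith) e3
    · exact le_add_of_nonneg_left (by positivity)
    · exact lt_min p0 (by positivity)
  refine ⟨P, ok, big_mono ok hc ⟨?_, tF.le, ?_, ?_, ?_, ?_, ?_⟩, rfl, min_le_left _ _, rfl⟩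
  · show c * (2 * N * k / η) ≤ A * N ^ 2
    have : c * (2 * N * k / η) = c * (2 * k / η) * N := by ring
    rw [this]
    exact mul_le_mul A2 (by nlinarith) (by linarith) (by linarith)
  · show c * (A * N ^ 2) ≤ η * (e / c ^ 2) * e ^ 4 * (c * (A * N ^ 2) / (η * (e / c ^ 2) * e ^ 4) + 1)
    rw [mul_add, mul_div_cancel₀ _ m0.ne']
    linarith
  · show c * (A * N ^ 2) * (e + A * N ^ 2 * e ^ 2 / (e / c ^ 2)) ≤ η
    have : c * (A * N ^ 2) * (e + A * N ^ 2 * e ^ 2 / (e / c ^ 2)) =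
        c * A * (N ^ 2 * e) * (1 + A * c ^ 2 * N ^ 2) := by field_simp
    have h2 : c * A * (1 + A * c ^ 2) * (N ^ 4 * e) =
        c * A * (N ^ 2 * e) * (N ^ 2 + A * c ^ 2 * N ^ 2) := by ring
    rw [this]
    refine le_trans ?_ (h2 ▸ hN.le)
    gcongr
  · show c * (1 + log (c * E)) ^ 2 ≤ A * N ^ 2
    rw [lF]
    refine le_trans ?_ (mul_le_mul_of_nonneg_right A1 (by positivity))
    rw [mul_assoc, ← mul_pow]
    gcongr
    nlinarith
  · show c ≤ e * (c * E)
    rw [mul_left_comm, e2, mul_one]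
  · show c * (A * N ^ 2) * min p₀ (e ^ 2 / (c * (A * N ^ 2))) ^ 2 ≤ e ^ 4
    have h1 : min p₀ (e ^ 2 / (c * (A * N ^ 2))) ^ 2 ≤ (e ^ 2 / (c * (A * N ^ 2))) ^ 2 :=
      pow_le_pow_left₀ (lt_min p0 (by positivity)).le (min_le_right _ _) 2
    refine (mul_le_mul_of_nonneg_left h1 (by positivity)).trans ?_
    have : c * (A * N ^ 2) * (e ^ 2 / (c * (A * N ^ 2))) ^ 2 = e ^ 4 / (c * (A * N ^ 2)) := by
      field_simp
    rw [this]
    exact div_le_self (by positivity) cL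

theorem ParH.metg {n : ℕ} {X : Dat n} (hX : X.Ok) : Met X.g :=
  hX.met.cf hX.smU fun x => by linarith [(hX.Ub x).1]

theorem par_for {n : ℕ} {X : Dat n} (hX : X.Ok) (C η : ℝ) (η0 : 0 < η) (η1 : η ≤ 1 / 16) :
    ∃ P : Pa, P.Ok ∧ P.Big C ∧ P.For X ∧ P.η = η := by
  have hc : Continuous fun x => (n : ℝ) * normSq X.g X.K x := by
    have h1 := fun i j => ((ParH.metg hX).sm_up i j).continuous
    have h2 := fun i j => (hX.smK i j).continuous
    unfold normSq
    fun_prop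
  obtain ⟨B, hB⟩ := (isCompact_closedBall (0 : E n) (X.R + 3)).exists_bound_of_continuousOn
    hc.continuousOn
  obtain ⟨P, h1, h2, h3, h4, h5⟩ := par C η X.p₀ (max B 1) η0 η1 hX.p0 (le_max_right _ _)
  refine ⟨P, h1, h2, ⟨h4, fun x => ?_⟩, h3⟩
  have k1 : (1 : ℝ) ≤ max B 1 := le_max_right _ _
  rw [h5]
  rcases le_total ‖x‖ (X.R + 3) with h | h
  · have := ((le_abs_self _).trans (hB x (mem_closedBall_zero_iff.2 h))).trans (le_max_left B 1)
    nlinarith
  · simp only [normSq, hX.K0 x h, Pi.zero_apply, mul_zero, Finset.sum_const_zero]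
    positivity

end Vale.Agent.P366Y
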