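import Vale.Agent.P366Y.Sk
import Vale.Agent.P366Y.H.Dga
import Vale.Agent.P366Y.H.Sob

/-!
# P366Y: the local maximum estimate (row DGS)
-/

open MeasureTheory Metric Filter Topology Set
open scoped ContDiff ENNReal
open Vale.Agent.P366.Stmt Vale.Agent.P366Z Vale.Agent.P366Z.H Vale.Agent.P366Z.DensH

noncomputable section

namespace Vale.Agent.P366Y

namespace DgsH

variable {n : ℕ} {γ χ k₀ r L : ℝ} {v : E n → ℝ} {x₀ : E n}

theorem e2_eq (hv : ContDiff ℝ 1 v) (y : E n) : e2 (D1 v y) = ‖fderiv ℝ v y‖ ^ 2 :=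
  (norm_fderiv_sq (hv.differentiable one_ne_zero y)).symm

/-- the energy inequality on superlevel sets -/
theorem cac (hL0 : 0 < L) (hL : ∀ s, |deriv Real.smoothTransition s| ≤ L) (hv : ContDiff ℝ 1 v)
    (h : DG γ χ k₀ v x₀ r) {x : E n} {ρ ρ' k H : ℝ} (h0 : 0 < ρ) (h1 : ρ < ρ')
    (h2 : ρ' + ‖x - x₀‖ ≤ r) (hk : k₀ ≤ k) (hH : 0 ≤ H) (hb : ∀ y ∈ ball x ρ', v y ≤ k + H) :
    eg v x ρ k ≤ (|γ| * L ^ 2 * (H ^ 2 / (ρ' - ρ) ^ 2) + χ ^ 2) * ms v x ρ' k := by
  have d0 : 0 < ρ' - ρ := sub_pos.2 h1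
  have q0 := ct_c1 (x := x) d0 h0
  have q1 : ∀ z, 0 ≤ ct x (ρ' - ρ) ρ z ∧ ct x (ρ' - ρ) ρ z ≤ 1 := fun z =>
    ⟨Real.smoothTransition.nonneg _, Real.smoothTransition.le_one _⟩
  have q2 : ∀ z, z ∉ ball x ρ' → ct x (ρ' - ρ) ρ z = 0 := fun z hz => ct_zero d0 (by
    rw [mem_ball, dist_eq_norm, not_lt] at hz
    linarith)
  have q3 : HasCompactSupport (ct x (ρ' - ρ) ρ) :=
    .intro (isCompact_closedBall x ρ') fun y hy => q2 y fun k => hy (ball_subset_closedBall k)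
  have h3 := h k hk _ (lip_of_supp q0 q3) q1 fun y hy => q2 y fun k => by
    rw [mem_ball, dist_eq_norm] at k
    linarith [norm_sub_le_norm_sub_add_norm_sub y x x₀]
  simp only [e2_eq hv, e2_eq q0] at h3
  have cw : Continuous fun y => ‖fderiv ℝ v y‖ ^ 2 := (hv.continuous_fderiv one_ne_zero).norm.pow 2
  have hA := meas_lev hv.continuous x ρ' k
  have h4 : eg v x ρ k ≤ ∫ y in {y | k < v y}, ct x (ρ' - ρ) ρ y ^ 2 * ‖fderiv ℝ v y‖ ^ 2 := by
    refine le_trans (le_of_eq (setIntegral_congr_fun (meas_lev hv.continuous x ρ k) fun y hy => ?_))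
      (setIntegral_mono_set (((q0.continuous.pow 2).mul cw).integrable_of_hasCompactSupport
        (.intro (isCompact_closedBall x ρ') fun y hy => ?_)).integrableOn
        (.of_forall fun y => by positivity) (inter_subset_right (s := ball x ρ)).eventuallyLE)
    · simp only [ct_one d0 (show ‖y - x‖ ≤ ρ by rw [← dist_eq_norm]; exact le_of_lt hy.1),
        one_pow, one_mul]
    · simp [q2 y fun k => hy (ball_subset_closedBall k)]
  have h5 : ∫ y, ‖fderiv ℝ (ct x (ρ' - ρ) ρ) y‖ ^ 2 * max (v y - k) 0 ^ 2 ≤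
      L ^ 2 * (H ^ 2 / (ρ' - ρ) ^ 2) * ms v x ρ' k := by
    refine le_trans (integral_mono_of_nonneg (g := (ball x ρ' ∩ {y | k < v y}).indicator
      fun _ => L ^ 2 * (H ^ 2 / (ρ' - ρ) ^ 2)) (.of_forall fun y => by positivity)
      ((integrable_indicator_iff hA).2 (int_on continuous_const inter_subset_left))
      (.of_forall fun y => ?_)) (le_of_eq ?_)
    · by_cases hy : y ∈ ball x ρ' ∩ {y | k < v y}
      · rw [indicator_of_mem hy,
          show L ^ 2 * (H ^ 2 / (ρ' - ρ) ^ 2) = (L / (ρ' - ρ)) ^ 2 * H ^ 2 by rw [div_pow]; ring]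
        exact mul_le_mul (pow_le_pow_left₀ (norm_nonneg _) (ct_fderiv hL0 hL d0) 2)
          (pow_le_pow_left₀ (le_max_right _ _) (max_le (by linarith [hb y hy.1]) hH) 2)
          (sq_nonneg _) (sq_nonneg _)
      · rw [indicator_of_notMem hy]
        rcases not_and_or.1 hy with k1 | k1
        · simp [fderiv_zero q1 (.inl (q2 y k1))]
        · simp [max_eq_right (sub_nonpos.2 (not_lt.1 (show ¬ k < v y from k1)))]
    · rw [integral_indicator hA, setIntegral_const, smul_eq_mul, mul_comm]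
      rfl
  have h6 : volume.real {y | k < v y ∧ ct x (ρ' - ρ) ρ y ≠ 0} ≤ ms v x ρ' k :=
    measureReal_mono (fun y hy => ⟨by_contra fun k => hy.2 (q2 y k), hy.1⟩)
      (fin_sub inter_subset_left)
  have h7 : 0 ≤ ∫ y, ‖fderiv ℝ (ct x (ρ' - ρ) ρ) y‖ ^ 2 * max (v y - k) 0 ^ 2 :=
    integral_nonneg fun y => by positivity
  have h8 := mul_le_mul (le_abs_self γ) h5 h7 (abs_nonneg γ)
  have h9 := mul_le_mul_of_nonneg_left h6 (sq_nonneg χ)
  linarith

/-- the normalised function -/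
theorem cac' (hL0 : 0 < L) (hL : ∀ s, |deriv Real.smoothTransition s| ≤ L) (hv : ContDiff ℝ 1 v)
    (h : DG γ χ k₀ v x₀ r) (hχ : 0 ≤ χ) {x : E n} {R a : ℝ} (ha : 0 < a) (hx : v x = k₀ + a)
    (hR : R + ‖x - x₀‖ ≤ r) (h1 : χ * R ≤ a) :
    Cac (fun y => a⁻¹ * (v y - k₀)) x R (|γ| * L ^ 2 + 1) (1 / 2) := by
  intro ρ ρ' k H h0 h2 h3 hH h4 hb
  have e1 : {y | k < a⁻¹ * (v y - k₀)} = {y | k₀ + a * k < v y} := by
    ext y
    simp only [mem_ofPred_eq, lt_inv_mul_iff₀ ha, lt_sub_iff_add_lt']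
  have e2 : ∀ y, ‖fderiv ℝ (fun y => a⁻¹ * (v y - k₀)) y‖ ^ 2 = a⁻¹ ^ 2 * ‖fderiv ℝ v y‖ ^ 2 :=
    fun y => by
      rw [(((hv.differentiable one_ne_zero y).hasFDerivAt.sub_const k₀).const_mul a⁻¹).fderiv,
        norm_smul, mul_pow, Real.norm_eq_abs, sq_abs]
  have h5 := hb x (mem_ball_self (h0.trans h2))
  simp only [hx, add_sub_cancel_left, inv_mul_cancel₀ ha.ne'] at h5
  have h6 := cac hL0 hL hv h (x := x) (k := k₀ + a * k) (H := a * H) h0 h2 (by linarith)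
    (le_add_of_nonneg_right (mul_nonneg ha.le (by linarith))) (by positivity) fun y hy => by
      have := (inv_mul_le_iff₀ ha).1 (hb y hy)
      linarith
  have R0 : 0 < R := (h0.trans h2).trans_le h3
  have h7 : a⁻¹ ^ 2 * χ ^ 2 ≤ 1 / R ^ 2 := by
    rw [← mul_pow, ← one_div_pow]
    refine pow_le_pow_left₀ (by positivity) ?_ 2
    rwa [inv_mul_le_iff₀ ha, mul_one_div, le_div_iff₀ R0]
  simp only [eg, ms, e1, e2, integral_const_mul] at h6 ⊢
  refine (mul_le_mul_of_nonneg_left h6 (by positivity)).trans ?_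
  rw [← mul_assoc]
  refine mul_le_mul_of_nonneg_right ?_ measureReal_nonneg
  have h8 : a⁻¹ ^ 2 * (|γ| * L ^ 2 * ((a * H) ^ 2 / (ρ' - ρ) ^ 2)) =
      |γ| * L ^ 2 * (H ^ 2 / (ρ' - ρ) ^ 2) := by field_simp
  have h9 : 0 ≤ H ^ 2 / (ρ' - ρ) ^ 2 := by positivity
  have h10 : 0 ≤ |γ| * L ^ 2 * (1 / R ^ 2) := by positivity
  rw [mul_add, h8]
  linarith

/-- the inequality of Chebyshev -/
theorem cheb (hv : Continuous v) {x : E n} {R c : ℝ} (hc : 0 ≤ c) (hR : R + ‖x - x₀‖ ≤ r) :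
    c ^ 2 * volume.real (ball x R ∩ {y | k₀ + c < v y}) ≤
      ∫ z in ball x₀ r, max (v z - k₀) 0 ^ 2 := by
  have h1 : ball x R ∩ {y | k₀ + c < v y} ⊆ ball x₀ r := fun y hy =>
    ball_subset_ball' (by rwa [dist_eq_norm]) hy.1
  have h2 : Continuous fun z => max (v z - k₀) 0 ^ 2 := by fun_prop
  refine le_trans ?_ (setIntegral_mono_set (int_on h2 subset_rfl)
    (.of_forall fun y => by positivity) h1.eventuallyLE)
  rw [mul_comm, ← smul_eq_mul, ← setIntegral_const]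
  refine setIntegral_mono_on (int_on continuous_const h1) (int_on h2 h1) (meas_lev hv x R _)
    fun y hy => pow_le_pow_left₀ hc (le_max_of_le_left ?_) 2
  have : k₀ + c < v y := hy.2
  linarith

end DgsH

open DgsH in
/-- **row DGS** -/
theorem dgs : DGS := by
  intro n γ hn
  obtain ⟨m, rfl⟩ : ∃ m, n = m + 1 := ⟨n - 1, by omega⟩
  obtain ⟨L, hL0, hL⟩ := deriv_bd
  obtain ⟨ν, ν0, hν⟩ := dga_of sob m (|γ| * L ^ 2 + 1) (by omega) (by positivity)
  obtain ⟨θ, hθ⟩ : ∃ θ : ℝ, θ = 1 / (4 * ((m + 1 : ℕ) : ℝ)) := ⟨_, rfl⟩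
  have θ0 : 0 < θ := by rw [hθ]; positivity
  have θ1 : ((m + 1 : ℕ) : ℝ) * θ = 1 / 4 := by rw [hθ]; field_simp
  have θ2 : θ ≤ 1 / 4 := by
    rw [← θ1]
    exact le_mul_of_one_le_left θ0.le (by exact_mod_cast m.succ_pos)
  have θ3 : 3 / 4 ≤ (1 - θ) ^ (m + 1) := by
    have := one_add_mul_le_pow (a := -θ) (by linarith) (m + 1)
    rw [← sub_eq_add_neg, mul_neg, θ1] at this
    linarith
  obtain ⟨K, hK⟩ : ∃ K : ℝ, K = 2 ^ (m + 1) * (16 / (ν * θ ^ (m + 1)) + 1) := ⟨_, rfl⟩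
  have K0 : 0 < K := by rw [hK]; positivity
  refine ⟨√K, by positivity, fun χ k₀ r v x₀ hr hχ hv h y hy => ?_⟩
  obtain ⟨Y, hY⟩ : ∃ Y, Y = ∫ z in ball x₀ r, max (v z - k₀) 0 ^ 2 := ⟨_, rfl⟩
  have Y0 : 0 ≤ Y := hY ▸ integral_nonneg fun _ => by positivity
  have cv := hv.continuous
  obtain ⟨x, hx, hm⟩ := (isCompact_closedBall x₀ r).exists_isMaxOn ⟨x₀, mem_closedBall_self hr.le⟩
    (f := fun z => (r - ‖z - x₀‖) ^ (m + 1) * max (v z - k₀) 0 ^ 2) (by fun_prop)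
  rw [mem_closedBall, dist_eq_norm] at hx
  have key : (r - ‖x - x₀‖) ^ (m + 1) * max (v x - k₀) 0 ^ 2 ≤
      16 / (ν * θ ^ (m + 1)) * Y + (χ * r) ^ 2 * r ^ (m + 1) := by
    rcases hx.eq_or_lt with e | e
    · rw [e, sub_self, zero_pow m.succ_ne_zero, zero_mul]
      positivity
    rcases le_or_gt (v x - k₀) 0 with a0 | a0
    · rw [max_eq_right a0, zero_pow two_ne_zero, mul_zero]
      positivity
    rw [max_eq_left a0.le]
    obtain ⟨d, hd⟩ : ∃ d, d = r - ‖x - x₀‖ := ⟨_, rfl⟩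
    obtain ⟨a, ha⟩ : ∃ a, a = v x - k₀ := ⟨_, rfl⟩
    have d0 : 0 < d := by linarith
    have d1 : d ≤ r := by linarith [norm_nonneg (x - x₀)]
    have d2 : θ * d ≤ d := mul_le_of_le_one_left d0.le (by linarith)
    have d3 : θ * d + ‖x - x₀‖ ≤ r := by linarith
    rw [← hd, ← ha]
    rw [← ha] at a0
    rcases le_or_gt (χ * (θ * d)) a with c1 | c1
    swap
    · refine le_add_of_nonneg_of_le (by positivity) ?_
      rw [mul_comm]
      exact mul_le_mul (pow_le_pow_left₀ a0.le (c1.le.trans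
        (mul_le_mul_of_nonneg_left (d2.trans d1) hχ)) 2) (pow_le_pow_left₀ d0.le d1 _)
        (by positivity) (by positivity)
    refine le_add_of_le_of_nonneg ?_ (by positivity)
    by_contra! c2
    have c3 := cheb (k₀ := k₀) cv (c := a / 4) (by positivity) d3
    have c4 := hν (fun y => a⁻¹ * (v y - k₀)) x (θ * d) (1 / 2) (θ * d) (5 / 4) 1
      (contDiff_const.mul (hv.sub contDiff_const))
      (cac' hL0 hL hv h hχ a0 (by linarith) d3 c1) (by positivity) le_rfl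
      (div_self (by positivity)).le (by norm_num) (fun z hz => ?_) ?_ x
      (mem_ball_self (by positivity))
    · simp only [← ha, inv_mul_cancel₀ a0.ne'] at c4
      linarith
    · rw [mem_ball, dist_eq_norm] at hz
      have k1 := norm_sub_le_norm_sub_add_norm_sub z x x₀
      have k2 : (r - ‖z - x₀‖) ^ (m + 1) * max (v z - k₀) 0 ^ 2 ≤
          (r - ‖x - x₀‖) ^ (m + 1) * max (v x - k₀) 0 ^ 2 :=
        hm (show z ∈ closedBall x₀ r by rw [mem_closedBall, dist_eq_norm]; linarith)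
      rw [← hd, ← ha, max_eq_left a0.le] at k2
      have k3 : ((1 - θ) * d) ^ (m + 1) ≤ (r - ‖z - x₀‖) ^ (m + 1) :=
        pow_le_pow_left₀ (mul_nonneg (by linarith) d0.le) (by linarith) _
      rw [mul_pow] at k3
      have k4 : 0 < d ^ (m + 1) := by positivity
      have k5 : d ^ (m + 1) * (3 / 4 * max (v z - k₀) 0 ^ 2) ≤ d ^ (m + 1) * a ^ 2 := by
        refine le_trans ?_ k2
        rw [← mul_assoc]
        exact mul_le_mul_of_nonneg_right (le_trans (by nlinarith) k3) (sq_nonneg _)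
      have k6 := le_of_mul_le_mul_left k5 k4
      rw [inv_mul_le_iff₀ a0]
      exact (le_max_left _ 0).trans (abs_le_of_sq_le_sq' (by nlinarith) (by positivity)).2
    · have e1 : {y | 5 / 4 - 1 < a⁻¹ * (v y - k₀)} = {y | k₀ + a / 4 < v y} := by
        ext y
        simp only [mem_ofPred_eq, lt_inv_mul_iff₀ a0]
        constructor <;> intro <;> linarith
      rw [ms, e1]
      refine le_of_mul_le_mul_left (c3.trans ?_) (by positivity : 0 < (a / 4) ^ 2)
      rw [div_mul_eq_mul_div, div_lt_iff₀ (by positivity)] at c2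
      rw [← hY, mul_pow]
      nlinarith
  rw [mem_ball, dist_eq_norm] at hy
  have h1 : (r - ‖y - x₀‖) ^ (m + 1) * max (v y - k₀) 0 ^ 2 ≤ _ :=
    le_trans (hm (show y ∈ closedBall x₀ r by rw [mem_closedBall, dist_eq_norm]; linarith)) key
  have h2 : (r / 2) ^ (m + 1) ≤ (r - ‖y - x₀‖) ^ (m + 1) :=
    pow_le_pow_left₀ (by positivity) (by linarith) _
  have h3 := (mul_le_mul_of_nonneg_right h2 (sq_nonneg _)).trans h1
  rw [← hY, ← sub_le_iff_le_add']
  refine (le_max_left _ 0).trans (abs_le_of_sq_le_sq' ?_ (by positivity)).2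
  have r0 : 0 < r ^ (m + 1) := by positivity
  have h4 := Real.sq_sqrt (div_nonneg Y0 r0.le)
  have h5 : 0 ≤ √(Y / r ^ (m + 1)) * (χ * r) := by positivity
  have h6 : max (v y - k₀) 0 ^ 2 ≤
      2 ^ (m + 1) * (16 / (ν * θ ^ (m + 1)) * (Y / r ^ (m + 1)) + (χ * r) ^ 2) := by
    rw [div_pow, div_mul_eq_mul_div, div_le_iff₀ (by positivity), mul_comm (r ^ _),
      ← le_div_iff₀ r0] at h3
    refine h3.trans_eq ?_
    field_simp
  rw [mul_pow, Real.sq_sqrt K0.le, hK, mul_assoc]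
  refine h6.trans (mul_le_mul_of_nonneg_left ?_ (by positivity))
  have h7 : 0 < 16 / (ν * θ ^ (m + 1)) := by positivity
  have h8 := div_nonneg Y0 r0.le
  generalize 16 / (ν * θ ^ (m + 1)) = Q at h7
  nlinarith [mul_nonneg h7.le h5, mul_nonneg h7.le (sq_nonneg (χ * r))]

end Vale.Agent.P366Y
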