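import Vale.Agent.P366Y.Sk
import Vale.Agent.P366Y.H.Poi

/-!
# P366Y, row OSC: small energy and a modulus of continuity give small oscillation
-/

open MeasureTheory Metric Filter Topology Set
open Vale.Agent.P366.Stmt Vale.Agent.P366Z

namespace Vale.Agent.P366Y

namespace OscH

variable {n : ℕ}

theorem sq_int {φ : ℝ → ℝ} (h : Continuous φ) :
    (∫ t in (0 : ℝ)..1, φ t) ^ 2 ≤ ∫ t in (0 : ℝ)..1, φ t ^ 2 := by
  generalize hm : ∫ t in (0 : ℝ)..1, φ t = m
  have h1 : 0 ≤ ∫ t in (0 : ℝ)..1, (φ t ^ 2 - 2 * m * φ t + m ^ 2) :=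
    intervalIntegral.integral_nonneg zero_le_one fun t _ => by nlinarith [sq_nonneg (φ t - m)]
  rw [intervalIntegral.integral_add (Continuous.intervalIntegrable (by fun_prop) _ _)
    (continuous_const.intervalIntegrable _ _), intervalIntegral.integral_sub
    (Continuous.intervalIntegrable (by fun_prop) _ _)
    (Continuous.intervalIntegrable (by fun_prop) _ _), intervalIntegral.integral_const_mul, hm,
    intervalIntegral.integral_const, sub_zero, one_smul] at h1
  nlinarith

theorem seg {u : E n → ℝ} (hu : ContDiff ℝ 1 u) (x z : E n) {r : ℝ} (hz : ‖z‖ ≤ r) :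
    (u (x + z) - u x) ^ 2 ≤ r ^ 2 * ∫ t in (0 : ℝ)..1, ‖fderiv ℝ u (x + t • z)‖ ^ 2 := by
  have hc : Continuous fun t : ℝ => fderiv ℝ u (x + t • z) :=
    (hu.continuous_fderiv one_ne_zero).comp (by fun_prop)
  have h1 : Continuous fun t : ℝ => fderiv ℝ u (x + t • z) z := hc.clm_apply continuous_const
  have h2 : ∫ t in (0 : ℝ)..1, fderiv ℝ u (x + t • z) z = u (x + z) - u x := by
    have := intervalIntegral.integral_eq_sub_of_hasDerivAt (f := fun t : ℝ => u (x + t • z))
      (f' := fun t => fderiv ℝ u (x + t • z) z) (a := 0) (b := 1) (fun t _ => by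
        have k := (hu.differentiable one_ne_zero (x + t • z)).hasFDerivAt.comp_hasDerivAt t
          (((hasDerivAt_id t).smul_const z).const_add x)
        rwa [one_smul] at k) (h1.intervalIntegrable _ _)
    simpa using this
  have h3 : Continuous fun t : ℝ => ‖fderiv ℝ u (x + t • z)‖ ^ 2 := hc.norm.pow 2
  rw [← intervalIntegral.integral_const_mul, ← h2]
  refine (sq_int h1).trans (intervalIntegral.integral_mono_on zero_le_one
    ((h1.pow 2).intervalIntegrable _ _) ((h3.const_mul _).intervalIntegrable _ _) fun t _ => ?_)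
  rw [← sq_abs, ← mul_pow, ← Real.norm_eq_abs, mul_comm]
  exact pow_le_pow_left₀ (norm_nonneg _) (((fderiv ℝ u (x + t • z)).le_opNorm z).trans
    (mul_le_mul_of_nonneg_left hz (norm_nonneg _))) 2

theorem near {x y a : E n} {r c : ℝ} (c0 : 0 < c) (c1 : c ≤ 1) (hy : y ∈ ball x r)
    (ha : a ∈ ball (y + c • (x - y)) (c * r)) : a ∈ ball x r ∧ ‖a - y‖ ≤ 2 * c * r := by
  rw [mem_ball_iff_norm] at hy ha ⊢
  constructor
  · have e : a - x = a - (y + c • (x - y)) + (1 - c) • (y - x) := by module
    have := norm_add_le (a - (y + c • (x - y))) ((1 - c) • (y - x))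
    rw [← e, norm_smul, Real.norm_of_nonneg (sub_nonneg.2 c1)] at this
    nlinarith
  · have e : a - y = a - (y + c • (x - y)) + c • (x - y) := by module
    have := norm_add_le (a - (y + c • (x - y))) (c • (x - y))
    rw [← e, norm_smul, Real.norm_of_nonneg c0.le, norm_sub_rev x y] at this
    nlinarith

end OscH

open OscH in
theorem osc : OSC := by
  intro n θ K e hθ he
  obtain ⟨C, C0, hC⟩ := H.poi n
  have lim : Tendsto (fun c : ℝ => |K| * (2 * c) ^ θ) (𝓝[>] 0) (𝓝 0) := by
    have : Continuous fun c : ℝ => |K| * (2 * c) ^ θ :=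
      continuous_const.mul ((continuous_const.mul continuous_id).rpow_const fun _ => .inr hθ.le)
    simpa [Real.zero_rpow hθ.ne'] using (this.tendsto 0).mono_left (nhdsWithin_le_nhds (s := Ioi 0))
  obtain ⟨c, c2, c0, c1⟩ := ((lim.eventually_lt_const (show 0 < e / 4 by positivity)).and
    (Ioc_mem_nhdsGT (show (0 : ℝ) < 1 from one_pos))).exists
  have v0 : 0 < volume.real (ball (0 : E n) 1) :=
    ENNReal.toReal_pos (measure_ball_pos _ _ one_pos).ne' measure_ball_lt_top.ne
  generalize hω : volume.real (ball (0 : E n) 1) = ω at v0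
  refine ⟨(c ^ n * ω) ^ 2 * e ^ 2 / (32 * C), by positivity, fun v x r hr hv hm hE y hy z hz => ?_⟩
  by_contra hne
  have close : ∀ y ∈ ball x r, ∀ a ∈ ball (y + c • (x - y)) (c * r), |v a - v y| ≤ e / 4 :=
    fun y hy a ha => by
      obtain ⟨a1, a2⟩ := near c0 c1 hy ha
      refine (hm a a1 y hy).trans (le_trans ?_ c2.le)
      exact mul_le_mul (le_abs_self K) (Real.rpow_le_rpow (by positivity)
        ((div_le_iff₀ hr).2 a2) hθ.le) (by positivity) (abs_nonneg K)
  have vol : ∀ p : E n, volume.real (ball p (c * r)) = (c * r) ^ n * ω := fun p => by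
    rw [← hω, Measure.real, Measure.real, Measure.addHaar_ball_of_pos _ _ (mul_pos c0 hr),
      finrank_euclideanSpace_fin, ENNReal.toReal_mul, ENNReal.toReal_ofReal (by positivity)]
  have k := hC (fun y => 16 * r ^ 2 / e ^ 2 * ‖fderiv ℝ v y‖ ^ 2) x r _ _
    (continuous_const.mul ((hv.continuous_fderiv one_ne_zero).norm.pow 2))
    (fun _ => by positivity) hr measurableSet_ball measurableSet_ball
    (fun a ha => (near c0 c1 hy ha).1) (fun a ha => (near c0 c1 hz ha).1) fun a ha b hb => by
      have h1 := seg hv a (b - a) (r := 2 * r) (by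
        have k1 := mem_ball_iff_norm.1 (near c0 c1 hy ha).1
        have k2 := mem_ball_iff_norm.1 (near c0 c1 hz hb).1
        have := norm_sub_le_norm_sub_add_norm_sub b x a
        rw [norm_sub_rev x a] at this
        linarith)
      rw [add_sub_cancel] at h1
      have h2 : e / 2 ≤ |v b - v a| := by
        have k1 := close y hy a ha
        have k2 := close z hz b hb
        have k3 := abs_sub_le (v y) (v a) (v z)
        have k4 := abs_sub_le (v a) (v b) (v z)
        rw [abs_sub_comm (v y) (v a)] at k3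
        rw [abs_sub_comm (v a) (v b)] at k4
        linarith [not_le.1 hne]
      have h3 := pow_le_pow_left₀ (by positivity) h2 2
      rw [sq_abs] at h3
      rw [intervalIntegral.integral_const_mul, div_mul_eq_mul_div, le_div_iff₀ (by positivity)]
      nlinarith
  have hg : ∀ y, e2 (D1 v y) = ‖fderiv ℝ v y‖ ^ 2 := fun y =>
    (norm_fderiv_sq (hv.differentiable one_ne_zero y)).symm
  simp only [hg] at hE
  rw [vol, vol, integral_const_mul] at k
  have h4 : C * r ^ n * (16 * r ^ 2 / e ^ 2 * ∫ y in ball x r, ‖fderiv ℝ v y‖ ^ 2) ≤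
      C * r ^ n * (16 / e ^ 2 * ((c ^ n * ω) ^ 2 * e ^ 2 / (32 * C) * r ^ n)) := by
    rw [mul_div_right_comm, mul_assoc (16 / e ^ 2)]
    gcongr
  have h5 : C * r ^ n * (16 / e ^ 2 * ((c ^ n * ω) ^ 2 * e ^ 2 / (32 * C) * r ^ n)) =
      (c * r) ^ n * ω * ((c * r) ^ n * ω) / 2 := by
    rw [mul_pow c r]
    field_simp
    norm_num
  have h6 : 0 < (c * r) ^ n * ω * ((c * r) ^ n * ω) := by positivity
  linarith

end Vale.Agent.P366Y
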