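import Vale.Agent.P366Y.T.UschD
import Vale.Agent.P272.K.R.Final
import Vale.Agent.P366Z.Calc

/-!
# P366Y, tools: the estimate of Schauder by freezing of the coefficients
-/

open Set Metric Filter Topology
open Vale.Agent.P366.Stmt Vale.Agent.P366Z
open Vale.Agent.P272.K.LIN (HB)

noncomputable section

namespace Vale.Agent.P366Y

namespace UschX

variable {n : ℕ} {α M K M' K' : ℝ} {f g : E n → ℝ}

theorem hb_mul (hf : HB α f M K) (hg : HB α g M' K') :
    HB α (fun x => f x * g x) (M * M') (M * K' + K * M') := by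
  have h0 : 0 ≤ M := (norm_nonneg _).trans (hf.sup 0)
  refine ⟨fun x => (norm_mul_le _ _).trans (mul_le_mul (hf.sup x) (hg.sup x) (norm_nonneg _) h0),
    fun x y => ?_⟩
  calc _ = ‖f x * (g x - g y) + (f x - f y) * g y‖ := by congr 1; ring
    _ ≤ M * (K' * ‖x - y‖ ^ α) + K * ‖x - y‖ ^ α * M' := (norm_add_le _ _).trans (add_le_add
        ((norm_mul_le _ _).trans (mul_le_mul (hf.sup x) (hg.hol x y) (norm_nonneg _) h0))
        ((norm_mul_le _ _).trans (mul_le_mul (hf.hol x y) (hg.sup y) (norm_nonneg _)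
          ((norm_nonneg _).trans (hf.hol x y)))))
    _ = _ := by ring

theorem hb_add (hf : HB α f M K) (hg : HB α g M' K') :
    HB α (fun x => f x + g x) (M + M') (K + K') :=
  ⟨fun x => (norm_add_le _ _).trans (add_le_add (hf.sup x) (hg.sup x)), fun x y => by
    rw [add_sub_add_comm, add_mul]
    exact (norm_add_le _ _).trans (add_le_add (hf.hol x y) (hg.hol x y))⟩

theorem hb_sum {F : Fin n → E n → ℝ} (h : ∀ i, HB α (F i) M K) :
    HB α (fun x => ∑ i, F i x) (n * M) (n * K) :=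
  ⟨fun x => (norm_sum_le _ _).trans ((Finset.sum_le_sum fun i _ => (h i).sup x).trans_eq (by simp)),
    fun x y => by
      rw [← Finset.sum_sub_distrib]
      exact (norm_sum_le _ _).trans ((Finset.sum_le_sum fun i _ => (h i).hol x y).trans_eq
        (by simp [mul_assoc]))⟩

theorem hb_const {c : ℝ} (h : |c| ≤ M) : HB α (fun _ : E n => c) M 0 :=
  ⟨fun _ => h, fun _ _ => by simp⟩

theorem hb_mono (hf : HB α f M K) (h : M ≤ M') (h' : K ≤ K') : HB α f M' K' :=
  ⟨fun x => (hf.sup x).trans h, fun x y => (hf.hol x y).trans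
    (mul_le_mul_of_nonneg_right h' (Real.rpow_nonneg (norm_nonneg _) _))⟩

theorem hb_lip (hα : α ∈ Ioo (0 : ℝ) 1) (hK : 0 ≤ K) (hM : ∀ x, |f x| ≤ M)
    (hL : ∀ x y, |f x - f y| ≤ K * ‖x - y‖) : HB α f M (K + 2 * M) := by
  have h0 : 0 ≤ M := (abs_nonneg _).trans (hM 0)
  refine ⟨hM, fun x y => ?_⟩
  have hr : 0 ≤ ‖x - y‖ ^ α := by positivity
  rw [Real.norm_eq_abs, add_mul]
  rcases le_total ‖x - y‖ 1 with h | h
  · have h2 : ‖x - y‖ ≤ ‖x - y‖ ^ α := Real.self_le_rpow_of_le_one (norm_nonneg _) h hα.2.le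
    exact (hL x y).trans ((mul_le_mul_of_nonneg_left h2 hK).trans
      (le_add_of_nonneg_right (by positivity)))
  · have h3 := abs_sub (f x) (f y)
    have h4 : 2 * M ≤ 2 * M * ‖x - y‖ ^ α :=
      le_mul_of_one_le_right (by positivity) (Real.one_le_rpow h hα.1.le)
    linarith [hM x, hM y, mul_nonneg hK hr]

theorem lip (hf : Differentiable ℝ f) (hM : 0 ≤ M) (h : ∀ x i, |pd i f x| ≤ M) (x y : E n) :
    |f x - f y| ≤ (n + 1) * M * ‖x - y‖ := by
  refine convex_univ.norm_image_sub_le_of_norm_fderiv_le (𝕜 := ℝ) (fun z _ => hf z)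
    (fun z _ => abs_le_of_sq_le_sq' ?_ (by positivity) |>.2) trivial trivial
  rw [norm_fderiv_sq (hf z)]
  calc _ ≤ ∑ _i : Fin n, M ^ 2 := Finset.sum_le_sum fun i _ => sq_le_sq' (abs_le.1 (h z i)).1
        (abs_le.1 (h z i)).2
    _ = n * M ^ 2 := by simp
    _ ≤ (n + 1) ^ 2 * M ^ 2 := by gcongr; nlinarith [Nat.cast_nonneg (α := ℝ) n]
    _ = _ := by ring

theorem ent (H : Mx n) (i j : Fin n) : |H i j| ≤ ‖H‖ :=
  (norm_le_pi_norm (H i) j).trans (norm_le_pi_norm H i)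

theorem d2_mul (hf : ContDiff ℝ 2 f) (hg : ContDiff ℝ 2 g) (c : ℝ) (x : E n) (i j : Fin n) :
    D2 (fun y => f y * (g y - c)) x i j = f x * D2 g x i j +
      (pd i f x * pd j g x + pd j f x * pd i g x + (g x - c) * pd i (pd j f) x) := by
  have h1 : ∀ y, DifferentiableAt ℝ f y := fun y => diff2 hf.contDiffAt
  have h2 : ∀ y, DifferentiableAt ℝ (fun y => g y - c) y := fun y =>
    (diff2 hg.contDiffAt).sub_const c
  have h3 : pd j (fun y => f y * (g y - c)) = fun y => pd j f y * (g y - c) + f y * pd j g y :=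
    funext fun y => by rw [pd_mul (h1 y) (h2 y), pd_sub_const]
  have h4 := diffAt_pd (x := x) hf.contDiffAt j
  have h5 := diffAt_pd (x := x) hg.contDiffAt j
  rw [D2, h3, pd_add (h4.fun_mul (h2 x)) ((h1 x).fun_mul h5), pd_mul h4 (h2 x), pd_mul (h1 x) h5,
    pd_sub_const, D2]
  ring

/-- the cut-off function -/
theorem bump (hα : α ∈ Ioo (0 : ℝ) 1) {r : ℝ} (hr : 0 < r) : ∃ (ζ : E n → ℝ) (Z : ℝ), 0 ≤ Z ∧
    ContDiff ℝ 2 ζ ∧ HasCompactSupport ζ ∧ (∀ x, ‖x‖ < r → ζ x = 1) ∧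
    (∀ x, 2 * r < ‖x‖ → ζ x = 0) ∧ HB α ζ 1 Z ∧ (∀ i, HB α (pd i ζ) Z Z) ∧
    ∀ i j, HB α (pd i (pd j ζ)) Z Z := by
  let η : ContDiffBump (0 : E n) := ⟨r, 2 * r, hr, by linarith⟩
  have h0 : ∀ x : E n, 2 * r < ‖x‖ → η x = 0 := fun x hx =>
    η.zero_of_le_dist (by rw [dist_zero_right]; exact hx.le)
  have h3 : ContDiff ℝ 3 η := η.contDiff
  have hc : ∀ {u : E n → ℝ} (i : Fin n), HasCompactSupport u → HasCompactSupport (pd i u) :=
    fun {u} i h => h.mono' fun x hx => by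
      by_contra k
      exact hx ((pd_congr (notMem_tsupport_iff_eventuallyEq.1 k) i).trans (pd_const 0 i x))
  have ex : ∀ u : E n → ℝ, ContDiff ℝ 1 u → HasCompactSupport u → ∃ Z, 0 ≤ Z ∧ HB α u Z Z :=
    fun u h h' => by
      obtain ⟨M, K, hK, k⟩ := P272.K.R.exists_hb hα.1 hα.2.le h h'
      exact ⟨max M K, le_max_of_le_right hK, hb_mono k (le_max_left _ _) (le_max_right _ _)⟩
  obtain ⟨Z0, p0, q0⟩ := ex η η.contDiff η.hasCompactSupport
  choose Z1 p1 q1 using fun i => ex (pd i η) (contDiff_pd h3 (by norm_num) i)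
    (hc i η.hasCompactSupport)
  choose Z2 p2 q2 using fun i j => ex (pd i (pd j η)) (contDiff_pd (contDiff_pd (k := 2) h3
    (by norm_num) j) (by norm_num) i) (hc i (hc j η.hasCompactSupport))
  have s1 : 0 ≤ ∑ i, Z1 i := Finset.sum_nonneg fun i _ => p1 i
  have s2 : ∀ i, 0 ≤ ∑ j, Z2 i j := fun i => Finset.sum_nonneg fun j _ => p2 i j
  have s3 : 0 ≤ ∑ i, ∑ j, Z2 i j := Finset.sum_nonneg fun i _ => s2 i
  refine ⟨η, Z0 + ∑ i, Z1 i + ∑ i, ∑ j, Z2 i j, by positivity, η.contDiff, η.hasCompactSupport,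
    fun x hx => η.one_of_mem_closedBall (mem_closedBall_zero_iff.2 hx.le), h0,
    ⟨fun x => abs_le.2 ⟨by linarith [η.nonneg (x := x)], η.le_one⟩,
      (hb_mono q0 le_rfl (by linarith)).hol⟩, fun i => ?_, fun i j => ?_⟩
  · have := Finset.single_le_sum (fun i _ => p1 i) (Finset.mem_univ i)
    exact hb_mono (q1 i) (by linarith) (by linarith)
  · have := (Finset.single_le_sum (fun j _ => p2 i j) (Finset.mem_univ j)).trans
      (Finset.single_le_sum (fun i _ => s2 i) (Finset.mem_univ i))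
    exact hb_mono (q2 i j) (by linarith) (by linarith)

/-- the estimate near the origin -/
theorem loc (hα : α ∈ Ioo (0 : ℝ) 1) {Λ C r : ℝ} (hΛ : 0 ≤ Λ) (hr : 0 < r)
    (hC : ∀ (a : Mx n) (w : E n → ℝ) (K : ℝ), El Λ a → ContDiff ℝ 2 w → HasCompactSupport w →
      0 ≤ K → (∀ x y, |pr2 a (D2 w x) - pr2 a (D2 w y)| ≤ K * ‖x - y‖ ^ α) →
      ∀ x y, ‖D2 w x - D2 w y‖ ≤ C * K * ‖x - y‖ ^ α) :
    ∃ C₁, 0 ≤ C₁ ∧ ∀ (a : E n → Mx n) (v : E n → ℝ) (T K : ℝ), El Λ (a 0) → Ho α Λ a →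
      ContDiff ℝ 2 v → 0 ≤ K → (∀ x y, ‖D2 v x - D2 v y‖ ≤ K * ‖x - y‖ ^ α) →
      (∀ x, ‖D1 v x‖ ≤ T) → (∀ x, ‖D2 v x‖ ≤ T) → Ho α T (fun x => pr2 (a x) (D2 v x)) →
      ∀ x, ‖x‖ < r → ‖D2 v x - D2 v 0‖ ≤
        C * (n ^ 2 * Λ * (2 * r) ^ α * K + C₁ * T) * ‖x‖ ^ α := by
  obtain ⟨ζ, Z, Z0, z2, zc, z1, z0, b0, b1, b2⟩ := bump (n := n) hα hr
  refine ⟨1 + Z + n ^ 2 * Λ * (1 + 2 * Z + 2 * Z * (n + 4) + Z * ((n + 1) * (1 + 6 * r))),
    by positivity, fun a v T K he ha hv K0 hK h1 h2 hf x hx => ?_⟩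
  have T0 : 0 ≤ T := (norm_nonneg _).trans (h1 0)
  have d1 : ∀ x i, |pd i v x| ≤ T := fun x i => (norm_le_pi_norm (D1 v x) i).trans (h1 x)
  have d2 : ∀ x i j, |D2 v x i j| ≤ T := fun x i j => (ent _ i j).trans (h2 x)
  have l0 := lip (fun y => diff2 hv.contDiffAt) T0 d1
  set m := (n + 1) * T * (2 * r) with hm
  have m0 : 0 ≤ m := by positivity
  have k0 : HB α (fun y => max (min (v y - v 0) m) (-m)) m ((n + 1) * T + 2 * m) :=
    hb_lip hα (by positivity)
      (fun y => abs_le.2 ⟨le_max_right _ _, max_le (min_le_right _ _) (by linarith)⟩) fun y z =>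
      (abs_max_sub_max_le_abs _ _ _).trans ((abs_min_sub_min_le_max _ _ _ _).trans (max_le
        (by rw [sub_sub_sub_cancel_right]; exact l0 y z) (by rw [sub_self, abs_zero]; positivity)))
  have k1 : ∀ j, HB α (pd j v) T ((n + 1) * T + 2 * T) := fun j => hb_lip hα (by positivity)
    (fun y => d1 y j) (lip (fun y => diffAt_pd hv.contDiffAt j) T0 fun y i => d2 y i j)
  have k2 : ∀ i j, HB α (fun y => D2 v y i j) T K := fun i j =>
    ⟨fun y => d2 y i j, fun y z => (ent (D2 v y - D2 v z) i j).trans (hK y z)⟩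
  have k3 : ∀ i j, HB α (fun y => ζ y * (a 0 i j + -a y i j)) (Λ * (2 * r) ^ α)
      (1 * (0 + Λ) + Z * (Λ + Λ)) := fun i j => by
    refine ⟨fun y => ?_, (hb_mul b0 (hb_add (hb_const (he.2.1 i j)) (g := fun y => -a y i j)
      ⟨fun y => (norm_neg _).trans_le ((ent _ i j).trans (ha.1 y)), fun y z => ?_⟩)).hol⟩
    · rcases lt_or_ge (2 * r) ‖y‖ with h | h
      · rw [z0 y h, zero_mul, norm_zero]
        positivity
      · refine (norm_mul_le _ _).trans ((mul_le_of_le_one_left (norm_nonneg _) (b0.sup y)).trans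
          (((ent (a 0 - a y) i j).trans (ha.2 0 y)).trans ?_))
        rw [zero_sub, norm_neg]
        gcongr
        exact hα.1.le
    · rw [neg_sub_neg, norm_sub_rev]
      exact (ent (a y - a z) i j).trans (ha.2 y z)
  have k4 := (hb_add (hb_mul b0 ⟨hf.1, hf.2⟩) (hb_sum fun i => hb_sum fun j =>
    hb_add (hb_mul (k3 i j) (k2 i j)) (hb_mul (hb_const (he.2.1 i j)) (hb_add (hb_add
      (hb_mul (b1 i) (k1 j)) (hb_mul (b1 j) (k1 i))) (hb_mul k0 (b2 i j)))))).hol
  have k5 : ∀ y, pr2 (a 0) (D2 (fun y => ζ y * (v y - v 0)) y) = ζ y * pr2 (a y) (D2 v y) +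
      ∑ i, ∑ j, (ζ y * (a 0 i j + -a y i j) * D2 v y i j + a 0 i j * (pd i ζ y * pd j v y +
        pd j ζ y * pd i v y + max (min (v y - v 0) m) (-m) * pd i (pd j ζ) y)) := fun y => by
    simp only [pr2, Finset.mul_sum, ← Finset.sum_add_distrib]
    refine Finset.sum_congr rfl fun i _ => Finset.sum_congr rfl fun j _ => ?_
    rw [d2_mul z2 hv]
    rcases lt_or_ge (2 * r) ‖y‖ with h | h
    · have e : ζ =ᶠ[𝓝 y] fun _ => 0 :=
        Eventually.mono ((isOpen_lt continuous_const continuous_norm).mem_nhds h) z0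
      have e' : pd i (pd j ζ) y = 0 := by
        rw [pd_congr (pd_congr_ev e j) i, show (pd j fun _ : E n => (0 : ℝ)) = fun _ => 0 from
          funext (pd_const 0 j), pd_const]
      rw [e']
      ring
    · have e := abs_le.1 ((l0 y 0).trans (show _ ≤ m by rw [sub_zero, hm]; gcongr))
      rw [min_eq_left e.2, max_eq_left e.1]
      ring
  have k6 : ∀ y, ‖y‖ < r → D2 (fun y => ζ y * (v y - v 0)) y = D2 v y := fun y hy => by
    have e : (fun y => ζ y * (v y - v 0)) =ᶠ[𝓝 y] fun y => v y - v 0 :=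
      Eventually.mono ((isOpen_lt continuous_norm continuous_const).mem_nhds hy)
        fun z hz => by simp only [z1 z hz, one_mul]
    funext i j
    rw [D2, pd_congr (pd_congr_ev e j) i, show (pd j fun y => v y - v 0) = pd j v from
      funext fun _ => pd_sub_const _ j, D2]
  have k7 := hC (a 0) _ (n ^ 2 * Λ * (2 * r) ^ α * K + (1 + Z + n ^ 2 * Λ *
    (1 + 2 * Z + 2 * Z * (n + 4) + Z * ((n + 1) * (1 + 6 * r)))) * T) he
    (z2.mul (hv.sub contDiff_const)) zc.mul_right (by positivity) (fun y z => by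
      rw [k5, k5]
      refine (k4 y z).trans_eq ?_
      rw [hm]
      ring) x 0
  rwa [k6 x hx, k6 0 (by rwa [norm_zero]), sub_zero x] at k7

theorem small (hα : 0 < α) {c : ℝ} (hc : 0 ≤ c) : ∃ r > (0 : ℝ), c * r ^ α ≤ 1 / 4 := by
  refine ⟨(4 * (c + 1))⁻¹ ^ α⁻¹, by positivity, ?_⟩
  rw [Real.rpow_inv_rpow (by positivity) hα.ne', ← div_eq_mul_inv, div_le_iff₀ (by positivity)]
  linarith

theorem absorb {V : Type} [NormedAddCommGroup V] {F : E n → V} {G : ℝ} (hG : 0 ≤ G) (hK : 0 ≤ K)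
    (h : ∀ x y, ‖F x - F y‖ ≤ K * ‖x - y‖ ^ α)
    (st : ∀ K, 0 ≤ K → (∀ x y, ‖F x - F y‖ ≤ K * ‖x - y‖ ^ α) →
      ∀ x y, ‖F x - F y‖ ≤ (G + K / 2) * ‖x - y‖ ^ α) (x y : E n) :
    ‖F x - F y‖ ≤ 2 * G * ‖x - y‖ ^ α := by
  set S := {K : ℝ | 0 ≤ K ∧ ∀ x y, ‖F x - F y‖ ≤ K * ‖x - y‖ ^ α}
  have h1 : S.Nonempty := ⟨K, hK, h⟩
  have h2 : 0 ≤ sInf S := le_csInf h1 fun _ k => k.1
  have h3 : ∀ x y, ‖F x - F y‖ ≤ sInf S * ‖x - y‖ ^ α := fun x y => by
    rcases (Real.rpow_nonneg (norm_nonneg (x - y)) α).eq_or_lt with e | e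
    · have := h x y
      rwa [← e, mul_zero] at this ⊢
    · exact (div_le_iff₀ e).1 (le_csInf h1 fun _ k => (div_le_iff₀ e).2 (k.2 x y))
  have h4 : sInf S ≤ G + sInf S / 2 :=
    csInf_le ⟨0, fun _ k => k.1⟩ ⟨by positivity, st _ h2 h3⟩
  exact (h3 x y).trans (mul_le_mul_of_nonneg_right (by linarith) (by positivity))

theorem d1_tr (v : E n → ℝ) (c x : E n) : D1 (fun y => v (y - c)) x = D1 v (x - c) :=
  funext fun i => pd_translate c i

theorem d2_tr (v : E n → ℝ) (c x : E n) : D2 (fun y => v (y - c)) x = D2 v (x - c) :=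
  funext₂ fun i j => by
    rw [D2, show (pd j fun y => v (y - c)) = fun y => pd j v (y - c) from
      funext fun _ => pd_translate c j, pd_translate, D2]

end UschX

open UschX in
/-- **row USCH** from the estimate for constant coefficients -/
theorem usch_of' (hC : CCE) (hI : INTP) : USCH := by
  intro n α Λ hα
  by_cases hΛ : 0 ≤ Λ
  swap
  · exact ⟨1, one_pos, fun a v A B _ ha => absurd ((norm_nonneg _).trans (ha.1 0)) hΛ⟩
  obtain ⟨C, C0, hC⟩ := hC n α Λ hα
  obtain ⟨D, D0, hI⟩ := hI n α hα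
  obtain ⟨s, s0, hs⟩ := small hα.1 (c := C * (n ^ 2 * Λ)) (by positivity)
  obtain ⟨r, rfl⟩ : ∃ r, s = 2 * r := ⟨s / 2, by ring⟩
  have r0 : 0 < r := by linarith
  obtain ⟨C₁, p1, h1⟩ := loc hα hΛ r0 hC
  set C₂ := C * C₁ + 2 / r ^ α with e2
  have p2 : 0 ≤ C₂ := by positivity
  obtain ⟨ρ, ρ0, hρ⟩ := small hα.1 (c := C₂ * D) (by positivity)
  set C₃ := C₂ * (1 + D / ρ) with e3
  have p3 : 0 ≤ C₃ := by positivity
  refine ⟨2 * C₃ + D * (1 / ρ + 2 * C₃ * ρ ^ α), by positivity,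
    fun a v A B he ha hv ⟨K, hK⟩ hA hB => ?_⟩
  have A0 : 0 ≤ A := (norm_nonneg _).trans (hA 0)
  have B0 : 0 ≤ B := (norm_nonneg _).trans (hB.1 0)
  have key := absorb (G := C₃ * (A + B)) (by positivity) ((norm_nonneg _).trans (hK.1 0)) hK.2
    fun K K0 hK x y => by
      have h2 := (hI v A K ρ ρ0 A0 K0 hv hK).2 hA
      set S := D * (A / ρ + K * ρ ^ α) with hS
      have S0 : 0 ≤ S := by positivity
      have d0 : 0 ≤ ‖x - y‖ ^ α := by positivity
      refine le_trans (?_ : _ ≤ (K / 4 + C₂ * (A + B + S)) * ‖x - y‖ ^ α)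
        (mul_le_mul_of_nonneg_right ?_ d0)
      · rcases lt_or_ge ‖x - y‖ r with h | h
        · have h3 := h1 (fun z => a (z - -y)) (fun z => v (z - -y)) (A + B + S) K (he _)
            ⟨fun z => ha.1 _, fun z w => (ha.2 _ _).trans_eq (by rw [sub_sub_sub_cancel_right])⟩
            (hv.comp (contDiff_id.sub contDiff_const)) K0
            (fun z w => by
              rw [d2_tr, d2_tr]
              exact (hK _ _).trans_eq (by rw [sub_sub_sub_cancel_right]))
            (fun z => by rw [d1_tr]; linarith [hA (z - -y)])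
            (fun z => by rw [d2_tr]; linarith [h2 (z - -y)])
            ⟨fun z => by simp only [d2_tr]; linarith [hB.1 (z - -y)], fun z w => by
              simp only [d2_tr]
              refine (hB.2 _ _).trans ?_
              rw [sub_sub_sub_cancel_right]
              gcongr
              linarith⟩ (x - y) h
          rw [d2_tr, d2_tr, sub_neg_eq_add, sub_neg_eq_add, sub_add_cancel, zero_add] at h3
          refine h3.trans (mul_le_mul_of_nonneg_right ?_ d0)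
          have h4 := mul_le_mul_of_nonneg_right hs K0
          have h5 : 0 ≤ 2 / r ^ α * (A + B + S) := by positivity
          rw [e2]
          linarith
        · have h3 : r ^ α ≤ ‖x - y‖ ^ α := Real.rpow_le_rpow r0.le h hα.1.le
          calc _ ≤ 2 * S := by linarith [norm_sub_le (D2 v x) (D2 v y), h2 x, h2 y]
            _ = 2 / r ^ α * S * r ^ α := by field_simp
            _ ≤ (0 + C₂ * (0 + S)) * ‖x - y‖ ^ α := by
              rw [zero_add, zero_add, e2]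
              gcongr
              exact le_add_of_nonneg_left (by positivity)
            _ ≤ _ := by gcongr <;> positivity
      · have h4 := mul_le_mul_of_nonneg_right hρ K0
        have h5 : 0 ≤ C₂ * (D / ρ) * B := by positivity
        have h6 : C₂ * (A + B + S) + C₂ * (D / ρ) * B = C₃ * (A + B) + C₂ * D * ρ ^ α * K := by
          rw [hS, e3]
          ring
        linarith
  have h2 := (hI v A (2 * (C₃ * (A + B))) ρ ρ0 A0 (by positivity) hv key).2 hA
  have h3 : 0 ≤ D * (1 / ρ) * B := by positivity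
  have h4 : 0 ≤ 2 * C₃ * (A + B) := by positivity
  have h5 : 0 ≤ D * (1 / ρ + 2 * C₃ * ρ ^ α) * (A + B) := by positivity
  refine ⟨fun x => (h2 x).trans ?_, fun x y => (key x y).trans
    (mul_le_mul_of_nonneg_right (by linarith) (by positivity))⟩
  have h6 : (2 * C₃ + D * (1 / ρ + 2 * C₃ * ρ ^ α)) * (A + B) = 2 * C₃ * (A + B) +
      D * (1 / ρ) * B + D * (A / ρ + 2 * (C₃ * (A + B)) * ρ ^ α) := by ring
  linarith

end Vale.Agent.P366Y
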