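import Vale.Agent.P366Y.Sk

/-!
# P366Y, tools: the estimate for constant coefficients (statement)
-/

open Set
open Vale.Agent.P366.Stmt Vale.Agent.P366Z

namespace Vale.Agent.P366Y

/-- **CCE**: the estimate of Schauder for constant coefficients, uniform in the ellipticity -/
def CCE : Prop := ∀ (n : ℕ) (α Λ : ℝ), α ∈ Ioo (0 : ℝ) 1 → ∃ C > (0 : ℝ), ∀ (a : Mx n)
  (w : E n → ℝ) (K : ℝ), El Λ a → ContDiff ℝ 2 w → HasCompactSupport w → 0 ≤ K →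
  (∀ x y, |pr2 a (D2 w x) - pr2 a (D2 w y)| ≤ K * ‖x - y‖ ^ α) →
  ∀ x y, ‖D2 w x - D2 w y‖ ≤ C * K * ‖x - y‖ ^ α

end Vale.Agent.P366Y
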